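import Vale.Agent.P158N.Geo

/-! Branch points (apexes): counting and creation. -/

namespace Vale.Agent.P158N

open Finset
open scoped Classical

/-- the geodesics from `a` to `b` and to `b'` branch at `q` -/
def Apx (w : Om) (a q b b' : V) : Prop :=
  On w a q b ∧ On w a q b' ∧ ∀ x, On w q x b → On w q x b' → x = q

/-- no vertex is a branch point at all scales -/
def NoApex (w : Om) : Prop := ∀ q : V, ¬ ∀ H : ℤ, ∃ a b b', H < nrm (a - q) ∧ H < nrm (b - q) ∧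
  H < nrm (b' - q) ∧ Apx w a q b b'

variable {w : Om}

lemma Apx.trunc (hw : NN w) {a q b b' a1 b1 b1' : V} (h : Apx w a q b b') (h1 : On w a a1 q)
    (h2 : On w q b1 b) (h3 : On w q b1' b') : Apx w a1 q b1 b1' := by
  obtain ⟨a1', a2, a3⟩ := h
  have c1 := (a1'.right hw h2).2
  have b2 := (a2.right hw h3).2
  refine ⟨?_, ?_, fun x c d =>
    a3 x (h2.left hw c).1 (h3.left hw d).1⟩
  · have := T_tri hw a1 q b1
    have := T_tri hw a a1 b1
    unfold On at *; linarith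
  · have := T_tri hw a1 q b1'
    have := T_tri hw a a1 b1'
    unfold On at *; linarith

/-- Tree lemma.  Order `W` linearly (e.g. by an injection into `ℕ`); `D q` = targets below `q`,
`b ~ b'` iff some `x ≠ q` lies on both geodesics from `q`; `m q = min (D q)`,
`φ q = min {b ∈ D q | ¬ b ~ m q}` is injective. -/
lemma tree (hw : Nice w) (a : V) (W Q : Finset V)
    (h : ∀ q ∈ Q, ∃ b ∈ W, ∃ b' ∈ W, b ≠ q ∧ b' ≠ q ∧ Apx w a q b b') : Q.card ≤ W.card := by
  obtain ⟨f, hf⟩ := exists_injective_nat V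
  let R : V → V → V → Prop := fun q b b' => ∃ x, x ≠ q ∧ On w q x b ∧ On w q x b'
  have Rs : ∀ q b b', R q b b' → R q b' b := fun q b b' ⟨x, a, b, c⟩ => ⟨x, a, c, b⟩
  have Rt : ∀ q b b' c, R q b b' → R q b' c → R q b c := by
    rintro q b b' c ⟨x, a1, a2, a3⟩ ⟨y, b1, b2, b3⟩
    rcases a3.total hw b2 with e | e
    · exact ⟨x, a1, a2, (b3.left hw.nn e).1⟩
    · exact ⟨y, b1, (a2.left hw.nn e).1, b3⟩
  have key : ∀ q ∈ Q, ∃ m ∈ W, ∃ b ∈ W, On w a q m ∧ On w a q b ∧ m ≠ q ∧ b ≠ q ∧ ¬ R q b m ∧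
      (∀ c ∈ W, On w a q c → c ≠ q → f m ≤ f c) ∧
      ∀ c ∈ W, On w a q c → c ≠ q → ¬ R q c m → f b ≤ f c := by
    intro q hq
    obtain ⟨b, hb, b', hb', n1, n2, o1, o2, o3⟩ := h q hq
    obtain ⟨m, hm, hm'⟩ := exists_min_image (W.filter fun c => On w a q c ∧ c ≠ q) f
      ⟨b, mem_filter.2 ⟨hb, o1, n1⟩⟩
    have : (W.filter fun c => On w a q c ∧ c ≠ q ∧ ¬ R q c m).Nonempty := by
      by_cases r : R q b m
      · refine ⟨b', mem_filter.2 ⟨hb', o2, n2, fun r' => ?_⟩⟩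
        obtain ⟨x, x1, x2, x3⟩ := Rt _ _ _ _ r (Rs _ _ _ r')
        exact x1 (o3 x x2 x3)
      · exact ⟨b, mem_filter.2 ⟨hb, o1, n1, r⟩⟩
    obtain ⟨c, hc, hc'⟩ := exists_min_image _ f this
    simp only [mem_filter] at hm hm' hc hc'
    exact ⟨m, hm.1, c, hc.1, hm.2.1, hc.2.1, hm.2.2, hc.2.2.1, hc.2.2.2,
      fun d d1 d2 d3 => hm' d ⟨d1, d2, d3⟩, fun d d1 d2 d3 d4 => hc' d ⟨d1, d2, d3, d4⟩⟩
  choose! m hm φ hφ k1 k2 k3 k4 k5 k6 k7 using key
  have aux : ∀ q ∈ Q, ∀ q' ∈ Q, φ q = φ q' → On w a q q' → q = q' := by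
    intro q hq q' hq' e o
    by_contra ne
    have d1 := (k1 q' hq').left hw.nn o
    have d2 := (k2 q' hq').left hw.nn o
    have r : R q (m q') (φ q) := ⟨q', Ne.symm ne, d1.2, e ▸ d2.2⟩
    have n1 : m q' ≠ q := fun e' => ne (o.antisymm hw (e' ▸ k1 q' hq'))
    have l1 := k7 q hq _ (hm q' hq') d1.1 n1 fun r' => k5 q hq (Rt _ _ _ _ (Rs _ _ _ r) r')
    have l2 := k6 q' hq' _ (hφ q' hq') (k2 q' hq') (k4 q' hq')
    have e2 : m q' = φ q' := hf (le_antisymm l2 (e ▸ l1))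
    exact k5 q' hq' ⟨φ q', k4 q' hq', on_right hw.nn _ _, e2 ▸ on_right hw.nn _ _⟩
  refine card_le_card_of_injOn φ (fun q hq => hφ q hq) fun q hq q' hq' e => ?_
  rcases (k2 q hq).total hw (e ▸ k2 q' hq') with o | o
  exacts [aux q hq q' hq' e o, (aux q' hq' q hq e.symm o).symm]

/-- the last point of the geodesic `g` that lies on a geodesic from `a = g i` to `b` is an apex -/
lemma exists_apx (hw : Nice w) {g : ℤ → V} {i j k : ℤ} {b : V} (hg : Geo w g i j) (h1 : i ≤ k)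
    (h2 : k ≤ j) (h : On w (g i) (g k) b) :
    ∃ l, k ≤ l ∧ l ≤ j ∧ Apx w (g i) (g l) b (g j) := by
  obtain ⟨l, ⟨l1, l2, l3⟩, hl⟩ := Int.exists_greatest_of_bdd
    (P := fun l => k ≤ l ∧ l ≤ j ∧ On w (g i) (g l) b) ⟨j, fun _ h => h.2.1⟩ ⟨k, le_rfl, h2, h⟩
  refine ⟨l, l1, l2, l3, hg.on hw.nn le_rfl (by omega) l2 le_rfl, fun x x1 x2 => ?_⟩
  obtain ⟨t, t1, t2, rfl⟩ := hw.uniq g l j x (hg.sub hw.nn (by omega) l2 le_rfl) x2
  have := hl t ⟨by omega, t2, (l3.right hw.nn x1).1⟩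
  congr 1; omega

lemma pw_le {s : Om} {F F' : Finset E} (h : F' ⊆ F) (hs : ∀ e ∈ F, s e ≤ w e) (e : E) :
    F.piecewise s w e ≤ F'.piecewise s w e := by
  by_cases a : e ∈ F'
  · simp [piecewise, a, h a]
  · by_cases b : e ∈ F
    · simp [piecewise, a, b, hs e b]
    · simp [piecewise, a, b]

lemma pw_le' {s : Om} {F : Finset E} (hs : ∀ e ∈ F, s e ≤ w e) (e : E) :
    F.piecewise s w e ≤ w e := by
  simpa using pw_le (empty_subset F) hs e

lemma pw_agree {s : Om} {F F1 F2 : Finset E} (h : F1 ⊆ F2) (h' : F2 ⊆ F1 ∪ F) (e : E)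
    (he : e ∉ F) : F1.piecewise s w e = F2.piecewise s w e := by
  by_cases a : e ∈ F1
  · simp [piecewise, a, h a]
  · have : e ∉ F2 := fun b => by simpa [a, he] using h' b
    simp [piecewise, a, this]

lemma T_pw {s : Om} {F F1 F2 : Finset E} (h : F1 ⊆ F2) (h' : F2 ⊆ F1 ∪ F)
    (hs : ∀ e ∈ F2, s e ≤ w e) (hs' : ∀ e ∈ F, s e ≤ w e) (n1 : NN (F1.piecewise s w))
    (n2 : NN (F2.piecewise s w)) (x y : V) :
    T (F1.piecewise s w) x y - ∑ e ∈ F, (w e - s e) ≤ T (F2.piecewise s w) x y := by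
  refine le_trans ?_ (T_lower n2 n1 F (fun e he => (pw_agree h h' e he).le)
    (fun e _ => pw_le h hs e) x y)
  refine sub_le_sub_left (sum_le_sum fun e he => ?_) _
  have := hs' e he
  by_cases a : e ∈ F1
  · simp [piecewise, a, h a, this]
  · by_cases b : e ∈ F2 <;> simp [piecewise, a, b, this]

lemma cost_pw {s : Om} {g : ℤ → V} {i j : ℤ} (hv : Walk g i j) (hi : Set.InjOn g (Set.Icc i j))
    {F F' : Finset E} (h : F' ⊆ F) (h1 : ∀ e ∈ F', ∃ k, i ≤ k ∧ k < j ∧ ed g k = e)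
    (h2 : ∀ k, i ≤ k → k < j → ed g k ∈ F → ed g k ∈ F') :
    cost (F.piecewise s w) g i j = cost w g i j - ∑ e ∈ F', (w e - s e) := by
  rw [cost_congr (w2 := F'.piecewise s w) fun k a b => ?_,
    cost_lower (w2 := w) hv hi F' (fun e he => by simp [piecewise, he]) h1]
  · congr 1; exact sum_congr rfl fun e he => by simp [piecewise, he]
  · by_cases c : ed g k ∈ F
    · simp [piecewise, c, h2 k a b c]
    · simp [piecewise, c, show ed g k ∉ F' from fun d => c (h d)]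

/-- (AP) creation of an apex.  `Pe` = lowered edges on `g'` (indices in `[i1,i2)`), `Qe` = slightly
lowered edges on `g` (indices in `[l1,l2)`).  Take `F ⊆ Qe` minimal such that lowering `Pe ∪ F`
strictly decreases `T a b` compared with lowering `Pe` only.  See notes/P158N.md. -/
lemma apex_create (hw : Nice w) {g' g : ℤ → V} {i0 i1 i2 j0 l0 l1 l2 l3 : ℤ} {K η : ℝ}
    (hg' : Geo w g' i0 j0) (hg : Geo w g l0 l3) (o1 : i0 ≤ i1) (o2 : i1 ≤ i2) (o3 : i2 ≤ j0)
    (o4 : l0 ≤ l1) (o5 : l1 ≤ l2) (o6 : l2 ≤ l3)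
    (hd : ∀ k l, i0 ≤ k → k ≤ j0 → l0 ≤ l → l ≤ l3 → g' k ≠ g l)
    (Pe Qe : Finset E) (s : Om)
    (hP : ∀ e ∈ Pe, (∃ k, i1 ≤ k ∧ k < i2 ∧ ed g' k = e) ∧ s e ≤ w e)
    (hQ : ∀ e ∈ Qe, (∃ l, l1 ≤ l ∧ l < l2 ∧ ed g l = e) ∧ s e ≤ w e ∧ w e - η ≤ s e)
    (hη : 0 ≤ η) (hη1 : η ≤ 1)
    (hK : T w (g' i0) (g' i2) + T w (g' i2) (g l0) + T w (g l0) (g l3) - T w (g' i0) (g l3) ≤ K)
    (sP : 2 * K + 1 < ∑ e ∈ Pe, (w e - s e)) (sQ : K < ∑ e ∈ Qe, (w e - s e))
    (hD : T w (g' i1) (g' i2) + 2 * K + 1 < T w (g l0) (g l1))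
    (win : ∀ k l, i1 ≤ k → k ≤ i2 → l1 ≤ l → l ≤ l2 →
      η < T w (g l) (g' j0) - T w (g' k) (g' j0) + T w (g' k) (g l3) - T w (g l) (g l3))
    (hN : ∀ F ⊆ Pe ∪ Qe, Nice (F.piecewise s w)) :
    ∃ F ⊆ Pe ∪ Qe, ∃ k, i1 ≤ k ∧ k ≤ j0 ∧ Apx (F.piecewise s w) (g' i0) (g' k) (g l3) (g' j0) ∧
      (k ≤ i2 ∨ T w (g' i2) (g' k) ≤ T w (g' i2) (g l0) + T w (g l0) (g l2)) := by
  have nn := hw.nn
  have hs : ∀ e ∈ Pe ∪ Qe, s e ≤ w e := fun e he => by
    rcases mem_union.1 he with a | a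
    exacts [(hP e a).2, (hQ e a).2.1]
  have hsP : ∀ e ∈ Pe, s e ≤ w e := fun e he => (hP e he).2
  have sub : ∀ F ⊆ Qe, Pe ∪ F ⊆ Pe ∪ Qe := fun F hF => union_subset_union_right hF
  have NF : ∀ F ⊆ Qe, Nice ((Pe ∪ F).piecewise s w) := fun F hF => hN _ (sub F hF)
  have NP : Nice (Pe.piecewise s w) := hN _ subset_union_left
  have ig' := hg'.injOn hw.pos
  have ig := hg.injOn hw.pos
  have endP : ∀ e ∈ Pe, ∀ x, End e x → ∃ k, i1 ≤ k ∧ k ≤ i2 ∧ x = g' k := fun e he x hx => by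
    obtain ⟨k, a, b, rfl⟩ := (hP e he).1
    rcases (hg'.2.1.end_ed (by omega) (by omega)).1 hx with c | c
    exacts [⟨k, a, b.le, c⟩, ⟨k + 1, by omega, by omega, c⟩]
  have endQ : ∀ e ∈ Qe, ∀ x, End e x → ∃ l, l1 ≤ l ∧ l ≤ l2 ∧ x = g l := fun e he x hx => by
    obtain ⟨k, a, b, rfl⟩ := (hQ e he).1
    rcases (hg.2.1.end_ed (by omega) (by omega)).1 hx with c | c
    exacts [⟨k, a, b.le, c⟩, ⟨k + 1, by omega, by omega, c⟩]
  have nQ : ∀ k, i0 ≤ k → k < j0 → ed g' k ∉ Qe := fun k a b c => by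
    obtain ⟨l, d, e, f⟩ := endQ _ c _ ((hg'.2.1.end_ed a b).2 (Or.inl rfl))
    exact hd k l a b.le (by omega) (by omega) f
  have nP : ∀ l, l0 ≤ l → l < l3 → ed g l ∉ Pe := fun l a b c => by
    obtain ⟨k, d, e, f⟩ := endP _ c _ ((hg.2.1.end_ed a b).2 (Or.inl rfl))
    exact hd k l (by omega) (by omega) a b.le f.symm
  have le_w : ∀ F ⊆ Pe ∪ Qe, ∀ x y, T (F.piecewise s w) x y ≤ T w x y := fun F hF x y =>
    T_mono (hN F hF).nn (pw_le' fun e he => hs e (hF he)) x y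
  set A := ∑ e ∈ Pe, (w e - s e) with hA
  have cP : ∀ F ⊆ Qe, ∀ k, i2 ≤ k → k ≤ j0 →
      cost ((Pe ∪ F).piecewise s w) g' i0 k = T w (g' i0) (g' k) - A := fun F hF k a b => by
    rw [cost_pw (hg'.2.1.mono le_rfl b) (ig'.mono (Set.Icc_subset_Icc_right b)) subset_union_left,
      hg'.cost_eq nn le_rfl (by omega) b]
    · intro e he
      obtain ⟨t, c, d, f⟩ := (hP e he).1
      exact ⟨t, by omega, by omega, f⟩
    · intro t c d f
      exact (mem_union.1 f).resolve_right fun h => nQ t c (by omega) (hF h)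
  have GP : Geo (Pe.piecewise s w) g' i0 j0 :=
    hg'.lower NP.nn nn ig' Pe (fun e he => by simp [piecewise, he])
      (fun e _ => pw_le' hsP e) fun e he => by
        obtain ⟨t, c, d, f⟩ := (hP e he).1
        exact ⟨t, by omega, by omega, f⟩
  have TP : ∀ k, i2 ≤ k → k ≤ j0 → T (Pe.piecewise s w) (g' i0) (g' k) = T w (g' i0) (g' k) - A :=
    fun k a b => by
      rw [← GP.cost_eq NP.nn le_rfl (by omega) b, ← cP ∅ (empty_subset _) k a b, union_empty]
  have LP : ∀ x y, T w x y - A ≤ T (Pe.piecewise s w) x y := fun x y => by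
    have := T_pw (F1 := ∅) (F := Pe) (empty_subset Pe) (by simp) hsP hsP (by simpa) NP.nn x y
    rwa [piecewise_empty] at this
  have hA2 : A ≤ T w (g' i1) (g' i2) := by
    have := cost_pw (w := w) (s := s) (hg'.2.1.mono o1 o3) (ig'.mono (Set.Icc_subset_Icc o1 o3))
      (subset_refl Pe) (fun e he => (hP e he).1) fun _ _ _ h => h
    have h2 := cost_nonneg NP.nn g' i1 i2
    rw [hg'.cost_eq nn o1 o2 o3] at this
    linarith
  have up : ∀ F ⊆ Qe, T ((Pe ∪ F).piecewise s w) (g' i0) (g l3) ≤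
      T w (g' i0) (g l3) + K - A - ∑ e ∈ F, (w e - s e) := fun F hF => by
    have n := (NF F hF).nn
    have t1 := T_tri n (g' i0) (g' i2) (g l3)
    have t2 := T_tri n (g' i2) (g l0) (g l3)
    have t3 := T_le_cost n (by omega) (hg'.2.1.mono le_rfl o3)
    have t4 := T_le_cost n hg.1 hg.2.1
    have t5 := le_w _ (sub F hF) (g' i2) (g l0)
    rw [cP F hF i2 le_rfl o3] at t3
    rw [cost_pw hg.2.1 ig subset_union_right, hg.2.2] at t4
    · linarith
    · intro e he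
      obtain ⟨t, c, d, f⟩ := (hQ e (hF he)).1
      exact ⟨t, by omega, by omega, f⟩
    · exact fun t c d f => (mem_union.1 f).resolve_left (nP t c d)
  have up0 : T (Pe.piecewise s w) (g' i0) (g l3) ≤ T w (g' i0) (g l3) + K - A := by
    have := up ∅ (empty_subset _)
    rwa [union_empty, sum_empty, sub_zero] at this
  have hK0 : 0 ≤ K := by have := LP (g' i0) (g l3); linarith
  obtain ⟨kx, x1, x2, x3, x4⟩ : ∃ k, i1 ≤ k ∧ k ≤ i2 ∧
      On (Pe.piecewise s w) (g' i0) (g' k) (g l3) ∧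
      T w (g' k) (g l3) ≤ T (Pe.piecewise s w) (g' k) (g l3) := by
    rcases last_edge NP nn Pe (fun e he => by simp [piecewise, he]) (g' i0) (g l3) with
      c | ⟨e, he, p, c, d, f⟩
    · linarith
    · obtain ⟨k, a, b, rfl⟩ := endP e he p c
      exact ⟨k, a, b, d, f⟩
  obtain ⟨F, hF, hmin⟩ := exists_min_image (Qe.powerset.filter fun F =>
      T ((Pe ∪ F).piecewise s w) (g' i0) (g l3) < T (Pe.piecewise s w) (g' i0) (g l3)) card
    ⟨Qe, mem_filter.2 ⟨mem_powerset_self _, by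
      have := up Qe subset_rfl; have := LP (g' i0) (g l3); linarith⟩⟩
  obtain ⟨hF, hlt⟩ := mem_filter.1 hF
  rw [mem_powerset] at hF
  obtain ⟨e0, he0⟩ : F.Nonempty := by
    rw [nonempty_iff_ne_empty]; rintro rfl; rw [union_empty] at hlt; exact lt_irrefl _ hlt
  have hF0 : F.erase e0 ⊆ Qe := (erase_subset _ _).trans hF
  have hge : T (Pe.piecewise s w) (g' i0) (g l3) ≤
      T ((Pe ∪ F.erase e0).piecewise s w) (g' i0) (g l3) := by
    by_contra hc
    have := hmin _ (mem_filter.2 ⟨mem_powerset.2 hF0, not_le.1 hc⟩)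
    have := card_erase_lt_of_mem he0
    omega
  have he1 : w e0 - s e0 ≤ η := by have := (hQ e0 (hF he0)).2.2; linarith
  have sF : ∑ e ∈ F, (w e - s e) ≤ K + η := by
    have := up _ hF0
    have := LP (g' i0) (g l3)
    rw [← add_sum_erase F _ he0]
    linarith
  have N := NF F hF
  have hsF : ∀ e ∈ Pe ∪ F, s e ≤ w e := fun e he => hs e (sub F hF he)
  have hsF' : ∀ e ∈ F, s e ≤ w e := fun e he => hsF e (mem_union_right _ he)
  have lb : ∀ l, l1 ≤ l → l ≤ l2 →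
      T w (g' i0) (g' i2) < T ((Pe ∪ F).piecewise s w) (g' i0) (g l) := fun l a b => by
    have t1 := T_pw (F1 := Pe) (F := F) subset_union_left subset_rfl hsF hsF' NP.nn N.nn
      (g' i0) (g l)
    have t2 := LP (g' i0) (g l)
    have t3 := T_tri nn (g' i0) (g l) (g l3)
    have t4 := hg.on nn le_rfl (show l0 ≤ l by omega) (show l ≤ l3 by omega) le_rfl
    have t5 := hg.on nn le_rfl o4 a (show l ≤ l3 by omega)
    have t6 := T_nonneg nn (g l1) (g l)
    have t7 := T_nonneg nn (g' i2) (g l0)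
    unfold On at t4 t5
    linarith
  have agr : ∀ e, e ∉ F → Pe.piecewise s w e ≤ (Pe ∪ F).piecewise s w e := fun e he =>
    (pw_agree subset_union_left subset_rfl e he).le
  have mono : ∀ k, i0 ≤ k → k ≤ i2 → T w (g' i0) (g' k) ≤ T w (g' i0) (g' i2) := fun k a b => by
    have := hg'.on nn le_rfl a b o3
    have := T_nonneg nn (g' k) (g' i2)
    unfold On at *; linarith
  have claim : T (Pe.piecewise s w) (g' i0) (g' j0) ≤
      T ((Pe ∪ F).piecewise s w) (g' i0) (g' j0) := by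
    by_contra hc
    push Not at hc
    rcases last_edge N NP.nn F agr (g' i0) (g' j0) with c | ⟨e, he, p, c, d, f⟩
    · linarith
    obtain ⟨l, a, b, rfl⟩ := endQ e (hF he) p c
    unfold On at d x3
    have q1 : T w (g l) (g' j0) ≤ T (Pe.piecewise s w) (g l) (g' j0) := by
      rcases last_edge NP nn Pe (fun e he => by simp [piecewise, he]) (g l) (g' j0) with
        c | ⟨e, he, p, c, d', -⟩
      · exact c
      · obtain ⟨k, a', b', rfl⟩ := endP e he p c
        have t1 := GP.on NP.nn le_rfl (show i0 ≤ k by omega) (show k ≤ j0 by omega) le_rfl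
        have t2 := T_nonneg NP.nn (g l) (g' k)
        have t3 := lb l a b
        have t4 := mono k (by omega) b'
        have t5 := le_w _ subset_union_left (g' i0) (g' k)
        unfold On at d' t1
        linarith
    have t1 := T_pw (F1 := Pe ∪ F.erase e0) (F2 := Pe ∪ F) (F := {e0})
      (union_subset_union_right (erase_subset _ _)) (fun e he => by
        by_cases h : e = e0
        · simp [h]
        · rcases mem_union.1 he with h' | h' <;> simp [h, h']) hsF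
      (fun e he => by rw [mem_singleton.1 he]; exact hsF' _ he0) (NF _ hF0).nn N.nn (g' i0) (g l)
    rw [sum_singleton] at t1
    have t2 := T_tri (NF _ hF0).nn (g' i0) (g l) (g l3)
    have t3 := le_w _ (sub _ hF0) (g l) (g l3)
    have t4 := GP.on NP.nn le_rfl (show i0 ≤ kx by omega) (show kx ≤ j0 by omega) le_rfl
    have t5 := le_w _ subset_union_left (g' kx) (g' j0)
    have t6 := win kx l x1 x2 a b
    unfold On at t4
    linarith
  have GS : Geo ((Pe ∪ F).piecewise s w) g' i0 j0 :=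
    ⟨hg'.1, hg'.2.1, le_antisymm (by rw [cP F hF j0 o3 le_rfl, ← TP j0 o3 le_rfl]; exact claim)
      (T_le_cost N.nn hg'.1 hg'.2.1)⟩
  obtain ⟨l, p1, p2, p3⟩ : ∃ l, l1 ≤ l ∧ l ≤ l2 ∧
      On ((Pe ∪ F).piecewise s w) (g' i0) (g l) (g l3) := by
    rcases last_edge N NP.nn F agr (g' i0) (g l3) with c | ⟨e, he, p, c, d, -⟩
    · linarith
    · obtain ⟨l, a, b, rfl⟩ := endQ e (hF he) p c
      exact ⟨l, a, b, d⟩
  obtain ⟨k, y1, y2, y3⟩ : ∃ k, i1 ≤ k ∧ k ≤ i2 ∧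
      On ((Pe ∪ F).piecewise s w) (g' i0) (g' k) (g l3) := by
    have nF := (hN F (hF.trans subset_union_right)).nn
    rcases last_edge N nF Pe (fun e he =>
      (pw_agree subset_union_right (by rw [union_comm]) e he).le) (g' i0) (g l3) with
      c | ⟨e, he, p, c, d, -⟩
    · have := T_pw (F1 := ∅) (F := F) (empty_subset F) (by simp) hsF' hsF' (by simpa) nF
        (g' i0) (g l3)
      rw [piecewise_empty] at this
      linarith
    · obtain ⟨k, a, b, rfl⟩ := endP e he p c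
      exact ⟨k, a, b, d⟩
  obtain ⟨q, q1, q2, q3⟩ := exists_apx N GS (show i0 ≤ k by omega) (by omega) y3
  refine ⟨_, sub F hF, q, by omega, q2, q3, ?_⟩
  rcases le_total q i2 with c | c
  · exact Or.inl c
  refine Or.inr ?_
  rcases q3.1.total N p3 with o | o
  · have t1 := GS.cost_eq N.nn le_rfl (by omega) q2
    have t2 := GS.cost_eq N.nn le_rfl (by omega) o3
    rw [cP F hF q c q2] at t1
    rw [cP F hF i2 le_rfl o3] at t2
    have t3 := T_nonneg N.nn (g' q) (g l)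
    have t4 := T_tri N.nn (g' i0) (g' i2) (g l)
    have t5 := le_w _ (sub F hF) (g' i2) (g l)
    have t6 := T_tri nn (g' i2) (g l0) (g l)
    have t7 := hg.on nn le_rfl (show l0 ≤ l by omega) p2 o6
    have t8 := T_nonneg nn (g l) (g l2)
    have t9 := hg'.on nn le_rfl (show i0 ≤ i2 by omega) c q2
    unfold On at o t7 t9
    linarith
  · obtain ⟨t, a, b, e⟩ := N.uniq g' i0 j0 _ GS (q3.2.1.left N.nn o).1
    exact (hd t l a b (by omega) (by omega) e).elim

end Vale.Agent.P158N
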