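import Vale.Agent.P158N.Geo

/-! Busemann functions of bigeodesics, hybrids, robustness. -/

namespace Vale.Agent.P158N

/-- Busemann function of the forward end, normalised at `v 0` -/
noncomputable def Bu (w : Om) (v : ℤ → V) (z : V) : ℝ := ⨅ m : ℕ, (T w z (v m) - cost w v 0 m)

/-- the hybrid (backward end of `v`, forward end of `u`) has bounded deficiency -/
def Hyb (w : Om) (v u : ℤ → V) : Prop := ∃ K : ℝ, ∀ a b : ℤ, a ≤ 0 → 0 ≤ b →
  T w (v a) (v 0) + T w (u 0) (u b) - K ≤ T w (v a) (u b)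

/-- the Busemann functions of both ends differ by a function of oscillation `≤ W` on `Bx m` -/
def Close (w : Om) (m : ℤ) (W : ℝ) (v u : ℤ → V) : Prop := ∀ z z', nrm z ≤ m → nrm z' ≤ m →
  (Bu w v z - Bu w u z) - (Bu w v z' - Bu w u z') ≤ W ∧
  (Bu w (rev v) z - Bu w (rev u) z) - (Bu w (rev v) z' - Bu w (rev u) z') ≤ W

/-- `v` stays a bigeodesic when its `k`-th edge is raised by `c` -/
def RobAt (c : ℝ) (w : Om) (v : ℤ → V) (k : ℤ) : Prop :=
  Bi w v ∧ Bi (Function.update w (ed v k) (w (ed v k) + c)) v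

def Rob (c : ℝ) (w : Om) (v : ℤ → V) : Prop := ∃ k, RobAt c w v k

def RobJ (c : ℝ) (J : ℕ) (w : Om) (v : ℤ → V) : Prop := ∃ k : ℤ, |k| ≤ J ∧ RobAt c w v k

variable {w : Om} {v u : ℤ → V} {c : ℝ}

lemma Bu_bdd (hw : NN w) (hv : Bi w v) (z : V) :
    BddBelow (Set.range fun m : ℕ => T w z (v m) - cost w v 0 m) := by
  refine ⟨-T w z (v 0), ?_⟩
  rintro _ ⟨m, rfl⟩
  have := T_tri hw (v 0) z (v m)
  rw [T_symm w (v 0) z] at this
  simp only [hv.cost (Int.natCast_nonneg m)]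
  linarith

lemma Bu_le (hw : NN w) (hv : Bi w v) (z : V) {m : ℤ} (hm : 0 ≤ m) :
    Bu w v z ≤ T w z (v m) - T w (v 0) (v m) := by
  lift m to ℕ using hm
  rw [← hv.cost (Int.natCast_nonneg m)]
  exact ciInf_le (Bu_bdd hw hv z) m
lemma Bu_tend (hw : NN w) (hv : Bi w v) (z : V) {ε : ℝ} (hε : 0 < ε) : ∃ m0 : ℤ, 0 ≤ m0 ∧
    ∀ m, m0 ≤ m → T w z (v m) - T w (v 0) (v m) < Bu w v z + ε := by
  obtain ⟨m0, h⟩ := exists_lt_of_ciInf_lt (f := fun m : ℕ => T w z (v m) - cost w v 0 m)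
    (lt_add_of_pos_right (Bu w v z) hε)
  refine ⟨m0, Int.natCast_nonneg _, fun m hm => ?_⟩
  rw [hv.cost (Int.natCast_nonneg m0)] at h
  have h1 := hv.on hw (Int.natCast_nonneg m0) hm
  have := T_tri hw z (v m0) (v m)
  unfold On at h1
  linarith
lemma le_Bu (hw : NN w) (hv : Bi w v) {z : V} {x : ℝ} (m1 : ℤ)
    (h : ∀ m, m1 ≤ m → 0 ≤ m → x ≤ T w z (v m) - T w (v 0) (v m)) : x ≤ Bu w v z := by
  refine le_of_forall_pos_le_add fun ε hε => ?_
  obtain ⟨m0, a, b⟩ := Bu_tend hw hv z hε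
  exact (h (max m0 m1) (le_max_right _ _) (by omega)).trans (b _ (le_max_left _ _)).le

lemma Bu_lip (hw : NN w) (hv : Bi w v) (z z' : V) : Bu w v z ≤ Bu w v z' + T w z z' := by
  rw [← sub_le_iff_le_add]
  refine le_Bu hw hv 0 fun m _ hm => ?_
  have := Bu_le hw hv z hm
  have := T_tri hw z z' (v m)
  linarith
lemma Bu_eq (hw : NN w) (hv : Bi w v) {k m : ℤ} (hm : 0 ≤ m) (hk : k ≤ m) :
    Bu w v (v k) = T w (v k) (v m) - T w (v 0) (v m) := by
  refine le_antisymm (Bu_le hw hv _ hm) (le_Bu hw hv m fun m' h _ => ?_)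
  have h1 := hv.on hw hm h
  have h2 := hv.on hw hk h
  unfold On at *; linarith

lemma Bu_zero (hw : NN w) (hv : Bi w v) : Bu w v (v 0) = 0 := by rw [Bu_eq hw hv le_rfl le_rfl, sub_self]
lemma Bu_on (hw : NN w) (hv : Bi w v) {i j : ℤ} (h : i ≤ j) :
    Bu w v (v i) = Bu w v (v j) + T w (v i) (v j) := by
  rw [Bu_eq hw hv (le_max_left 0 j) (h.trans (le_max_right _ _)),
    Bu_eq hw hv (le_max_left 0 j) (le_max_right _ _)]
  have := hv.on hw h (le_max_right 0 j)
  unfold On at this; linarith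
lemma Bu_on_rev (hw : NN w) (hv : Bi w v) {i j : ℤ} (h : i ≤ j) :
    Bu w (rev v) (v j) = Bu w (rev v) (v i) + T w (v i) (v j) := by
  have := Bu_on hw hv.rev (neg_le_neg h)
  simp only [rev, neg_neg] at this
  rw [T_symm]; exact this
lemma Bu_sh (hw : NN w) (hv : Bi w v) (k : ℤ) (z : V) :
    Bu w (sh v k) z = Bu w v z - Bu w v (v k) := by
  apply le_antisymm
  · rw [le_sub_iff_add_le]
    refine le_Bu hw hv k fun m a b => ?_
    have h1 := Bu_le hw (hv.sh k) z (m := m - k) (by omega)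
    simp only [sh, sub_add_cancel, zero_add] at h1
    rw [Bu_eq hw hv b a]
    linarith
  · refine le_Bu hw (hv.sh k) (-k) fun m a b => ?_
    have h1 := Bu_le hw hv z (m := m + k) (by omega)
    rw [Bu_eq hw hv (k := k) (m := m + k) (by omega) (by omega)]
    simp only [sh, zero_add]
    linarith
lemma rev_sh (v : ℤ → V) (k : ℤ) : rev (sh v k) = sh (rev v) (-k) := by
  funext t; simp only [rev, sh]; congr 1; ring

lemma Bu_rev_sh (hw : NN w) (hv : Bi w v) (k : ℤ) (z : V) :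
    Bu w (rev (sh v k)) z = Bu w (rev v) z - Bu w (rev v) (v k) := by rw [rev_sh, Bu_sh hw hv.rev]; simp [rev]
lemma Bu_sum_nonneg (hw : NN w) (hv : Bi w v) (z : V) : 0 ≤ Bu w v z + Bu w (rev v) z := by
  rw [← neg_le_iff_add_nonneg']
  refine le_Bu hw hv.rev 0 fun a _ ha => ?_
  rw [neg_le]
  refine le_Bu hw hv 0 fun b _ hb => ?_
  have h1 := hv.on hw (a := -a) (by omega) hb
  have := T_tri hw (v (-a)) z (v b)
  simp only [rev, neg_zero]
  rw [T_symm w z (v (-a)), T_symm w (v 0) (v (-a))]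
  unfold On at h1; linarith
lemma Bu_sum_on (hw : NN w) (hv : Bi w v) (k : ℤ) :
    Bu w v (v k) + Bu w (rev v) (v k) = 0 := by
  have a := Bu_zero hw hv
  have b : Bu w (rev v) (v 0) = 0 := Bu_zero hw hv.rev
  rcases le_total 0 k with h | h
  · have := Bu_on hw hv h; have := Bu_on_rev hw hv h; linarith
  · have := Bu_on hw hv h; have := Bu_on_rev hw hv h; linarith

lemma Hyb.sh (hw : NN w) (hv : Bi w v) (hu : Bi w u) (h : Hyb w v u) (k l : ℤ) :
    Hyb w (sh v k) (sh u l) := by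
  obtain ⟨K, h⟩ := h
  refine ⟨K + T w (v 0) (v k) + T w (u 0) (u l), fun a b ha hb => ?_⟩
  simp only [P158N.sh, zero_add]
  have h1 := h (min (a + k) 0) (max (b + l) 0) (min_le_right _ _) (le_max_right _ _)
  set a' := min (a + k) 0
  set b' := max (b + l) 0
  have e1 := hv.on hw (min_le_left (a + k) 0) (show a + k ≤ k by omega)
  have e2 := hu.on hw (show l ≤ b + l by omega) (le_max_left (b + l) 0)
  have t1 := T_tri hw (v a') (v (a + k)) (u b')
  have t2 := T_tri hw (v (a + k)) (u (b + l)) (u b')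
  have t3 := T_tri hw (v a') (v 0) (v k)
  have t4 := T_tri hw (u l) (u 0) (u b')
  rw [T_symm w (u l) (u 0)] at t4
  unfold On at e1 e2
  linarith
lemma Hyb.rev (h : Hyb w v u) : Hyb w (rev u) (rev v) := by
  obtain ⟨K, h⟩ := h
  refine ⟨K, fun a b ha hb => ?_⟩
  have := h (-b) (-a) (by omega) (by omega)
  simp only [P158N.rev, neg_zero]
  rw [T_symm w (u (-a)), T_symm w (v 0), T_symm w (u (-a))]
  linarith
lemma Rob.bi (h : Rob c w v) : Bi w v := h.choose_spec.1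
lemma Rob.sh (h : Rob c w v) (k : ℤ) : Rob c w (sh v k) := by
  obtain ⟨j, a, b⟩ := h
  exact ⟨j - k, a.sh k, by rw [ed_sh, sub_add_cancel]; exact b.sh k⟩
lemma Rob.rev (h : Rob c w v) : Rob c w (rev v) := by
  obtain ⟨j, a, b⟩ := h
  exact ⟨-j - 1, a.rev, by rw [ed_rev, show -(-j - 1) - 1 = j by ring]; exact b.rev⟩
lemma RobJ.rob {J : ℕ} (h : RobJ c J w v) : Rob c w v := ⟨_, h.choose_spec.2⟩

lemma Close.symm {m : ℤ} {W : ℝ} (h : Close w m W v u) : Close w m W u v := fun z z' a b => by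
  obtain ⟨c, d⟩ := h z' z b a
  constructor <;> linarith
lemma Close.mono {m : ℤ} {W W' : ℝ} (h : Close w m W v u) (hW : W ≤ W') : Close w m W' v u := fun z z' a b => ⟨(h z z' a b).1.trans hW, (h z z' a b).2.trans hW⟩
lemma Close.sh {m : ℤ} {W : ℝ} (hw : NN w) (hu : Bi w u) (h : Close w m W v u) (k : ℤ) :
    Close w m W v (sh u k) := fun z z' a b => by
  obtain ⟨c, d⟩ := h z z' a b
  simp only [Bu_sh hw hu, Bu_rev_sh hw hu]
  constructor <;> linarith

/-- (O1) -/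
lemma Close.hyb {m : ℤ} {W : ℝ} (hw : NN w) (hv : Bi w v) (hu : Bi w u) (h : Close w m W v u)
    {a b : ℤ} (ha : a ≤ 0) (hb : 0 ≤ b) (h1 : nrm (v a) ≤ m) (h2 : nrm (u 0) ≤ m) :
    T w (v a) (v 0) + T w (u 0) (u b) - T w (v 0) (u 0) - W ≤ T w (v a) (u b) := by
  have e1 := (h _ _ h1 h2).1
  have e2 := Bu_lip hw hu (v a) (u b)
  have e3 := Bu_on hw hu hb
  have e4 := Bu_on hw hv ha
  have e5 := Bu_lip hw hv (u 0) (v 0)
  have e6 := Bu_zero hw hu
  rw [T_symm] at e5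
  linarith

/-- (O3) -/
lemma Close.near {m : ℤ} {W : ℝ} (hw : NN w) (hv : Bi w v) (hu : Bi w u) (h : Close w m W v u)
    (h1 : nrm (v 0) ≤ m) (h2 : nrm (u 0) ≤ m) : ∃ a b : ℤ, a ≤ 0 ∧ 0 ≤ b ∧
      T w (u a) (v 0) + T w (v 0) (u b) ≤ T w (u a) (u b) + (2 * W + 1) := by
  obtain ⟨e1, e2⟩ := h _ _ h2 h1
  have e3 := Bu_sum_on hw hu 0
  have e4 := Bu_sum_on hw hv 0
  have e5 := Bu_sum_nonneg hw hv (u 0)
  obtain ⟨b, hb, b1⟩ := Bu_tend hw hu (v 0) one_half_pos
  obtain ⟨a, ha, a1⟩ := Bu_tend hw hu.rev (v 0) one_half_pos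
  have b1 := b1 b le_rfl
  have a1 := a1 a le_rfl
  have e6 := hu.on hw (a := -a) (by omega) hb
  simp only [rev, neg_zero] at a1
  rw [T_symm w (v 0), T_symm w (u 0)] at a1
  unfold On at e6
  exact ⟨-a, b, by omega, hb, by linarith⟩

lemma bu_side (hw : Nice w) {w' : Om} (nn' : NN w') {e : E} (agr : ∀ e', e' ≠ e → w' e' = w e')
    (hv : Bi w v) (y : V) (h : ∀ x, End e x → Bu w v y < Bu w v x + T w x y) {ε : ℝ}
    (hε : 0 < ε) : ∃ m0 : ℤ, 0 ≤ m0 ∧ ∀ m, m0 ≤ m →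
      T w' y (v m) < T w (v 0) (v m) + Bu w v y + ε := by
  have g1 := h _ (Or.inl rfl)
  have g2 := h _ (Or.inr rfl)
  obtain ⟨m0, a, b⟩ := Bu_tend hw.nn hv y (lt_min hε (lt_min (sub_pos.2 g1) (sub_pos.2 g2)))
  refine ⟨m0, a, fun m hm => ?_⟩
  have b := b m hm
  have c1 := min_le_left ε (min (Bu w v (src e) + T w (src e) y - Bu w v y)
    (Bu w v (tgt e) + T w (tgt e) y - Bu w v y))
  have c2 := min_le_right ε (min (Bu w v (src e) + T w (src e) y - Bu w v y)
    (Bu w v (tgt e) + T w (tgt e) y - Bu w v y))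
  rcases last_edge hw nn' {e} (fun e' he => (agr e' (by simpa using he)).le) y (v m)
    with c | ⟨e', he, x, c, d, -⟩
  · linarith
  rw [Finset.mem_singleton.1 he] at c
  have f := Bu_le hw.nn hv x (a.trans hm)
  unfold On at d
  rw [T_symm w y x] at d
  rcases c with rfl | rfl
  · have := c2.trans (min_le_left _ _); linarith
  · have := c2.trans (min_le_right _ _); linarith

/-- (O2) a cheap detour `v a → u i → u j → v b` that avoids the raised edge is impossible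
(`last_edge` with `F = {ed v k}`) -/
lemma RobAt.no_detour {k i j : ℤ} (hw : Nice w) (hc : 0 < c) (h : RobAt c w v k) (hu : Bi w u)
    (hk : ∀ t, u t ≠ v k) (hij : i ≤ j)
    (h1 : Bu w (rev v) (u i) + T w (u i) (u j) + Bu w v (u j) < c)
    (h2 : ∀ x, x = v k ∨ x = v (k + 1) → Bu w (rev v) (u i) < Bu w (rev v) x + T w x (u i))
    (h3 : ∀ x, x = v k ∨ x = v (k + 1) → Bu w v (u j) < Bu w v x + T w x (u j)) : False := by
  obtain ⟨hv, hv'⟩ := h
  set w' := Function.update w (ed v k) (w (ed v k) + c) with hw'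
  have agr : ∀ e, e ≠ ed v k → w' e = w e := fun e he => Function.update_of_ne he _ _
  have up : w' (ed v k) = w (ed v k) + c := Function.update_self ..
  have nn' : NN w' := fun e => by
    by_cases d : e = ed v k
    · rw [d, up]; linarith [hw.pos (ed v k)]
    · rw [agr e d]; exact hw.nn e
  have en : ∀ x, End (ed v k) x → x = v k ∨ x = v (k + 1) := fun x hx =>
    ((hv.walk k (k + 1)).end_ed le_rfl (by omega)).1 hx
  have hε := half_pos (sub_pos.2 h1)
  obtain ⟨a0, a1, a2⟩ := bu_side hw nn' agr hv.rev (u i) (fun x hx => h2 x (en x hx)) hε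
  obtain ⟨b0, b1, b2⟩ := bu_side hw nn' agr hv (u j) (fun x hx => h3 x (en x hx)) hε
  have a3 := a2 (max a0 (-k)) (le_max_left _ _)
  have b3 := b2 (max b0 (k + 1)) (le_max_left _ _)
  set a := max a0 (-k)
  set b := max b0 (k + 1)
  simp only [P158N.rev, neg_zero] at a3
  have c1 := cost_lower (w1 := w) (w2 := w') (hv.walk (-a) b) (hv.inj hw.pos).injOn {ed v k}
    (fun e he => (agr e (by simpa using he)).symm) fun e he =>
      ⟨k, by omega, by omega, (Finset.mem_singleton.1 he).symm⟩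
  rw [Finset.sum_singleton, up, hv.cost (by omega), hv'.cost (by omega)] at c1
  have c2 : T w' (u i) (u j) ≤ T w (u i) (u j) := by
    rw [← hu.cost hij]
    refine (T_le_cost nn' hij (hu.walk i j)).trans (cost_congr fun t t1 t2 => agr _ fun e => ?_).le
    rcases ((hu.walk i j).end_ed t1 t2).1
      (e ▸ ((hv.walk k (k + 1)).end_ed le_rfl (by omega)).2 (Or.inl rfl)) with f | f
    exacts [hk _ f.symm, hk _ f.symm]
  have t1 := T_tri nn' (v (-a)) (u i) (v b)
  have t2 := T_tri nn' (u i) (u j) (v b)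
  have t3 := hv.on hw.nn (a := -a) (b := 0) (c := b) (by omega) (by omega)
  rw [T_symm w' (u i), T_symm w (v 0)] at a3
  unfold On at t3
  linarith

end Vale.Agent.P158N
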