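import Vale.Agent.P158N.Osc
import Vale.Agent.P158N.Bus

/-! Ends at infinity: alternation, the bucket lemma, four rays. -/

namespace Vale.Agent.P158N

/-- `v k` is on the boundary of `Bx N` and `v[0,k]` is inside -/
def Exit (N : ℤ) (v : ℤ → V) (k : ℤ) : Prop := 0 ≤ k ∧ nrm (v k) = N ∧ In (Bx N) v 0 k

/-- the ends of `v` and `u` alternate on all large boxes -/
def EvAlt (v u : ℤ → V) : Prop := ∃ N0 : ℤ, ∀ N, N0 ≤ N → ∀ a b c d, Exit N (rev v) a →
  Exit N v b → Exit N (rev u) c → Exit N u d →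
  SA (pos N (v (-a))) (pos N (v b)) (pos N (u (-c))) (pos N (u d))

/-- seen from the end of the path `r`, the point `s` is more than `c` farther than `y` -/
def High (w : Om) (s y : V) (c : ℝ) (r : ℤ → V) : Prop := ∃ m0 : ℤ, 0 ≤ m0 ∧ ∀ m, m0 ≤ m →
  T w y (r m0) + cost w r m0 m + c < T w s (r m)

variable {w : Om} {v u : ℤ → V}

lemma exists_exit (hv : ∀ i j, Walk v i j) (hi : Function.Injective v) {N : ℤ}
    (hN : nrm (v 0) ≤ N) : ∃ k, Exit N v k := by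
  obtain ⟨k0, a, b⟩ := escape hi 0 N
  have h1 := b k0 (le_abs_self _)
  rw [sub_zero] at h1
  obtain ⟨k, k1, -, k3, k4⟩ := (hv 0 k0).exists_first a hN h1.le
  exact ⟨k, k1, k3, k4⟩

lemma exists_bound (v : ℤ → V) (i j : ℤ) : ∃ N0 : ℤ, ∀ k, i ≤ k → k ≤ j → nrm (v k) ≤ N0 := by
  obtain ⟨M, hM⟩ := ((Set.finite_Icc i j).image fun k => nrm (v k)).bddAbove
  exact ⟨M, fun k a b => hM ⟨k, ⟨a, b⟩, rfl⟩⟩

/-- for large boxes exits are late -/
lemma exit_late (v : ℤ → V) (m : ℤ) : ∃ N0 : ℤ, ∀ N, N0 ≤ N → ∀ k, Exit N v k → m ≤ k := by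
  obtain ⟨M, hM⟩ := exists_bound v 0 m
  refine ⟨M + 1, fun N hN k ⟨a, b, _⟩ => ?_⟩
  by_contra hc
  have := hM k a (by omega)
  omega

/-- for large boxes the box metric between two given points is the passage time -/
lemma D_eq_T (hw : Nice w) (x y : V) : ∃ N0 : ℤ, ∀ N, N0 ≤ N → nrm x ≤ N ∧ nrm y ≤ N ∧
    D (Bx N) w x y = T w x y := by
  obtain ⟨g, m, rfl, rfl, hg⟩ := hw.ex x y
  obtain ⟨M, hM⟩ := exists_bound g 0 m
  refine ⟨M, fun N hN => ?_⟩
  have a := (hM 0 le_rfl hg.1).trans hN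
  have b := (hM m hg.1 le_rfl).trans hN
  refine ⟨a, b, le_antisymm ?_ (T_le_D hw.nn (con_box a b))⟩
  rw [← hg.2.2]
  exact D_le_cost hw.nn hg.1 hg.2.1 fun k c d => (hM k c d).trans hN

/-- continue along the path up to its exit -/
lemma D_exit (hw : NN w) {N k m : ℤ} {z : V} (hv : ∀ i j, Walk v i j) (h : Exit N v k)
    (h0 : 0 ≤ m) (hm : m ≤ k) (hz : nrm z ≤ N) :
    D (Bx N) w z (v k) ≤ D (Bx N) w z (v m) + cost w v m k := by
  have a : nrm (v m) ≤ N := h.2.2 m h0 hm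
  have b := D_tri hw (con_box hz a) (con_box a h.2.1.le)
  have c := D_le_cost (S := Bx N) hw hm (hv m k) fun t d e => h.2.2 t (by omega) e
  linarith

lemma D_bu (hw : Nice w) (hv : Bi w v) (z : V) {ε : ℝ} (hε : 0 < ε) : ∃ N0 : ℤ, ∀ N, N0 ≤ N →
    ∀ k, Exit N v k → |D (Bx N) w z (v k) - T w (v 0) (v k) - Bu w v z| ≤ ε := by
  obtain ⟨m0, a, b⟩ := Bu_tend hw.nn hv z hε
  obtain ⟨N1, h1⟩ := D_eq_T hw z (v m0)
  obtain ⟨N2, h2⟩ := exit_late v m0
  refine ⟨max N1 N2, fun N hN k hk => ?_⟩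
  obtain ⟨c1, -, c3⟩ := h1 N (by omega)
  have d := h2 N (by omega) k hk
  have e1 := D_exit hw.nn hv.walk hk a d c1
  have e2 := T_le_D hw.nn (con_box c1 hk.2.1.le)
  have e3 := Bu_le hw.nn hv z hk.1
  have e4 := b m0 le_rfl
  have e5 : T w (v 0) (v m0) + T w (v m0) (v k) = T w (v 0) (v k) := hv.on hw.nn a d
  rw [hv.cost d] at e1
  rw [abs_le]
  constructor <;> linarith

lemma High.box (hw : Nice w) {s y : V} {c : ℝ} {r : ℤ → V} (hr : ∀ i j, Walk r i j)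
    (h : High w s y c r) : ∃ N0 : ℤ, ∀ N, N0 ≤ N → ∀ k, Exit N r k →
      c < D (Bx N) w s (r k) - D (Bx N) w y (r k) := by
  obtain ⟨m0, a, b⟩ := h
  obtain ⟨N1, h1⟩ := D_eq_T hw y (r m0)
  obtain ⟨N2, h2⟩ := exit_late r m0
  refine ⟨max (max N1 N2) (nrm s), fun N hN k hk => ?_⟩
  obtain ⟨c1, -, c3⟩ := h1 N (by omega)
  have d := h2 N (by omega) k hk
  have e1 := D_exit hw.nn hr hk a d c1
  have e2 := T_le_D hw.nn (con_box (show nrm s ≤ N by omega) hk.2.1.le)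
  have e4 := b k d
  linarith

lemma Exit.In2 {N a b : ℤ} (ha : Exit N (rev v) a) (hb : Exit N v b) : In (Bx N) v (-a) b :=
  fun t c d => by
    rcases le_total t 0 with e | e
    · simpa [rev] using ha.2.2 (-t) (by omega) (by omega)
    · exact hb.2.2 t e d

/-- box distance between the two exits through a connector -/
lemma D_conn (hw : Nice w) (hv : Bi w v) (hu : Bi w u) {a0 b0 : ℤ} (ha : a0 ≤ 0) (hb : 0 ≤ b0) :
    ∃ N0 : ℤ, ∀ N, N0 ≤ N → ∀ a d, Exit N (rev v) a → Exit N u d →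
      D (Bx N) w (v (-a)) (u d) ≤ T w (v (-a)) (v 0) + T w (u 0) (u d) +
        (T w (v a0) (u b0) - T w (v a0) (v 0) - T w (u 0) (u b0)) := by
  obtain ⟨N1, h1⟩ := D_eq_T hw (u b0) (v a0)
  obtain ⟨N2, h2⟩ := exit_late (rev v) (-a0)
  obtain ⟨N3, h3⟩ := exit_late u b0
  refine ⟨max (max N1 N2) N3, fun N hN a d xa xd => ?_⟩
  obtain ⟨c1, -, c3⟩ := h1 N (by omega)
  have d2 := h2 N (by omega) a xa
  have d3 := h3 N (by omega) d xd
  have e1 := D_exit hw.nn hu.walk xd hb d3 (z := v (-a)) xa.2.1.le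
  have e2 := D_exit hw.nn hv.rev.walk xa (by omega) d2 c1
  rw [hu.cost d3] at e1
  rw [hv.rev.cost d2] at e2
  simp only [rev, neg_neg] at e2
  have e3 : T w (v (-a)) (v a0) + T w (v a0) (v 0) = T w (v (-a)) (v 0) :=
    hv.on hw.nn (by omega) ha
  have e4 : T w (u 0) (u b0) + T w (u b0) (u d) = T w (u 0) (u d) := hu.on hw.nn hb d3
  rw [D_symm _ _ (u b0) (v (-a)), c3, T_symm w (u b0), T_symm w (v a0) (v (-a))] at e2
  linarith

lemma alt_one (hw : Nice w) (hv : Bi w v) (hu : Bi w u) (h : ¬ Hyb w v u) :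
    ∃ N0 : ℤ, ∀ N, N0 ≤ N → ∀ a b c d, Exit N (rev v) a → Exit N v b → Exit N (rev u) c →
      Exit N u d → D (Bx N) w (v (-a)) (u d) + D (Bx N) w (u (-c)) (v b) <
        T w (v (-a)) (v b) + T w (u (-c)) (u d) := by
  simp only [Hyb, not_exists, not_forall, not_le] at h
  obtain ⟨a0, b0, ha, hb, h⟩ := h (T w (u 0) (v 0))
  obtain ⟨N1, h1⟩ := D_conn hw hv hu ha hb
  obtain ⟨N2, h2⟩ := D_conn hw hu hv (a0 := 0) (b0 := 0) le_rfl le_rfl
  refine ⟨max N1 N2, fun N hN a b c d xa xb xc xd => ?_⟩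
  have e1 := h1 N (by omega) a d xa xd
  have e2 := h2 N (by omega) c b xc xb
  have e3 : T w (v (-a)) (v 0) + T w (v 0) (v b) = T w (v (-a)) (v b) :=
    hv.on hw.nn (by have := xa.1; omega) xb.1
  have e4 : T w (u (-c)) (u 0) + T w (u 0) (u d) = T w (u (-c)) (u d) :=
    hu.on hw.nn (by have := xc.1; omega) xd.1
  rw [T_self hw.nn, T_self hw.nn] at e2
  linarith

lemma alt_two (hw : Nice w) (hv : Bi w v) (hu : Bi w u) (h : ¬ (Hyb w v u ∧ Hyb w u v)) :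
    ∃ N0 : ℤ, ∀ N, N0 ≤ N → ∀ a b c d, Exit N (rev v) a → Exit N v b → Exit N (rev u) c →
      Exit N u d → ¬ SA (pos N (v (-a))) (pos N (u d)) (pos N (v b)) (pos N (u (-c))) ∧
        pos N (v (-a)) ≠ pos N (v b) ∧ pos N (u d) ≠ pos N (u (-c)) ∧
        pos N (v (-a)) ≠ pos N (u (-c)) ∧ pos N (v b) ≠ pos N (u d) := by
  have key : ∃ N0 : ℤ, ∀ N, N0 ≤ N → ∀ a b c d, Exit N (rev v) a → Exit N v b →
      Exit N (rev u) c → Exit N u d → D (Bx N) w (v (-a)) (u d) + D (Bx N) w (u (-c)) (v b) <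
        T w (v (-a)) (v b) + T w (u (-c)) (u d) := by
    rcases not_and_or.1 h with h | h
    · exact alt_one hw hv hu h
    · obtain ⟨N0, h0⟩ := alt_one hw hu hv h
      exact ⟨N0, fun N hN a b c d xa xb xc xd => by linarith [h0 N hN c d a b xc xd xa xb]⟩
  obtain ⟨N0, h0⟩ := key
  refine ⟨N0, fun N hN a b c d xa xb xc xd => ?_⟩
  have e := h0 N hN a b c d xa xb xc xd
  have na : nrm (v (-a)) = N := xa.2.1
  have nc : nrm (u (-c)) = N := xc.2.1
  have e1 := T_le_D hw.nn (con_box na.le xb.2.1.le)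
  have e2 := T_le_D hw.nn (con_box nc.le xd.2.1.le)
  refine monge hw.nn na xb.2.1 xd.2.1 nc ?_
  rw [D_symm _ _ (v b), D_symm _ _ (u d)]
  linarith

/-- (Alt) by `monge`, unbounded hybrids exclude the two other pairings -/
lemma alt (hw : Nice w) (hv : Bi w v) (hu : Bi w u) (h1 : ¬ (Hyb w v u ∧ Hyb w u v))
    (h2 : ¬ (Hyb w v (rev u) ∧ Hyb w (rev u) v)) : EvAlt v u := by
  obtain ⟨N1, a1⟩ := alt_two hw hv hu h1
  obtain ⟨N2, a2⟩ := alt_two hw hv hu.rev h2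
  refine ⟨max N1 N2, fun N hN a b c d xa xb xc xd => ?_⟩
  have e1 := a1 N (by omega) a b c d xa xb xc xd
  have e2 := a2 N (by omega) a b d c xa xb (by simpa using xd) xc
  simp only [rev, neg_neg] at e2
  simp only [SA] at e1 e2 ⊢
  omega

lemma EvAlt.inter (hw : Nice w) (hv : Bi w v) (hu : Bi w u) (h : EvAlt v u) :
    ∃ i j, v i = u j := by
  obtain ⟨N0, h⟩ := h
  set N := max N0 (max (nrm (v 0)) (nrm (u 0))) with hN
  obtain ⟨a, xa⟩ := exists_exit (N := N) hv.rev.walk (hv.rev.inj hw.pos) (by simp [rev, hN])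
  obtain ⟨b, xb⟩ := exists_exit (N := N) hv.walk (hv.inj hw.pos) (by simp [hN])
  obtain ⟨c, xc⟩ := exists_exit (N := N) hu.rev.walk (hu.rev.inj hw.pos) (by simp [rev, hN])
  obtain ⟨d, xd⟩ := exists_exit (N := N) hu.walk (hu.inj hw.pos) (by simp [hN])
  obtain ⟨s, t, -, -, -, -, e⟩ := crossing (by have := xa.1; have := xb.1; omega)
    (by have := xc.1; have := xd.1; omega) (hv.walk (-a) b) (hu.walk (-c) d) (xa.In2 xb)
    (xc.In2 xd) xa.2.1 xb.2.1 xc.2.1 xd.2.1 (h N (by omega) a b c d xa xb xc xd)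
  exact ⟨s, t, e⟩

lemma sa_pair {a b c d : ℤ} {x y z t : ℝ} (h : SA a b c d) (ac : a ≤ c → x ≤ z)
    (ca : c ≤ a → z ≤ x) (ad : a ≤ d → x ≤ t) (da : d ≤ a → t ≤ x) (bc : b ≤ c → y ≤ z)
    (cb : c ≤ b → z ≤ y) (bd : b ≤ d → y ≤ t) (db : d ≤ b → t ≤ y) :
    (|x - z| ≤ |x + y - (z + t)| ∧ |y - t| ≤ |x + y - (z + t)|) ∨
    (|x - t| ≤ |x + y - (z + t)| ∧ |y - z| ≤ |x + y - (z + t)|) := by
  have k1 := le_abs_self (x + y - (z + t))
  have k2 := neg_abs_le (x + y - (z + t))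
  simp only [abs_le]
  have h' : (a ≤ c ∧ b ≤ d) ∨ (c ≤ a ∧ d ≤ b) ∨ (a ≤ d ∧ b ≤ c) ∨ (d ≤ a ∧ c ≤ b) := by
    simp only [SA] at h; omega
  rcases h' with ⟨p, q⟩ | ⟨p, q⟩ | ⟨p, q⟩ | ⟨p, q⟩
  · have := ac p; have := bd q
    exact Or.inl ⟨⟨by linarith, by linarith⟩, by linarith, by linarith⟩
  · have := ca p; have := db q
    exact Or.inl ⟨⟨by linarith, by linarith⟩, by linarith, by linarith⟩
  · have := ad p; have := bc q
    exact Or.inr ⟨⟨by linarith, by linarith⟩, by linarith, by linarith⟩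
  · have := da p; have := cb q
    exact Or.inr ⟨⟨by linarith, by linarith⟩, by linarith, by linarith⟩

open Filter in
lemma D_bu_ev (hw : Nice w) (hv : Bi w v) (m : ℤ) {ε : ℝ} (hε : 0 < ε) : ∀ᶠ N in atTop,
    ∃ k, Exit N v k ∧ ∀ z, nrm z ≤ m →
      |D (Bx N) w z (v k) - T w (v 0) (v k) - Bu w v z| ≤ ε := by
  have h1 : ∀ᶠ N in atTop, ∀ z ∈ ball 0 m, ∀ k, Exit N v k →
      |D (Bx N) w z (v k) - T w (v 0) (v k) - Bu w v z| ≤ ε :=
    (eventually_all_finset _).2 fun z _ => eventually_atTop.2 (D_bu hw hv z hε)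
  filter_upwards [h1, eventually_ge_atTop (nrm (v 0))] with N a b
  obtain ⟨k, hk⟩ := exists_exit hv.walk (hv.inj hw.pos) b
  exact ⟨k, hk, fun z hz => a z (mem_ball0.2 hz) k hk⟩

/-- (BL) bucket lemma: `ν i = μ (backward exit) + μ (forward exit)` with `μ` from `osc` on one
large box -/
lemma bucket (hw : Nice w) {m : ℤ} {X ε : ℝ} (hm : 0 ≤ m) (hc : Circ w m X) (hε : 0 < ε)
    {I : Type} [Finite I] (γ : I → ℤ → V) (hγ : ∀ i, Bi w (γ i)) :
    ∃ ν : I → ℝ, (∀ i, 0 ≤ ν i ∧ ν i ≤ 16 * X) ∧ ∀ i j, EvAlt (γ i) (γ j) →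
      Close w m (|ν i - ν j| + ε) (γ i) (γ j) ∨ Close w m (|ν i - ν j| + ε) (γ i) (rev (γ j)) := by
  have hε4 : 0 < ε / 4 := by positivity
  have E1 := Filter.eventually_all.2 fun i => D_bu_ev hw (hγ i) m hε4
  have E2 := Filter.eventually_all.2 fun i => D_bu_ev hw (hγ i).rev m hε4
  have E3 : ∀ᶠ N in Filter.atTop, ∀ i j, EvAlt (γ i) (γ j) → ∀ a b c d, Exit N (rev (γ i)) a →
      Exit N (γ i) b → Exit N (rev (γ j)) c → Exit N (γ j) d →
      SA (pos N (γ i (-a))) (pos N (γ i b)) (pos N (γ j (-c))) (pos N (γ j d)) := by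
    refine Filter.eventually_all.2 fun i => Filter.eventually_all.2 fun j => ?_
    by_cases h : EvAlt (γ i) (γ j)
    · exact (Filter.eventually_atTop.2 h).mono fun N a _ => a
    · exact Filter.Eventually.of_forall fun N a => absurd a h
  obtain ⟨N, ⟨⟨e1, e2⟩, e3⟩, e4⟩ := (((E1.and E2).and E3).and
    (Filter.eventually_gt_atTop (2 * m))).exists
  choose b xb hb using e1
  choose a xa ha using e2
  obtain ⟨μ, m1, m2⟩ := osc hw.nn hc hm e4
  have na : ∀ i, nrm (γ i (-a i)) = N := fun i => (xa i).2.1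
  have nb : ∀ i, nrm (γ i (b i)) = N := fun i => (xb i).2.1
  have key : ∀ (r r' : ℤ → V) (k k' : ℤ) (Y : ℝ), nrm (r k) = N → nrm (r' k') = N →
      (∀ z, nrm z ≤ m → |D (Bx N) w z (r k) - T w (r 0) (r k) - Bu w r z| ≤ ε / 4) →
      (∀ z, nrm z ≤ m → |D (Bx N) w z (r' k') - T w (r' 0) (r' k') - Bu w r' z| ≤ ε / 4) →
      |μ (r k) - μ (r' k')| ≤ Y → ∀ z z', nrm z ≤ m → nrm z' ≤ m →
      (Bu w r z - Bu w r' z) - (Bu w r z' - Bu w r' z') ≤ Y + ε := by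
    intro r r' k k' Y n1 n2 f1 f2 hY z z' hz hz'
    have g1 := abs_le.1 (f1 z hz)
    have g2 := abs_le.1 (f1 z' hz')
    have g3 := abs_le.1 (f2 z hz)
    have g4 := abs_le.1 (f2 z' hz')
    have g5 := abs_le.1 hY
    rcases le_total (pos N (r k)) (pos N (r' k')) with o | o
    · have := abs_le.1 ((m2 _ _ n1 n2 o).2 z z' hz hz')
      linarith [this.1, g1.1, g2.2, g3.2, g4.1, g5.1]
    · have := abs_le.1 ((m2 _ _ n2 n1 o).2 z z' hz hz')
      linarith [this.2, g1.1, g2.2, g3.2, g4.1, g5.2]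
  refine ⟨fun i => μ (γ i (-a i)) + μ (γ i (b i)), fun i => ⟨?_, ?_⟩, fun i j h => ?_⟩
  · linarith [(m1 (γ i (-a i))).1, (m1 (γ i (b i))).1]
  · linarith [(m1 (γ i (-a i))).2, (m1 (γ i (b i))).2]
  · rcases sa_pair (e3 i j h _ _ _ _ (xa i) (xb i) (xa j) (xb j))
      (fun o => (m2 _ _ (na i) (na j) o).1) (fun o => (m2 _ _ (na j) (na i) o).1)
      (fun o => (m2 _ _ (na i) (nb j) o).1) (fun o => (m2 _ _ (nb j) (na i) o).1)
      (fun o => (m2 _ _ (nb i) (na j) o).1) (fun o => (m2 _ _ (na j) (nb i) o).1)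
      (fun o => (m2 _ _ (nb i) (nb j) o).1) (fun o => (m2 _ _ (nb j) (nb i) o).1) with
      ⟨p, q⟩ | ⟨p, q⟩
    · exact Or.inl fun z z' hz hz' => ⟨key _ _ _ _ _ (nb i) (nb j) (hb i) (hb j) q z z' hz hz',
        key (rev (γ i)) (rev (γ j)) _ _ _ (na i) (na j) (ha i) (ha j) p z z' hz hz'⟩
    · refine Or.inr fun z z' hz hz' =>
        ⟨key _ (rev (γ j)) _ _ _ (nb i) (na j) (hb i) (ha j) q z z' hz hz', ?_⟩
      rw [rev_rev]
      exact key (rev (γ i)) _ _ _ _ (na i) (nb j) (ha i) (hb j) p z z' hz hz' 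

/-- (NA) four rays: the middle one of the three exits, seen from the exit of `β`, gives a
4-alternation -/
lemma four_rays (hw : Nice w) (γ : Fin 3 → ℤ → V) (β : ℤ → V) (hγ : ∀ i j k, Walk (γ i) j k)
    (hβ : ∀ j k, Walk β j k) (iγ : ∀ i, Function.Injective (γ i)) (iβ : Function.Injective β)
    (y : V) (s : Fin 3 → V) (c : Fin 3 → ℝ) (h1 : ∀ i, High w (s i) y (c i) (γ i))
    (h2 : ∀ i, High w (s i) y (c i) β) (h3 : ∀ i j, i ≠ j → High w y (s i) (-c i) (γ j)) :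
    False := by
  have E1 := Filter.eventually_all.2 fun i => Filter.eventually_atTop.2 ((h1 i).box hw (hγ i))
  have E2 := Filter.eventually_all.2 fun i => Filter.eventually_atTop.2 ((h2 i).box hw hβ)
  have E3 : ∀ᶠ N in Filter.atTop, ∀ i j, i ≠ j → ∀ k, Exit N (γ j) k →
      -c i < D (Bx N) w y (γ j k) - D (Bx N) w (s i) (γ j k) := by
    refine Filter.eventually_all.2 fun i => Filter.eventually_all.2 fun j => ?_
    by_cases h : i ≠ j
    · exact (Filter.eventually_atTop.2 ((h3 i j h).box hw (hγ j))).mono fun N a _ => a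
    · exact Filter.Eventually.of_forall fun N a => absurd a h
  have E4 := Filter.eventually_all.2 fun i => Filter.eventually_ge_atTop (nrm (γ i 0))
  have E5 := Filter.eventually_all.2 fun i => Filter.eventually_ge_atTop (nrm (s i))
  obtain ⟨N, ⟨⟨⟨⟨⟨e1, e2⟩, e3⟩, e4⟩, e5⟩, e6⟩, e7⟩ := ((((((E1.and E2).and E3).and E4).and E5).and
    (Filter.eventually_ge_atTop (nrm (β 0)))).and (Filter.eventually_ge_atTop (nrm y))).exists
  choose k xk using fun i => exists_exit (hγ i) (iγ i) (e4 i)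
  obtain ⟨l, xl⟩ := exists_exit hβ iβ e6
  have lo : ∀ i j, i ≠ j → D (Bx N) w (s i) (γ j (k j)) - D (Bx N) w y (γ j (k j)) < c i :=
    fun i j h => by linarith [e3 i j h _ (xk j)]
  have u : ∀ i j j', i ≠ j → i ≠ j' →
      ¬ SA (pos N (γ i (k i))) (pos N (β l)) (pos N (γ j (k j))) (pos N (γ j' (k j'))) :=
    fun i j j' a b => unimodal hw.nn (e5 i) e7 (xk i).2.1 (xk j).2.1 xl.2.1 (xk j').2.1
      (e1 i _ (xk i)) (e2 i _ xl) (lo i j a) (lo i j' b)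
  have d1 : ∀ i j, i ≠ j → pos N (γ i (k i)) ≠ pos N (γ j (k j)) := fun i j h e => by
    have a := e1 i _ (xk i)
    rw [pos_inj (xk i).2.1 (xk j).2.1 e] at a
    linarith [lo i j h]
  have d2 : ∀ i j, i ≠ j → pos N (β l) ≠ pos N (γ j (k j)) := fun i j h e => by
    have a := e2 i _ xl
    rw [pos_inj xl.2.1 (xk j).2.1 e] at a
    linarith [lo i j h]
  have u0 := u 0 1 2 (by decide) (by decide)
  have u1 := u 1 0 2 (by decide) (by decide)
  have u2 := u 2 0 1 (by decide) (by decide)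
  have a0 := d1 0 1 (by decide)
  have a1 := d1 0 2 (by decide)
  have a2 := d1 1 2 (by decide)
  have b0 := d2 1 0 (by decide)
  have b1 := d2 0 1 (by decide)
  have b2 := d2 0 2 (by decide)
  simp only [SA] at u0 u1 u2
  omega

end Vale.Agent.P158N
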