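import Vale.Agent.P158N.Events
import Vale.Agent.P158N.Alt

/-! Amplification: infinitely many far partners are impossible. -/

namespace Vale.Agent.P158N

open MeasureTheory

/-- finitely many bigeodesics through each vertex -/
def Fin0 (w : Om) : Prop := ∀ y : V, {v : ℤ → V | Bi w v ∧ v 0 = y}.Finite

variable {G : Measure ℝ} {p : Par G} {w : Om} {c : ℝ}

lemma fin_pigeon {α : Type} {Z : Set α} (hZ : Z.Finite) {Q : ℕ → α → Prop}
    (hm : ∀ n m x, m ≤ n → Q n x → Q m x) (h : ∀ n, ∃ x ∈ Z, Q n x) : ∃ x ∈ Z, ∀ n, Q n x := by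
  by_contra hc
  push Not at hc
  choose! f hf using hc
  obtain ⟨M, hM⟩ := (hZ.image f).bddAbove
  obtain ⟨x, hx, q⟩ := h M
  exact hf x hx (hm _ _ _ (hM ⟨x, hx, rfl⟩) q)

lemma finite_End (F : Finset E) : {x | ∃ e ∈ F, End e x}.Finite := by
  refine ((F.finite_toSet.image src).union (F.finite_toSet.image tgt)).subset ?_
  rintro x ⟨e, he, rfl | rfl⟩
  exacts [Or.inl ⟨e, he, rfl⟩, Or.inr ⟨e, he, rfl⟩]

/-- After lowering the edges of `F` (total change at most `A`), which lie on infinitely many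
geodesics from `y` to `u b` with total gain `> C`, some bigeodesic `β` of the new weights based at
an endpoint of `F` is a near continuation of the backward end of `u` (`last_edge`,
`exists_bi_limit`). -/
lemma amp_limit {w' : Om} (hw : Nice w) (hw' : Nice w') (F : Finset E)
    (h1 : ∀ e, e ∉ F → w' e = w e) (h2 : ∀ e ∈ F, w' e ≤ w e) {u : ℤ → V} (hu : Bi w u) {y : V}
    {C : ℝ} {a0 b0 : ℤ} (ha : a0 ≤ 0) (hb : 0 ≤ b0)
    (hC : T w (u a0) y + T w y (u b0) ≤ T w (u a0) (u b0) + C)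
    (hg : ∀ b1 : ℤ, ∃ b, b1 ≤ b ∧ T w' y (u b) + C < T w y (u b)) :
    ∃ β : ℤ → V, Bi w' β ∧ (∃ e ∈ F, End e (β 0)) ∧ ∀ a m : ℤ, a ≤ 0 → 0 ≤ m →
      T w (u a) (u 0) - T w (β 0) (u 0) - 2 * ∑ e ∈ F, (w e - w' e) + cost w β 0 m
        ≤ T w (u a) (β m) := by
  have hle : ∀ e, w' e ≤ w e := fun e => by
    by_cases a : e ∈ F
    exacts [h2 e a, (h1 e a).le]
  have low := T_lower hw'.nn hw.nn F (fun e he => (h1 e he).ge) h2
  have hi := hu.inj hw.pos
  obtain ⟨M, hM⟩ := ((finite_End F).image nrm).bddAbove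
  obtain ⟨q, hq, hQ⟩ := fin_pigeon (finite_End F)
    (Q := fun n q => ∃ a b : ℤ, a ≤ -n ∧ (n : ℤ) ≤ nrm (u a - q) ∧ (n : ℤ) ≤ nrm (u b - q) ∧
      On w' (u a) q (u b))
    (fun n m x h ⟨a, b, h1, h2, h3, h4⟩ => ⟨a, b, by omega, by omega, by omega, h4⟩) (fun n => by
      obtain ⟨k0, k1, k2⟩ := escape hi 0 (n + M)
      obtain ⟨b, b1, b2⟩ := hg (max k0 b0)
      set a := min (min a0 (-k0)) (-n) with ha'
      have e1 : T w (u a) (u a0) + T w (u a0) (u b) = T w (u a) (u b) :=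
        hu.on hw.nn (by omega) (by omega)
      have e2 : T w (u a0) (u b0) + T w (u b0) (u b) = T w (u a0) (u b) :=
        hu.on hw.nn (by omega) (by omega)
      have e3 := T_tri hw.nn (u a) (u a0) y
      have e4 := T_tri hw.nn y (u b0) (u b)
      have e5 := T_tri hw'.nn (u a) y (u b)
      have e6 := T_mono hw'.nn hle (u a) y
      rcases last_edge hw' hw.nn F (fun e he => (h1 e he).ge) (u a) (u b) with
        h | ⟨e, he, q, q1, q2, -⟩
      · linarith
      · have q3 : nrm q ≤ M := hM ⟨q, ⟨e, he, q1⟩, rfl⟩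
        have f1 := k2 a (by rw [abs_of_nonpos (by omega)]; omega)
        have f2 := k2 b (by rw [abs_of_nonneg (by omega)]; omega)
        rw [sub_zero] at f1 f2
        have f3 := nrm_le_add (u a) q
        have f4 := nrm_le_add (u b) q
        exact ⟨q, ⟨e, he, q1⟩, a, b, by omega, by omega, by omega, q2⟩)
  choose A B hA h3 h4 h5 using hQ
  obtain ⟨β, b1, b2, b3⟩ := exists_bi_limit hw' q (fun n => u (A n)) (fun n => u (B n)) h5 h3 h4
  refine ⟨β, b1, b2 ▸ hq, fun a m ha hm => ?_⟩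
  obtain ⟨n, n1, n2⟩ := b3 m hm (-a).toNat
  have n3 := hA n
  have e1 : T w (u (A n)) (u a) + T w (u a) (u 0) = T w (u (A n)) (u 0) :=
    hu.on hw.nn (by omega) ha
  have e2 : T w' (u (A n)) q + T w' q (β m) = T w' (u (A n)) (β m) := n2
  have e3 := T_mono hw'.nn hle (u (A n)) (β m)
  have e4 := T_tri hw.nn (u (A n)) (u a) (β m)
  have e5 := low (u (A n)) q
  have e6 := T_tri hw.nn (u (A n)) q (u 0)
  have e7 := cost_lower_le (b1.walk 0 m) (b1.inj hw'.pos).injOn F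
    (fun e he => (h1 e he).ge) h2
  rw [b1.cost hm] at e7
  rw [b2] at e7 ⊢
  linarith

/-- three pairwise distinct robust bigeodesics cannot share a near continuation
(`propZ`, `alt`, `EvAlt.inter`, `propY'`, `four_rays`) -/
lemma amp_three (hc : 0 < c) (h : Typ p w) (γ : Fin 3 → ℤ → V) (hγ : ∀ i, Rob c w (γ i))
    (hr : ∀ i j, i ≠ j → Set.range (γ i) ≠ Set.range (γ j)) (β : ℤ → V)
    (hβ : ∀ j k, Walk β j k) (iβ : Function.Injective β) (K : ℝ)
    (hK : ∀ i, ∀ a m : ℤ, a ≤ 0 → 0 ≤ m →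
      T w (γ i a) (γ i 0) - K + cost w β 0 m ≤ T w (γ i a) (β m)) : False := by
  have nn := h.nice.nn
  have hb := fun i => (hγ i).bi
  have nh : ∀ i j, i ≠ j → ¬ Hyb w (γ i) (γ j) := fun i j hij =>
    propY' h (hb i) (hb j) (hr i j hij) ((alt h.nice (hb i) (hb j)
      (propZ hc h (hγ i) (hb j) (hr i j hij))
      (propZ hc h (hγ i) (hb j).rev (by simpa using hr i j hij))).inter h.nice (hb i) (hb j))
  obtain ⟨K1, k1, k2⟩ : ∃ K1 : ℝ, K < K1 ∧ ∀ i, T w (β 0) (γ i 0) < K1 := by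
    obtain ⟨M, hM⟩ := (Set.finite_range fun i => T w (β 0) (γ i 0)).bddAbove
    exact ⟨max K M + 1, by linarith [le_max_left K M], fun i => by
      linarith [le_max_right K M, hM ⟨i, rfl⟩]⟩
  have nh' : ∀ i j, ∃ a b : ℤ, a ≤ 0 ∧ 0 ≤ b ∧ (i ≠ j →
      T w (γ i a) (γ j b) < T w (γ i a) (γ i 0) + T w (γ j 0) (γ j b) - 2 * K1) := fun i j => by
    by_cases hij : i ≠ j
    · have := nh i j hij
      simp only [Hyb, not_exists, not_forall, not_le] at this
      obtain ⟨a, b, ha, hb, e⟩ := this (2 * K1)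
      exact ⟨a, b, ha, hb, fun _ => e⟩
    · exact ⟨0, 0, le_rfl, le_rfl, fun e => absurd e hij⟩
  choose A B hA hB hAB using nh'
  obtain ⟨a, ha⟩ := (Set.finite_range fun q : Fin 3 × Fin 3 => A q.1 q.2).bddBelow
  have ha' : ∀ i j, a ≤ A i j := fun i j => ha ⟨(i, j), rfl⟩
  have ha0 : a ≤ 0 := (ha' 0 0).trans (hA 0 0)
  refine four_rays h.nice γ β (fun i => (hb i).walk) hβ (fun i => (hb i).inj h.nice.pos) iβ (β 0)
    (fun i => γ i a) (fun i => T w (γ i a) (γ i 0) - K1) (fun i => ⟨0, le_rfl, fun m hm => ?_⟩)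
    (fun i => ⟨0, le_rfl, fun m hm => ?_⟩) fun i j hij => ⟨B i j, hB i j, fun m hm => ?_⟩
  · have e1 : T w (γ i a) (γ i 0) + T w (γ i 0) (γ i m) = T w (γ i a) (γ i m) :=
      (hb i).on nn ha0 hm
    rw [(hb i).cost hm]
    linarith [k2 i]
  · rw [T_self nn]
    linarith [hK i a m ha0 hm]
  · have e1 : T w (γ i a) (γ i (A i j)) + T w (γ i (A i j)) (γ i 0) = T w (γ i a) (γ i 0) :=
      (hb i).on nn (ha' i j) (hA i j)
    have e2 : T w (γ j 0) (γ j (B i j)) + T w (γ j (B i j)) (γ j m) = T w (γ j 0) (γ j m) :=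
      (hb j).on nn (hB i j) hm
    have e3 := T_tri nn (γ i a) (γ i (A i j)) (γ j (B i j))
    have e4 := T_tri nn (γ j 0) (β 0) (γ j m)
    rw [T_symm w (γ j 0) (β 0)] at e4
    rw [(hb j).cost hm]
    linarith [k2 j, hAB i j hij]

/-- heavy edges near `y` -/
noncomputable def hvE (b : ℝ) (w : Om) (y : V) (J : ℤ) : Finset E :=
  (ball y J ×ˢ (Finset.univ : Finset Bool)).filter fun e => b ≤ w e

lemma mem_hvE {b : ℝ} {y : V} {J t : ℤ} {v : ℤ → V} (hv : Walk v 0 J) (h0 : v 0 = y) (h1 : 0 ≤ t)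
    (h2 : t < J) (h : b ≤ w (ed v t)) : ed v t ∈ hvE b w y J := by
  refine Finset.mem_filter.2 ⟨Finset.mem_product.2 ⟨mem_ball.2 ?_, Finset.mem_univ _⟩, h⟩
  have a := hv.nrm_le le_rfl h1 h2.le
  have b := hv.nrm_le (l := t + 1) le_rfl (by omega) (by omega)
  rw [← h0]
  rcases (hv.end_ed (z := src (ed v t)) h1 h2).1 (Or.inl rfl) with e | e <;>
    rw [show (ed v t).1 = src (ed v t) from rfl, e] <;> omega

theorem amp (hc : 0 < c) (h : Typ p w) (hm : Mdf G (fun w' => Nice w' ∧ Fin0 w') w) {C : ℝ}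
    {y : V} (hp : ∀ L, Part c L C w y) : False := by
  classical
  have nn := h.nice.nn
  obtain ⟨l, hl⟩ := h.heavy y
  have hba : 0 < p.b - p.a := sub_pos.2 p.hab
  obtain ⟨J0, hJ0⟩ := exists_nat_gt (2 * C / (p.b - p.a))
  set J : ℕ := max l J0 with hJ
  set F := hvE p.b w y J with hF
  obtain ⟨s, s1, s2⟩ := hm F (fun _ => Set.Icc 0 p.a) fun _ _ => ⟨measurableSet_Icc, p.hGa⟩
  obtain ⟨n', f'⟩ := s2 F le_rfl
  set w' := F.piecewise s w with hw'
  have g1 : ∀ e, e ∉ F → w' e = w e := fun e he => by simp [hw', Finset.piecewise, he]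
  have g0 : ∀ e ∈ F, w' e ≤ p.a ∧ p.b ≤ w e := fun e he =>
    ⟨by simpa [hw', Finset.piecewise, he] using (s1 e he).2, (Finset.mem_filter.1 he).2⟩
  have g2 : ∀ e ∈ F, w' e ≤ w e := fun e he => by linarith [g0 e he, p.hab]
  have hle : ∀ e, w' e ≤ w e := fun e => by
    by_cases a : e ∈ F
    exacts [g2 e a, (g1 e a).le]
  have gain : ∀ x, (J : ℤ) ≤ nrm (x - y) → T w' y x + C < T w y x := fun x hx => by
    obtain ⟨g, m, rfl, rfl, hg⟩ := h.nice.ex y x
    have m1 := hg.2.1.nrm_le le_rfl hg.1 le_rfl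
    have wk : Walk g 0 J := hg.2.1.mono le_rfl (by omega)
    obtain ⟨A, A1, A2⟩ := hl.pick (v := g) (i := 0) (k := 0) (l := J) rfl le_rfl (by omega)
      (by omega) wk ((hg.injOn h.nice.pos).mono (Set.Icc_subset_Icc le_rfl (by omega)))
    have c1 : (A.card : ℝ) * (p.b - p.a) ≤ ∑ t ∈ A, (w (ed g t) - w' (ed g t)) := by
      rw [← nsmul_eq_mul]
      refine Finset.card_nsmul_le_sum A _ (p.b - p.a) fun t ht => ?_
      · have := g0 _ (mem_hvE wk rfl (A1 t ht).1 (A1 t ht).2.1 (A1 t ht).2.2)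
        linarith [this.1, this.2]
    have c2 : ∑ t ∈ A, (w (ed g t) - w' (ed g t)) ≤
        ∑ t ∈ Finset.Ico 0 m, (w (ed g t) - w' (ed g t)) :=
      Finset.sum_le_sum_of_subset_of_nonneg
        (fun t ht => Finset.mem_Ico.2 ⟨(A1 t ht).1, by have := (A1 t ht).2.1; omega⟩)
        fun t _ _ => sub_nonneg.2 (hle _)
    rw [Finset.sum_sub_distrib (s := Finset.Ico 0 m), ← cost_eq, ← cost_eq, hg.2.2] at c2
    have c3 := T_le_cost n'.nn hg.1 hg.2.1
    have c4 : (J0 : ℝ) ≤ 2 * A.card := by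
      have : (J0 : ℤ) ≤ 2 * A.card := by omega
      exact_mod_cast this
    rw [div_lt_iff₀ hba] at hJ0
    nlinarith
  have fin : {β : ℤ → V | Bi w' β ∧ ∃ e ∈ F, End e (β 0)}.Finite :=
    ((finite_End F).biUnion fun x _ => f' x).subset fun β hβ =>
      Set.mem_biUnion (x := β 0) hβ.2 ⟨hβ.1, rfl⟩
  obtain ⟨β, ⟨b1, -⟩, hQ⟩ := fin_pigeon fin
    (Q := fun n β => ∃ u : ℤ → V, Rob c w u ∧ (∀ s, (n : ℤ) < nrm (u s - y)) ∧
      ∀ a m : ℤ, a ≤ 0 → 0 ≤ m → T w (u a) (u 0) - T w (β 0) (u 0) -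
        2 * ∑ e ∈ F, (w e - w' e) + cost w β 0 m ≤ T w (u a) (β m))
    (fun n m x h ⟨u, h1, h2, h3⟩ => ⟨u, h1, fun s => by have := h2 s; omega, h3⟩) (fun n => by
      obtain ⟨u, u1, u2, a, b, ha, hb, u3⟩ := hp (max n J)
      obtain ⟨β, b1, b2, b3⟩ := amp_limit h.nice n' F g1 g2 u1.bi ha hb u3
        fun b1 => ⟨b1, le_rfl, gain _ (by have := u2 b1; omega)⟩
      exact ⟨β, ⟨b1, b2⟩, u, u1, fun s => by have := u2 s; omega, b3⟩)
  obtain ⟨u0, a0, -, c0⟩ := hQ 0
  obtain ⟨u1, a1, d1, c1⟩ := hQ (nrm (u0 0 - y)).toNat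
  obtain ⟨u2, a2, d2, c2⟩ := hQ (max (nrm (u0 0 - y)) (nrm (u1 0 - y))).toNat
  have ne : ∀ (u u' : ℤ → V), (∀ s, nrm (u 0 - y) < nrm (u' s - y)) →
      Set.range u ≠ Set.range u' := fun u u' a e => by
    obtain ⟨s, hs⟩ : u 0 ∈ Set.range u' := e ▸ ⟨0, rfl⟩
    have := a s
    rw [hs] at this
    omega
  have r01 := ne u0 u1 fun s => by have := d1 s; omega
  have r02 := ne u0 u2 fun s => by have := d2 s; omega
  have r12 := ne u1 u2 fun s => by have := d2 s; omega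
  refine amp_three hc h ![u0, u1, u2] ?_ ?_ β b1.walk (b1.inj n'.pos)
    (T w (β 0) (u0 0) + T w (β 0) (u1 0) + T w (β 0) (u2 0) + 2 * ∑ e ∈ F, (w e - w' e)) ?_
  · intro i
    fin_cases i
    exacts [a0, a1, a2]
  · intro i j hij
    fin_cases i <;> fin_cases j <;>
      first | exact absurd rfl hij | assumption | (symm; assumption)
  · intro i a m ha hm
    have t0 := T_nonneg nn (β 0) (u0 0)
    have t1 := T_nonneg nn (β 0) (u1 0)
    have t2 := T_nonneg nn (β 0) (u2 0)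
    fin_cases i
    · have := c0 a m ha hm
      show T w (u0 a) (u0 0) - _ + _ ≤ T w (u0 a) _
      linarith
    · have := c1 a m ha hm
      show T w (u1 a) (u1 0) - _ + _ ≤ T w (u1 a) _
      linarith
    · have := c2 a m ha hm
      show T w (u2 a) (u2 0) - _ + _ ≤ T w (u2 a) _
      linarith

/-- every bigeodesic through `y` becomes robust after lowering one of finitely many edges -/
lemma robustify {Gd : Om → Prop} (hw : Nice w) (hh : ∀ z, ∃ l, Pe (Set.Ici p.b) w z l)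
    (hm : Mdf G (fun w' => NN w' ∧ Gd w') w) (y : V) :
    ∃ (J : ℕ) (S : Finset Om), (∀ w' ∈ S, Gd w') ∧
      ∀ v, Bi w v → v 0 = y → ∃ w' ∈ S, RobJ (p.b - p.a) J w' v := by
  classical
  obtain ⟨l, hl⟩ := hh y
  set F := hvE p.b w y (l + 1 : ℕ) with hF
  obtain ⟨s, s1, s2⟩ := hm F (fun _ => Set.Icc 0 p.a) fun _ _ => ⟨measurableSet_Icc, p.hGa⟩
  refine ⟨l + 1, F.image fun e => ({e} : Finset E).piecewise s w, fun w' hw' => ?_,
    fun v hv h0 => ?_⟩
  · obtain ⟨e, he, rfl⟩ := Finset.mem_image.1 hw'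
    exact (s2 _ (Finset.singleton_subset_iff.2 he)).2
  · obtain ⟨A, A1, A2⟩ := hl.pick (v := v) (i := 0) (k := 0) (l := (l + 1 : ℕ)) h0 le_rfl (by omega)
      (by omega) (hv.walk _ _) (hv.inj hw.pos).injOn
    obtain ⟨t, ht⟩ : A.Nonempty := Finset.card_pos.1 (by omega)
    obtain ⟨t1, t2, t3⟩ := A1 t ht
    have he := mem_hvE (hv.walk _ _) h0 t1 t2 t3
    have hs := s1 _ he
    have t4 : p.b ≤ w (ed v t) := t3
    have nn := (s2 _ (Finset.singleton_subset_iff.2 he)).1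
    have hab := p.hab
    refine ⟨_, Finset.mem_image.2 ⟨ed v t, he, rfl⟩, t, by rw [abs_of_nonneg t1]; omega, ?_, ?_⟩
    · refine hv.lower nn hw.pos {ed v t} (fun e a => ?_) (fun e a => ?_) fun e a => ?_
      · simp [Finset.piecewise, a]
      · obtain rfl := Finset.mem_singleton.1 a
        simp only [Finset.piecewise, Finset.mem_singleton, if_true]
        linarith [hs.2]
      · exact ⟨t, (Finset.mem_singleton.1 a).symm⟩
    · refine hv.lower (fun e => ?_) hw.pos {ed v t} (fun e a => ?_) (fun e a => ?_) fun e a => ?_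
      · by_cases a : e = ed v t
        · rw [a, Function.update_self]; linarith [nn (ed v t)]
        · rw [Function.update_of_ne a]; exact nn e
      · rw [Function.update_of_ne (by simpa using a)]; simp [Finset.piecewise, a]
      · obtain rfl := Finset.mem_singleton.1 a
        simp only [Function.update_self, Finset.piecewise, Finset.mem_singleton, if_true]
        linarith [hs.2]
      · exact ⟨t, (Finset.mem_singleton.1 a).symm⟩

end Vale.Agent.P158N
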