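import Vale.Agent.P158N.Defs

/-! Lattice geometry, walks, passage times restricted to a set, loop erasure, modifications. -/

namespace Vale.Agent.P158N

open Finset

abbrev Om : Type := E → ℝ

def nrm (x : V) : ℤ := max |x.1| |x.2|

noncomputable def ball (y : V) (r : ℤ) : Finset V := Icc (y.1 - r) (y.1 + r) ×ˢ Icc (y.2 - r) (y.2 + r)

def Bx (N : ℤ) : Set V := {z | nrm z ≤ N}

def src (e : E) : V := e.1

def tgt (e : E) : V := if e.2 then (e.1.1, e.1.2 + 1) else (e.1.1 + 1, e.1.2)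

/-- `x` is an endpoint of `e` -/
def End (e : E) (x : V) : Prop := x = src e ∨ x = tgt e

/-- the `k`-th edge of `v` -/
def ed (v : ℤ → V) (k : ℤ) : E := edge (v k) (v (k + 1))

def sh (v : ℤ → V) (k : ℤ) : ℤ → V := fun t => v (t + k)

def rev (v : ℤ → V) : ℤ → V := fun t => v (-t)

def In (S : Set V) (v : ℤ → V) (i j : ℤ) : Prop := ∀ k, i ≤ k → k ≤ j → v k ∈ S

def NN (w : Om) : Prop := ∀ e, 0 ≤ w e

/-- passage time inside `S` -/
noncomputable def D (S : Set V) (w : Om) (x y : V) : ℝ :=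
  sInf {c | ∃ (v : ℤ → V) (i j : ℤ), i ≤ j ∧ v i = x ∧ v j = y ∧ Walk v i j ∧ In S v i j ∧
    c = cost w v i j}

def Con (S : Set V) (x y : V) : Prop :=
  ∃ (v : ℤ → V) (i j : ℤ), i ≤ j ∧ v i = x ∧ v j = y ∧ Walk v i j ∧ In S v i j

variable {w w1 w2 : Om} {v u : ℤ → V} {i j k l : ℤ} {x y z : V} {S : Set V}

lemma nrm_nonneg (x : V) : 0 ≤ nrm x := le_max_of_le_left (abs_nonneg _)
lemma nrm_tri (x y z : V) : nrm (x - z) ≤ nrm (x - y) + nrm (y - z) := by
  simp only [nrm, Prod.fst_sub, Prod.snd_sub, abs_eq_max_neg]; omega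
lemma nrm_comm (x y : V) : nrm (x - y) = nrm (y - x) := by
  simp only [nrm, Prod.fst_sub, Prod.snd_sub, abs_eq_max_neg]; omega
lemma nrm_le_add (x y : V) : nrm x ≤ nrm (x - y) + nrm y := by
  simp only [nrm, Prod.fst_sub, Prod.snd_sub, abs_eq_max_neg]; omega
lemma nrm_sub_le (x y : V) : nrm (x - y) ≤ nrm x + nrm y := by
  simp only [nrm, Prod.fst_sub, Prod.snd_sub, abs_eq_max_neg]; omega
lemma mem_ball {r : ℤ} : x ∈ ball y r ↔ nrm (x - y) ≤ r := by
  simp only [ball, mem_product, mem_Icc, nrm, Prod.fst_sub, Prod.snd_sub, abs_eq_max_neg]; omega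
lemma mem_ball0 {r : ℤ} : x ∈ ball 0 r ↔ nrm x ≤ r := by rw [mem_ball, sub_zero]
lemma card_ball (y : V) (r : ℕ) : (ball y r).card = (2 * r + 1) ^ 2 := by
  have h : ∀ a : ℤ, (a + r + 1 - (a - r)).toNat = 2 * r + 1 := fun a => by omega
  simp only [ball, card_product, Int.card_Icc, h]; ring
lemma finite_nrm (y : V) (r : ℤ) : {x | nrm (x - y) ≤ r}.Finite := 
  (ball y r).finite_toSet.subset fun _ hx => mem_coe.2 (mem_ball.2 hx)
/-- the sphere of radius `r ≥ 1` has at most `8 r` points -/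
lemma card_sphere (r : ℕ) (hr : 1 ≤ r) :
    ((ball 0 r).filter fun x => nrm x = r).card ≤ 8 * r := by
  obtain ⟨r, rfl⟩ : ∃ s, r = s + 1 := ⟨r - 1, by omega⟩
  have h1 : ((ball 0 ((r + 1 : ℕ) : ℤ)).filter fun x => nrm x = ((r + 1 : ℕ) : ℤ)) =
      ball 0 ((r + 1 : ℕ) : ℤ) \ ball 0 (r : ℤ) := by
    ext x; simp only [mem_filter, mem_sdiff, mem_ball0]; omega
  have h2 : ball 0 (r : ℤ) ⊆ ball 0 ((r + 1 : ℕ) : ℤ) := fun x hx => by
    rw [mem_ball0] at *; omega
  rw [h1, card_sdiff_of_subset h2, card_ball, card_ball]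
  have : (2 * (r + 1) + 1) ^ 2 = (2 * r + 1) ^ 2 + 8 * (r + 1) := by ring
  omega

lemma Adj.symm (h : Adj x y) : Adj y x := by
  simp only [Adj, abs_eq_max_neg] at *; omega
lemma Adj.nrm (h : Adj x y) : nrm (x - y) = 1 := by
  simp only [Adj, P158N.nrm, Prod.fst_sub, Prod.snd_sub, abs_eq_max_neg] at *; omega
lemma Adj.ne (h : Adj x y) : x ≠ y := by
  rintro rfl; simp [Adj] at h
lemma edge_symm (x y : V) : edge x y = edge y x := by
  simp only [edge, min_comm, eq_comm]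
lemma Adj.end_iff (h : Adj x y) : End (edge x y) z ↔ z = x ∨ z = y := by
  obtain ⟨a, b⟩ := x; obtain ⟨c, d⟩ := y; obtain ⟨e, f⟩ := z
  simp only [Adj, abs_eq_max_neg] at h
  by_cases h1 : a = c
  · simp only [End, src, tgt, edge, h1, decide_true, if_true, Prod.mk.injEq]; omega
  · simp only [End, src, tgt, edge, h1, decide_false, Bool.false_eq_true, if_false,
      Prod.mk.injEq]; omega
lemma adj_src_tgt (e : E) : Adj (src e) (tgt e) := by
  obtain ⟨⟨a, b⟩, c⟩ := e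
  cases c <;> simp [Adj, src, tgt]
lemma edge_src_tgt (e : E) : edge (src e) (tgt e) = e := by
  obtain ⟨⟨a, b⟩, c⟩ := e
  cases c <;> simp [edge, src, tgt]
lemma Adj.src_tgt (h : Adj x y) : (src (edge x y) = x ∧ tgt (edge x y) = y) ∨
    (src (edge x y) = y ∧ tgt (edge x y) = x) := by
  obtain ⟨a, b⟩ := x; obtain ⟨c, d⟩ := y
  simp only [Adj, abs_eq_max_neg] at h
  by_cases h1 : a = c
  · simp only [src, tgt, edge, h1, decide_true, if_true, Prod.mk.injEq]; omega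
  · simp only [src, tgt, edge, h1, decide_false, Bool.false_eq_true, if_false,
      Prod.mk.injEq]; omega

lemma Walk.mono (h : Walk v i j) (h1 : i ≤ k) (h2 : l ≤ j) : Walk v k l := fun t a b => h t (by omega) (by omega)
lemma Walk.sh (h : Walk v (i + k) (j + k)) : Walk (sh v k) i j := fun t a b => by
  have := h (t + k) (by omega) (by omega)
  simpa only [P158N.sh, add_right_comm t 1 k] using this
lemma Walk.rev (h : Walk v (-j) (-i)) : Walk (rev v) i j := fun t a b => by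
  have := (h (-(t + 1)) (by omega) (by omega)).symm
  simpa only [P158N.rev, show -(t + 1) + 1 = -t by ring] using this
lemma Walk.nrm_le (h : Walk v i j) (h1 : i ≤ k) (h2 : k ≤ l) (h3 : l ≤ j) :
    nrm (v l - v k) ≤ l - k := by
  induction l, h2 using Int.le_induction with
  | base => simp [nrm]
  | succ l hl ih =>
    have h4 := (h l (by omega) (by omega)).symm.nrm
    have := nrm_tri (v (l + 1)) (v l) (v k)
    have := ih (by omega)
    omega
lemma Walk.nrm_le' (h : Walk v i j) (h1 : i ≤ k) (h2 : k ≤ j) (h3 : i ≤ l) (h4 : l ≤ j) :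
    nrm (v l - v k) ≤ |l - k| := by
  rcases le_total k l with h5 | h5
  · rw [abs_of_nonneg (by omega)]; exact h.nrm_le h1 h5 h4
  · rw [abs_of_nonpos (by omega), nrm_comm]; have := h.nrm_le h3 h5 h2; omega
/-- discrete intermediate value property of the norm, first crossing -/
lemma Walk.exists_first {N : ℤ} (h : Walk v i j) (hij : i ≤ j) (h1 : nrm (v i) ≤ N)
    (h2 : N ≤ nrm (v j)) : ∃ k, i ≤ k ∧ k ≤ j ∧ nrm (v k) = N ∧ In (Bx N) v i k := by
  obtain ⟨k, ⟨hk1, hk2, hk3⟩, hk⟩ := Int.exists_least_of_bdd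
    (P := fun k => i ≤ k ∧ k ≤ j ∧ N ≤ nrm (v k)) ⟨i, fun _ h => h.1⟩ ⟨j, hij, le_rfl, h2⟩
  have hlt : ∀ t, i ≤ t → t < k → nrm (v t) < N := fun t a b => by
    by_contra hc
    have := hk t ⟨a, by omega, by omega⟩
    omega
  have he : nrm (v k) = N := by
    rcases hk1.eq_or_lt with rfl | h3
    · omega
    · have a1 := hlt (k - 1) (by omega) (by omega)
      have a2 := h.nrm_le (k := k - 1) (l := k) (by omega) (by omega) hk2
      have := nrm_le_add (v k) (v (k - 1))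
      omega
  refine ⟨k, hk1, hk2, he, fun t a b => ?_⟩
  rcases b.eq_or_lt with rfl | b
  · exact he.le
  · exact (hlt t a b).le
lemma Walk.end_ed (h : Walk v i j) (h1 : i ≤ k) (h2 : k < j) :
    End (ed v k) z ↔ z = v k ∨ z = v (k + 1) := (h k h1 h2).end_iff
lemma Walk.ed_injOn (h : Walk v i j) (hi : Set.InjOn v (Set.Icc i j)) :
    Set.InjOn (ed v) (Set.Ico i j) := by
  rintro k ⟨a1, a2⟩ l ⟨b1, b2⟩ he
  have c1 : v k = v l ∨ v k = v (l + 1) :=
    (h.end_ed b1 b2).1 (he ▸ (h.end_ed a1 a2).2 (Or.inl rfl))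
  have c2 : v (k + 1) = v l ∨ v (k + 1) = v (l + 1) :=
    (h.end_ed b1 b2).1 (he ▸ (h.end_ed a1 a2).2 (Or.inr rfl))
  have f : ∀ s t, i ≤ s → s ≤ j → i ≤ t → t ≤ j → v s = v t → s = t :=
    fun s t _ _ _ _ e => hi ⟨‹_›, ‹_›⟩ ⟨‹_›, ‹_›⟩ e
  rcases c1 with c1 | c1
  · exact f _ _ a1 a2.le b1 b2.le c1
  · have := f _ _ a1 a2.le (by omega) (by omega) c1
    rcases c2 with c2 | c2 <;> have := f _ _ (by omega) (by omega) (by omega) (by omega) c2 <;>
      omega
lemma ed_sh (v : ℤ → V) (k t : ℤ) : ed (sh v k) t = ed v (t + k) := by simp only [ed, sh, add_right_comm t 1 k]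
lemma ed_rev (v : ℤ → V) (t : ℤ) : ed (rev v) t = ed v (-t - 1) := by
  simp only [ed, rev, show -(t + 1) = -t - 1 by ring, sub_add_cancel, edge_symm]
@[simp] lemma range_sh (v : ℤ → V) (k : ℤ) : Set.range (sh v k) = Set.range v := by
  ext x; constructor
  · rintro ⟨t, rfl⟩; exact ⟨t + k, rfl⟩
  · rintro ⟨t, rfl⟩; exact ⟨t - k, by simp [sh]⟩
@[simp] lemma range_rev (v : ℤ → V) : Set.range (rev v) = Set.range v := by
  ext x; constructor
  · rintro ⟨t, rfl⟩; exact ⟨-t, rfl⟩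
  · rintro ⟨t, rfl⟩; exact ⟨-t, by simp [rev]⟩
@[simp] lemma rev_rev (v : ℤ → V) : rev (rev v) = v := by funext t; simp [rev]

lemma cost_eq (w : Om) (v : ℤ → V) (i j : ℤ) : cost w v i j = ∑ k ∈ Ico i j, w (ed v k) := rfl
lemma cost_self (w : Om) (v : ℤ → V) (i : ℤ) : cost w v i i = 0 := by simp [cost]
lemma cost_add (w : Om) (v : ℤ → V) (h1 : i ≤ k) (h2 : k ≤ j) :
    cost w v i k + cost w v k j = cost w v i j := by
  simp only [cost_eq]
  rw [← sum_union (Ico_disjoint_Ico_consecutive i k j), Ico_union_Ico_eq_Ico h1 h2]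
lemma cost_one (w : Om) (v : ℤ → V) (i : ℤ) : cost w v i (i + 1) = w (ed v i) := by
  rw [cost_eq, show Ico i (i + 1) = {i} by ext; simp; omega, sum_singleton]
lemma cost_nonneg (hw : NN w) (v : ℤ → V) (i j : ℤ) : 0 ≤ cost w v i j := sum_nonneg fun _ _ => hw _
lemma cost_sub_le (hw : NN w) (v : ℤ → V) (h1 : i ≤ k) (h2 : k ≤ l) (h3 : l ≤ j) :
    cost w v k l ≤ cost w v i j := 
  sum_le_sum_of_subset_of_nonneg (Ico_subset_Ico h1 h3) fun _ _ _ => hw _
lemma cost_le (h : ∀ k, i ≤ k → k < j → w1 (ed v k) ≤ w2 (ed v k)) :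
    cost w1 v i j ≤ cost w2 v i j := 
  sum_le_sum fun k hk => h k (mem_Ico.1 hk).1 (mem_Ico.1 hk).2
lemma cost_congr (h : ∀ k, i ≤ k → k < j → w1 (ed v k) = w2 (ed v k)) :
    cost w1 v i j = cost w2 v i j := 
  sum_congr rfl fun k hk => h k (mem_Ico.1 hk).1 (mem_Ico.1 hk).2
lemma cost_congr' (h : ∀ k, i ≤ k → k ≤ j → v k = u k) : cost w v i j = cost w u i j := 
  sum_congr rfl fun k hk => by
    obtain ⟨a, b⟩ := mem_Ico.1 hk
    rw [h k a b.le, h (k + 1) (by omega) (by omega)]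
lemma cost_sh (w : Om) (v : ℤ → V) (k i j : ℤ) :
    cost w (sh v k) i j = cost w v (i + k) (j + k) := by
  simp only [cost_eq, ed_sh]
  refine sum_nbij' (· + k) (· - k) ?_ ?_ ?_ ?_ ?_ <;> intro t <;> simp only [mem_Ico] <;>
    first | omega | simp
lemma cost_rev (w : Om) (v : ℤ → V) (i j : ℤ) :
    cost w (rev v) i j = cost w v (-j) (-i) := by
  simp only [cost_eq, ed_rev]
  refine sum_nbij' (fun t => -t - 1) (fun t => -t - 1) ?_ ?_ ?_ ?_ ?_ <;> intro t <;>
    simp only [mem_Ico] <;> first | omega | simp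

/-- concatenation of two walks -/
lemma walk_append (hij : i ≤ j) (hkl : k ≤ l) (hv : Walk v i j) (hu : Walk u k l)
    (h : v j = u k) : ∃ p : ℤ → V, Walk p i (j + (l - k)) ∧ (∀ t, t ≤ j → p t = v t) ∧
      (∀ t, j ≤ t → p t = u (t - j + k)) ∧
      ∀ w : Om, cost w p i (j + (l - k)) = cost w v i j + cost w u k l := by
  set p : ℤ → V := fun t => if t ≤ j then v t else u (t - j + k) with hp
  have h1 : ∀ t, t ≤ j → p t = v t := fun t ht => if_pos ht
  have h2 : ∀ t, j ≤ t → p t = u (t - j + k) := fun t ht => by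
    rcases ht.eq_or_lt with rfl | ht
    · simp [hp, h]
    · exact if_neg (by omega)
  refine ⟨p, fun t a b => ?_, h1, h2, fun w => ?_⟩
  · by_cases c : t < j
    · rw [h1 t c.le, h1 (t + 1) (by omega)]; exact hv t a c
    · rw [h2 t (by omega), h2 (t + 1) (by omega), show t + 1 - j + k = t - j + k + 1 by ring]
      exact hu _ (by omega) (by omega)
  · rw [← cost_add w p hij (by omega), cost_congr' (u := v) fun t _ b => h1 t b,
      cost_congr' (u := sh u (k - j)) (i := j) fun t a _ => by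
        rw [h2 t a, sh]; congr 1; ring, cost_sh]
    congr 2 <;> ring

/-- loop erasure; the new walk only uses vertices and edges of the old one -/
lemma loop_erase (hij : i ≤ j) (hv : Walk v i j) : ∃ (p : ℤ → V) (m : ℤ), 0 ≤ m ∧ m ≤ j - i ∧
    p 0 = v i ∧ p m = v j ∧ Walk p 0 m ∧ Set.InjOn p (Set.Icc 0 m) ∧
    (∀ t, 0 ≤ t → t ≤ m → ∃ s, i ≤ s ∧ s ≤ j ∧ p t = v s) ∧
    (∀ t, 0 ≤ t → t < m → ∃ s, i ≤ s ∧ s < j ∧ p t = v s ∧ p (t + 1) = v (s + 1)) ∧
    ∀ w : Om, NN w → cost w p 0 m ≤ cost w v i j := by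
  obtain ⟨n, hn⟩ : ∃ n : ℕ, j - i = n := ⟨(j - i).toNat, by omega⟩
  induction n using Nat.strong_induction_on generalizing v i j with
  | _ n ih =>
  by_cases hi : Set.InjOn v (Set.Icc i j)
  · refine ⟨sh v i, j - i, by omega, le_rfl, by simp [sh], by simp [sh],
      Walk.sh (by simpa using hv), ?_, fun t a b => ⟨t + i, by omega, by omega, rfl⟩,
      fun t a b => ⟨t + i, by omega, by omega, rfl, by simp only [sh]; congr 1; ring⟩,
      fun w _ => by simp [cost_sh]⟩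
    rintro s ⟨a, b⟩ t ⟨c, d⟩ e
    have := hi (x₁ := s + i) (x₂ := t + i) ⟨by omega, by omega⟩ ⟨by omega, by omega⟩ e
    omega
  · obtain ⟨k, l, a1, a2, a3, he⟩ : ∃ k l, i ≤ k ∧ k < l ∧ l ≤ j ∧ v k = v l := by
      simp only [Set.InjOn, not_forall] at hi
      obtain ⟨k, ⟨a, b⟩, l, ⟨c, d⟩, e, f⟩ := hi
      rcases lt_or_gt_of_ne f with g | g
      exacts [⟨k, l, a, g, d, e⟩, ⟨l, k, c, g, b, e.symm⟩]
    obtain ⟨q, q1, q2, q3, q4⟩ := walk_append a1 a3 (hv.mono le_rfl (by omega))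
      (hv.mono (by omega) le_rfl) he
    obtain ⟨p, m, p1, p2, p3, p4, p5, p6, p7, p8, p9⟩ :=
      ih (k + (j - l) - i).toNat (by omega) (by omega) q1 (by omega)
    refine ⟨p, m, p1, by omega, by rw [p3, q2 i a1], ?_, p5, p6, fun t a b => ?_,
      fun t a b => ?_, fun w hw => ?_⟩
    · rw [p4, q3 _ (by omega)]; congr 1; ring
    · obtain ⟨s, s1, s2, s3⟩ := p7 t a b
      by_cases c : s ≤ k
      · exact ⟨s, s1, by omega, s3.trans (q2 s c)⟩
      · exact ⟨s - k + l, by omega, by omega, s3.trans (q3 s (by omega))⟩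
    · obtain ⟨s, s1, s2, s3, s4⟩ := p8 t a b
      by_cases c : s < k
      · exact ⟨s, s1, by omega, s3.trans (q2 s c.le), s4.trans (q2 _ (by omega))⟩
      · refine ⟨s - k + l, by omega, by omega, s3.trans (q3 s (by omega)), ?_⟩
        rw [s4, q3 _ (by omega)]; congr 1; ring
    · have b1 := cost_add w v a1 (show k ≤ j by omega)
      have b2 := cost_add w v a2.le a3
      have b3 := cost_nonneg hw v k l
      have := p9 w hw
      rw [q4] at this
      linarith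

lemma Con.symm (h : Con S x y) : Con S y x := by
  obtain ⟨v, i, j, a, rfl, rfl, b, c⟩ := h
  exact ⟨rev v, -j, -i, by omega, by simp [rev], by simp [rev], Walk.rev (by simpa using b),
    fun t d e => c _ (by omega) (by omega)⟩
lemma Con.trans (h : Con S x y) (h' : Con S y z) : Con S x z := by
  obtain ⟨v, i, j, a, rfl, rfl, b, c⟩ := h
  obtain ⟨u, k, l, a', e, rfl, b', c'⟩ := h'
  obtain ⟨p, p1, p2, p3, -⟩ := walk_append a a' b b' e.symm
  refine ⟨p, i, j + (l - k), by omega, p2 i a, by rw [p3 _ (by omega)]; congr 1; ring, p1,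
    fun t d e => ?_⟩
  by_cases f : t ≤ j
  · rw [p2 t f]; exact c t d f
  · rw [p3 t (by omega)]; exact c' _ (by omega) (by omega)

lemma con_h {N a b c : ℤ} (h : a ≤ c) (hx : nrm (a, b) ≤ N) (hy : nrm (c, b) ≤ N) :
    Con (Bx N) (a, b) (c, b) :=
  ⟨fun t => (t, b), a, c, h, rfl, rfl, fun t _ _ => by simp [Adj], fun t _ _ => by
    simp only [Bx, nrm, abs_eq_max_neg, Set.mem_setOf_eq] at *; omega⟩
lemma con_v {N a b c : ℤ} (h : b ≤ c) (hx : nrm (a, b) ≤ N) (hy : nrm (a, c) ≤ N) :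
    Con (Bx N) (a, b) (a, c) :=
  ⟨fun t => (a, t), b, c, h, rfl, rfl, fun t _ _ => by simp [Adj], fun t _ _ => by
    simp only [Bx, nrm, abs_eq_max_neg, Set.mem_setOf_eq] at *; omega⟩
lemma con_box {N : ℤ} (hx : nrm x ≤ N) (hy : nrm y ≤ N) : Con (Bx N) x y := by
  obtain ⟨a, b⟩ := x; obtain ⟨c, d⟩ := y
  have hz : nrm (c, b) ≤ N := by simp only [nrm] at *; omega
  refine Con.trans (y := (c, b)) ?_ ?_
  · rcases le_total a c with h | h
    exacts [con_h h hx hz, (con_h h hz hx).symm]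
  · rcases le_total b d with h | h
    exacts [con_v h hz hy, (con_v h hy hz).symm]
lemma con_univ (x y : V) : Con Set.univ x y := by
  obtain ⟨v, i, j, a, b, c, d, -⟩ := con_box (le_max_left (nrm x) (nrm y)) (le_max_right _ _)
  exact ⟨v, i, j, a, b, c, d, fun _ _ _ => trivial⟩

lemma T_eq_D (w : Om) (x y : V) : T w x y = D Set.univ w x y := by simp [T, D, In]
lemma D_bdd (hw : NN w) (S : Set V) (x y : V) : ∀ c ∈ {c | ∃ (v : ℤ → V) (i j : ℤ), i ≤ j ∧
    v i = x ∧ v j = y ∧ Walk v i j ∧ In S v i j ∧ c = cost w v i j}, 0 ≤ c := by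
  rintro c ⟨v, i, j, -, -, -, -, -, rfl⟩; exact cost_nonneg hw _ _ _
lemma D_le_cost (hw : NN w) (hij : i ≤ j) (hv : Walk v i j) (hS : In S v i j) :
    D S w (v i) (v j) ≤ cost w v i j := csInf_le ⟨0, D_bdd hw S _ _⟩ ⟨v, i, j, hij, rfl, rfl, hv, hS, rfl⟩
lemma D_approx (hw : NN w) (h : Con S x y) {ε : ℝ} (hε : 0 < ε) : ∃ (p : ℤ → V) (m : ℤ), 0 ≤ m ∧
    p 0 = x ∧ p m = y ∧ Walk p 0 m ∧ Set.InjOn p (Set.Icc 0 m) ∧ In S p 0 m ∧
    cost w p 0 m < D S w x y + ε := by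
  obtain ⟨v, i, j, a, b, c, d, e⟩ := h
  obtain ⟨_, ⟨v, i, j, a, rfl, rfl, d, e, rfl⟩, f⟩ := Real.lt_sInf_add_pos
    (s := {c | ∃ (v : ℤ → V) (i j : ℤ), i ≤ j ∧ v i = x ∧ v j = y ∧ Walk v i j ∧ In S v i j ∧
      c = cost w v i j}) ⟨_, v, i, j, a, b, c, d, e, rfl⟩ hε
  obtain ⟨p, m, p1, -, p3, p4, p5, p6, p7, -, p9⟩ := loop_erase a d
  refine ⟨p, m, p1, p3, p4, p5, p6, fun t g h => ?_, (p9 w hw).trans_lt f⟩
  obtain ⟨s, s1, s2, s3⟩ := p7 t g h
  rw [s3]; exact e s s1 s2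
lemma D_nonneg (hw : NN w) (S : Set V) (x y : V) : 0 ≤ D S w x y := Real.sInf_nonneg (D_bdd hw S x y)
lemma D_self (hw : NN w) (hx : x ∈ S) : D S w x x = 0 := by
  refine le_antisymm ?_ (D_nonneg hw _ _ _)
  have := D_le_cost (v := fun _ => x) (i := 0) (S := S) hw le_rfl (fun t a b => by omega)
    fun _ _ _ => hx
  rwa [cost_self] at this
lemma D_symm (S : Set V) (w : Om) (x y : V) : D S w x y = D S w y x := by
  have h : ∀ x y : V, {c | ∃ (v : ℤ → V) (i j : ℤ), i ≤ j ∧ v i = x ∧ v j = y ∧ Walk v i j ∧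
      In S v i j ∧ c = cost w v i j} ⊆ {c | ∃ (v : ℤ → V) (i j : ℤ), i ≤ j ∧ v i = y ∧ v j = x ∧
      Walk v i j ∧ In S v i j ∧ c = cost w v i j} := by
    rintro x y _ ⟨v, i, j, a, rfl, rfl, b, c, rfl⟩
    exact ⟨rev v, -j, -i, by omega, by simp [rev], by simp [rev], Walk.rev (by simpa using b),
      fun t d e => c _ (by omega) (by omega), by simp [cost_rev]⟩
  unfold D
  rw [(h x y).antisymm (h y x)]
lemma D_tri (hw : NN w) (h : Con S x y) (h' : Con S y z) :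
    D S w x z ≤ D S w x y + D S w y z := by
  refine le_of_forall_pos_le_add fun ε hε => ?_
  obtain ⟨v, i, a, rfl, rfl, b, -, c, d⟩ := D_approx hw h (half_pos hε)
  obtain ⟨u, l, a', e, rfl, b', -, c', d'⟩ := D_approx hw h' (half_pos hε)
  obtain ⟨p, p1, p2, p3, p4⟩ := walk_append a a' b b' e.symm
  have := D_le_cost (S := S) hw (by omega) p1 fun t d e => by
    by_cases f : t ≤ i
    · rw [p2 t f]; exact c t d f
    · rw [p3 t (by omega)]; exact c' _ (by omega) (by omega)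
  rw [p4, p2 0 a, p3 _ (by omega), show i + (l - 0) - i + 0 = l by ring] at this
  linarith
lemma T_le_cost (hw : NN w) (hij : i ≤ j) (hv : Walk v i j) :
    T w (v i) (v j) ≤ cost w v i j := T_eq_D w _ _ ▸ D_le_cost hw hij hv fun _ _ _ => trivial
lemma T_le_D (hw : NN w) (h : Con S x y) : T w x y ≤ D S w x y := by
  refine le_of_forall_pos_le_add fun ε hε => ?_
  obtain ⟨v, i, a, rfl, rfl, b, -, c, d⟩ := D_approx hw h hε
  exact (T_le_cost hw a b).trans d.le

lemma T_approx (hw : NN w) (x y : V) {ε : ℝ} (hε : 0 < ε) : ∃ (p : ℤ → V) (m : ℤ), 0 ≤ m ∧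
    p 0 = x ∧ p m = y ∧ Walk p 0 m ∧ Set.InjOn p (Set.Icc 0 m) ∧
    cost w p 0 m < T w x y + ε := by
  obtain ⟨p, m, a, b, c, d, e, -, f⟩ := D_approx hw (con_univ x y) hε
  exact ⟨p, m, a, b, c, d, e, T_eq_D w _ _ ▸ f⟩
lemma T_nonneg (hw : NN w) (x y : V) : 0 ≤ T w x y := T_eq_D w _ _ ▸ D_nonneg hw _ _ _
lemma T_self (hw : NN w) (x : V) : T w x x = 0 := (T_eq_D w _ _).trans (D_self hw trivial)
lemma T_symm (w : Om) (x y : V) : T w x y = T w y x := by rw [T_eq_D, T_eq_D, D_symm]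
lemma T_tri (hw : NN w) (x y z : V) : T w x z ≤ T w x y + T w y z := by
  simp only [T_eq_D]; exact D_tri hw (con_univ _ _) (con_univ _ _)
lemma T_le_edge (hw : NN w) (h : Adj x y) : T w x y ≤ w (edge x y) := by
  have := T_le_cost (v := fun t => if t ≤ 0 then x else y) (i := 0) (j := 0 + 1) hw (by omega)
    fun t a b => by
      obtain rfl : t = 0 := by omega
      simpa using h
  rw [cost_one] at this
  simpa [ed] using this
lemma T_mono (hw : NN w1) (h : ∀ e, w1 e ≤ w2 e) (x y : V) : T w1 x y ≤ T w2 x y := by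
  refine le_of_forall_pos_le_add fun ε hε => ?_
  obtain ⟨v, i, a, rfl, rfl, b, -, d⟩ := T_approx (fun e => (hw e).trans (h e)) x y hε
  exact ((T_le_cost hw a b).trans (cost_le fun _ _ _ => h _)).trans d.le

lemma cost_lower_le (hv : Walk v i j) (hi : Set.InjOn v (Set.Icc i j)) (F : Finset E)
    (h : ∀ e, e ∉ F → w2 e ≤ w1 e) (hF : ∀ e ∈ F, w1 e ≤ w2 e) :
    cost w2 v i j - ∑ e ∈ F, (w2 e - w1 e) ≤ cost w1 v i j := by
  classical
  have h1 : cost w2 v i j - cost w1 v i j = ∑ e ∈ (Ico i j).image (ed v), (w2 e - w1 e) := by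
    rw [sum_image (by simpa using hv.ed_injOn hi), cost_eq, cost_eq, sum_sub_distrib]
  have h2 : ∑ e ∈ (Ico i j).image (ed v), (w2 e - w1 e) ≤ ∑ e ∈ F, (w2 e - w1 e) := by
    rw [← sum_inter_add_sum_sdiff _ F]
    have a : ∑ e ∈ (Ico i j).image (ed v) \ F, (w2 e - w1 e) ≤ 0 :=
      sum_nonpos fun e he => sub_nonpos.2 (h e (mem_sdiff.1 he).2)
    have b : ∑ e ∈ (Ico i j).image (ed v) ∩ F, (w2 e - w1 e) ≤ ∑ e ∈ F, (w2 e - w1 e) :=
      sum_le_sum_of_subset_of_nonneg inter_subset_right fun e he _ => sub_nonneg.2 (hF e he)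
    linarith
  linarith

/-- (L0) lowering the weights on `F` lowers passage times by at most the total change -/
lemma T_lower (hw : NN w1) (hw2 : NN w2) (F : Finset E) (h : ∀ e, e ∉ F → w2 e ≤ w1 e)
    (hF : ∀ e ∈ F, w1 e ≤ w2 e) (x y : V) :
    T w2 x y - ∑ e ∈ F, (w2 e - w1 e) ≤ T w1 x y := by
  refine le_of_forall_pos_le_add fun ε hε => ?_
  obtain ⟨v, i, a, rfl, rfl, b, c, d⟩ := T_approx hw x y hε
  have := cost_lower_le b c F h hF
  have := T_le_cost hw2 a b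
  linarith

/-- cost of a simple path all of whose modified edges lie on it -/
lemma cost_lower (hv : Walk v i j) (hi : Set.InjOn v (Set.Icc i j)) (F : Finset E)
    (h : ∀ e, e ∉ F → w1 e = w2 e) (hF : ∀ e ∈ F, ∃ k, i ≤ k ∧ k < j ∧ ed v k = e) :
    cost w1 v i j = cost w2 v i j - ∑ e ∈ F, (w2 e - w1 e) := by
  classical
  have h1 : cost w2 v i j - cost w1 v i j = ∑ e ∈ (Ico i j).image (ed v), (w2 e - w1 e) := by
    rw [sum_image (by simpa using hv.ed_injOn hi), cost_eq, cost_eq, sum_sub_distrib]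
  rw [← sum_subset (s₁ := F) (fun e he => by
    obtain ⟨k, a, b, c⟩ := hF e he
    exact mem_image.2 ⟨k, mem_Ico.2 ⟨a, b⟩, c⟩) fun e _ he => by rw [h e he, sub_self]] at h1
  linarith

end Vale.Agent.P158N
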