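import Vale.Agent.P158N.Defs

/-! Constants of the law. -/

namespace Vale.Agent.P158N

open MeasureTheory Finset
open scoped ENNReal

/-- light level `a`, heavy level `b` -/
structure Par (G : Measure ℝ) where
  a : ℝ
  b : ℝ
  ha : 0 < a
  hab : a < b
  hGa : 0 < G (Set.Icc 0 a)
  hGb : G (Set.Ici b)ᶜ ≤ 1 / 256

variable {G : Measure ℝ} [IsProbabilityMeasure G]

lemma par_small (s : ℕ → Set ℝ) (hs : ∀ n, MeasurableSet (s n)) (ha : Antitone s)
    (h0 : G (⋂ n, s n) = 0) {ε : ℝ≥0∞} (hε : 0 < ε) : ∃ n, G (s n) ≤ ε := by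
  have h := tendsto_measure_iInter_atTop (μ := G) (fun n => (hs n).nullMeasurableSet) ha
    ⟨0, measure_ne_top _ _⟩
  rw [h0] at h
  exact (h.eventually (ge_mem_nhds hε)).exists

lemma par_tight {ε : ℝ≥0∞} (hε : 0 < ε) : ∃ M : ℕ, G (Set.Icc (-(M : ℝ)) M)ᶜ ≤ ε := by
  refine par_small (fun n : ℕ => (Set.Icc (-(n : ℝ)) n)ᶜ) (fun n => measurableSet_Icc.compl)
    (fun m n hmn => Set.compl_subset_compl.2 (Set.Icc_subset_Icc ?_ ?_)) ?_ hε
  · exact neg_le_neg (by exact_mod_cast hmn)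
  · exact_mod_cast hmn
  · have : (⋂ n : ℕ, (Set.Icc (-(n : ℝ)) n)ᶜ) = ∅ := by
      refine Set.eq_empty_of_forall_notMem fun x hx => ?_
      obtain ⟨n, hn⟩ := exists_nat_ge |x|
      exact Set.mem_iInter.1 hx n (abs_le.1 hn)
    rw [this, measure_empty]

lemma exists_big : ∃ M : ℝ, 0 ≤ M ∧ G (Set.Iic M)ᶜ ≤ 1 / 256 := by
  obtain ⟨M, hM⟩ := par_tight (G := G) (ε := 1 / 256) (by simp)
  exact ⟨M, by positivity,
    (measure_mono (Set.compl_subset_compl.2 Set.Icc_subset_Iic_self)).trans hM⟩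

/-- uniform modulus of an atomless law -/
lemma exists_modulus [NullSingletonClass G] {ε : ℝ≥0∞} (hε : 0 < ε) :
    ∃ η : ℝ, 0 < η ∧ η ≤ 1 ∧ ∀ x, G (Set.Icc x (x + η)) ≤ ε := by
  obtain ⟨M, hM⟩ := par_tight (G := G) hε
  have h1 : ∀ x : ℝ, ∃ U, {x} ⊆ U ∧ IsOpen U ∧ G U < ε := fun x =>
    Set.exists_isOpen_lt_of_lt {x} ε (by simpa using hε)
  choose U hU1 hU2 hU3 using h1
  obtain ⟨δ, hδ, h2⟩ := lebesgue_number_lemma_of_metric
    (isCompact_Icc (a := -(M : ℝ) - 1) (b := M)) hU2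
    (fun x _ => Set.mem_iUnion.2 ⟨x, hU1 x rfl⟩)
  refine ⟨min (δ / 2) 1, lt_min (half_pos hδ) one_pos, min_le_right _ _, fun x => ?_⟩
  have m1 := min_le_left (δ / 2) 1
  have m2 := min_le_right (δ / 2) 1
  by_cases hx : x ∈ Set.Icc (-(M : ℝ) - 1) M
  · obtain ⟨i, hi⟩ := h2 x hx
    refine (measure_mono fun t ht => hi ?_).trans (hU3 i).le
    rw [Metric.mem_ball, Real.dist_eq, abs_lt]
    constructor <;> linarith [ht.1, ht.2]
  · refine le_trans (measure_mono (t := (Set.Icc (-(M : ℝ)) M)ᶜ) fun t ht h => hx ?_) hM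
    constructor <;> linarith [ht.1, ht.2, h.1, h.2]

lemma exists_par [NullSingletonClass G] (h0 : G (Set.Iio 0) = 0) : Nonempty (Par G) := by
  classical
  obtain ⟨η, hη, -, h1⟩ := exists_modulus (G := G) (ε := 1 / 256) (by simp)
  have h2 : ∃ k : ℕ, G (Set.Iic ((k : ℝ) * (η / 2))) ≠ 0 := by
    by_contra hc
    push Not at hc
    have h3 := measure_iUnion_null hc
    have h4 : (⋃ k : ℕ, Set.Iic ((k : ℝ) * (η / 2))) = Set.univ := by
      refine Set.eq_univ_of_forall fun x => ?_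
      obtain ⟨k, hk⟩ := exists_nat_ge (x / (η / 2))
      exact Set.mem_iUnion.2 ⟨k, by rwa [div_le_iff₀ (half_pos hη)] at hk⟩
    rw [h4] at h3
    simp at h3
  have h5 := Nat.find_spec h2
  have h6 : Nat.find h2 ≠ 0 := by
    intro h
    rw [h] at h5
    apply h5
    rw [Nat.cast_zero, zero_mul, ← Set.Iio_union_right]
    exact measure_union_null h0 (measure_singleton _)
  obtain ⟨k, hk⟩ := Nat.exists_eq_succ_of_ne_zero h6
  have h7 := Nat.find_min h2 (m := k) (by omega)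
  rw [hk] at h5
  rw [not_not] at h7
  push_cast at h5
  have hk0 : (0 : ℝ) ≤ k := by positivity
  refine ⟨⟨(k + 1) * (η / 2), (k + 2) * (η / 2), by positivity, by linarith, ?_, ?_⟩⟩
  · rw [pos_iff_ne_zero]
    intro h
    refine h5 (measure_mono_null (fun t ht => ?_) (measure_union_null h0 h))
    by_cases c : t < 0
    · exact Or.inl c
    · exact Or.inr ⟨not_lt.1 c, ht⟩
  · calc G (Set.Ici ((k + 2) * (η / 2)))ᶜ
        ≤ G (Set.Iic ((k : ℝ) * (η / 2)) ∪ Set.Icc (k * (η / 2)) (k * (η / 2) + η)) := by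
          refine measure_mono fun t ht => ?_
          have ht' : t < (k + 2) * (η / 2) := not_le.1 ht
          by_cases c : t ≤ k * (η / 2)
          · exact Or.inl c
          · exact Or.inr ⟨(not_le.1 c).le, by linarith⟩
      _ ≤ _ := measure_union_le _ _
      _ ≤ 1 / 256 := by rw [h7, zero_add]; exact h1 _

lemma par_left_null [NullSingletonClass G] {η : ℝ} (hη : 0 < η) :
    G {t | G (Set.Ico (t - η) t) = 0} = 0 := by
  set N := {t | G (Set.Ico (t - η) t) = 0} with hN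
  set U := ⋃ t ∈ N, Set.Ioo (t - η) t with hU
  have h1 : G U = 0 := by
    refine measure_null_of_locally_null U fun x hx => ?_
    obtain ⟨t, ht, hx⟩ := Set.mem_iUnion₂.1 hx
    exact ⟨_, mem_nhdsWithin_of_mem_nhds (Ioo_mem_nhds hx.1 hx.2),
      measure_mono_null Set.Ioo_subset_Ico_self ht⟩
  have h2 : (N \ U).Countable := by
    refine Set.MapsTo.countable_of_injOn (f := fun t => ⌊t / η⌋) (Set.mapsTo_univ _ _) ?_
      Set.countable_univ
    have key : ∀ s ∈ N \ U, ∀ t ∈ N \ U, s < t → ⌊s / η⌋ ≠ ⌊t / η⌋ := by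
      intro s hs t ht hst e
      refine hs.2 (Set.mem_iUnion₂.2 ⟨t, ht.1, ?_, hst⟩)
      have a1 := Int.floor_le (s / η)
      have a2 := Int.lt_floor_add_one (t / η)
      rw [← e] at a2
      have a3 : t / η < s / η + 1 := by linarith
      rw [div_add_one hη.ne', div_lt_div_iff_of_pos_right hη] at a3
      linarith
    intro s hs t ht e
    rcases lt_trichotomy s t with c | c | c
    exacts [(key s hs t ht c e).elim, c, (key t ht s hs c e.symm).elim]
  refine measure_mono_null (fun t ht => ?_) (measure_union_null h1 (h2.measure_zero G))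
  by_cases c : t ∈ U
  exacts [Or.inl c, Or.inr ⟨ht, c⟩]

/-- soft values: most values can be lowered by an amount in `[η', η]` -/
lemma exists_soft [NullSingletonClass G] {η : ℝ} (hη : 0 < η) : ∃ (η' : ℝ) (κ : ℝ≥0∞) (S : Set ℝ),
    0 < η' ∧ η' ≤ η ∧ 0 < κ ∧ MeasurableSet S ∧ G Sᶜ ≤ 1 / 256 ∧
    ∀ t ∈ S, κ ≤ G (Set.Icc (t - η) (t - η')) := by
  let S : ℕ → Set ℝ := fun n =>
    {t | ((n : ℝ≥0∞) + 1)⁻¹ ≤ G (Set.Icc (t - η) (t - η / ((n : ℝ) + 1)))}
  have hm : ∀ n, MeasurableSet (S n) := fun n => by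
    have h1 : MeasurableSet {p : ℝ × ℝ | p.1 - η ≤ p.2 ∧ p.2 ≤ p.1 - η / ((n : ℝ) + 1)} :=
      MeasurableSet.inter (measurableSet_le (f := fun p : ℝ × ℝ => p.1 - η) (by fun_prop)
        measurable_snd) (measurableSet_le (g := fun p : ℝ × ℝ => p.1 - η / ((n : ℝ) + 1))
        measurable_snd (by fun_prop))
    exact measurableSet_le measurable_const (measurable_measure_prodMk_left (ν := G) h1)
  have hsub : ∀ (t : ℝ) (m n : ℕ), m ≤ n → Set.Icc (t - η) (t - η / ((m : ℝ) + 1)) ⊆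
      Set.Icc (t - η) (t - η / ((n : ℝ) + 1)) := fun t m n hmn => by
    refine Set.Icc_subset_Icc le_rfl (sub_le_sub_left ?_ _)
    have : (m : ℝ) ≤ n := by exact_mod_cast hmn
    gcongr
  have hinv : ∀ m n : ℕ, m ≤ n → ((n : ℝ≥0∞) + 1)⁻¹ ≤ ((m : ℝ≥0∞) + 1)⁻¹ := fun m n hmn => by
    gcongr
  obtain ⟨n, hn⟩ := par_small (G := G) (fun n => (S n)ᶜ) (fun n => (hm n).compl)
    (fun m n hmn => Set.compl_subset_compl.2 fun t ht =>
      (hinv m n hmn).trans (le_trans ht (measure_mono (hsub t m n hmn)))) (ε := 1 / 256)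
    (by
      refine measure_mono_null (fun t ht => ?_) (par_left_null (G := G) hη)
      have h1 : ∀ m : ℕ, G (Set.Icc (t - η) (t - η / ((m : ℝ) + 1))) = 0 := fun m => by
        by_contra hc
        obtain ⟨k, hk⟩ := ENNReal.exists_inv_nat_lt hc
        refine Set.mem_iInter.1 ht (max m k) ?_
        refine le_trans ?_ (measure_mono (hsub t m _ (le_max_left _ _)))
        refine le_trans ?_ hk.le
        refine (hinv k _ (le_max_right _ _)).trans ?_
        exact ENNReal.inv_le_inv.2 le_self_add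
      refine measure_mono_null (fun x hx => ?_) (measure_iUnion_null h1)
      obtain ⟨m, hm⟩ := exists_nat_ge (η / (t - x))
      have hx2 : 0 < t - x := sub_pos.2 hx.2
      refine Set.mem_iUnion.2 ⟨m, hx.1, ?_⟩
      have : η / ((m : ℝ) + 1) ≤ t - x := by
        rw [div_le_iff₀ (by positivity)]
        rw [div_le_iff₀ hx2] at hm
        nlinarith
      linarith) (by simp)
  refine ⟨η / ((n : ℝ) + 1), ((n : ℝ≥0∞) + 1)⁻¹, S n, by positivity, ?_, ?_, hm n, hn,
    fun t ht => ht⟩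
  · exact div_le_self hη.le (by linarith [show (0 : ℝ) ≤ n by positivity])
  · simp

end Vale.Agent.P158N
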