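import Vale.Agent.P158N.Prob
import Vale.Agent.P158N.Par

/-! Peierls bound, almost sure niceness. -/

namespace Vale.Agent.P158N

open MeasureTheory Finset
open scoped ENNReal

variable {G : Measure ℝ} [IsProbabilityMeasure G]

/-- the four steps -/
def pst (d : Fin 4) : V := if d = 0 then (1, 0) else if d = 1 then (-1, 0) else
  if d = 2 then (0, 1) else (0, -1)

/-- the walk with given steps -/
def pwk (z : V) {m : ℕ} (d : Fin m → Fin 4) (k : ℤ) : V :=
  z + ∑ i : Fin m, if ((i : ℕ) : ℤ) < k then pst (d i) else 0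

lemma exists_pst {x y : V} (h : Adj x y) : ∃ d, y = x + pst d := by
  obtain ⟨a, b⟩ := x
  obtain ⟨c, e⟩ := y
  simp only [Adj, abs_eq_max_neg] at h
  have : (c = a + 1 ∧ e = b) ∨ (c = a - 1 ∧ e = b) ∨ (c = a ∧ e = b + 1) ∨
      (c = a ∧ e = b - 1) := by omega
  rcases this with ⟨rfl, rfl⟩ | ⟨rfl, rfl⟩ | ⟨rfl, rfl⟩ | ⟨rfl, rfl⟩
  · exact ⟨0, by simp [pst]⟩
  · exact ⟨1, by simp [pst, sub_eq_add_neg]⟩
  · exact ⟨2, by simp [pst]⟩
  · exact ⟨3, by simp [pst, sub_eq_add_neg]⟩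

lemma exists_pwk {v : ℤ → V} {m : ℕ} (hv : Walk v 0 m) :
    ∃ d : Fin m → Fin 4, ∀ k : ℤ, 0 ≤ k → k ≤ m → v k = pwk (v 0) d k := by
  have h1 : ∀ i : Fin m, ∃ d, v ((i : ℕ) + 1) = v (i : ℕ) + pst d := fun i =>
    exists_pst (hv _ (by omega) (by have := i.2; omega))
  choose d hd using h1
  refine ⟨d, fun k hk => ?_⟩
  induction k, hk using Int.le_induction with
  | base =>
    intro _
    unfold pwk
    rw [sum_eq_zero fun i _ => if_neg (by omega), add_zero]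
  | succ k hk ih =>
    intro hk2
    obtain ⟨n, rfl⟩ := Int.eq_ofNat_of_zero_le hk
    have hn : n < m := by omega
    have e := hd ⟨n, hn⟩
    simp only at e
    rw [e, ih (by omega)]
    unfold pwk
    rw [add_assoc]
    congr 1
    have : pst (d ⟨n, hn⟩) = ∑ i : Fin m, if i = ⟨n, hn⟩ then pst (d i) else 0 := by simp
    rw [this, ← sum_add_distrib]
    refine sum_congr rfl fun i _ => ?_
    by_cases c : i = ⟨n, hn⟩
    · subst c
      simp
    · have c' : (i : ℕ) ≠ n := fun h => c (Fin.ext h)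
      by_cases c2 : ((i : ℕ) : ℤ) < n
      · rw [if_pos c2, if_neg c, if_pos (by omega), add_zero]
      · rw [if_neg c2, if_neg c, if_neg (by omega), add_zero]

lemma P_all_bad {S : Set ℝ} (hS : MeasurableSet S) (hG : G Sᶜ ≤ 1 / 256) (g : ℤ → E)
    (A : Finset ℤ) (hg : Set.InjOn g A) (m : ℕ) (hm : m ≤ 2 * A.card) :
    P G {w | ∀ k ∈ A, w (g k) ∉ S} ≤ (16 : ℝ≥0∞)⁻¹ ^ m := by
  classical
  have h1 : {w : Om | ∀ k ∈ A, w (g k) ∉ S} = Set.pi (↑(A.image g)) fun _ => Sᶜ := by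
    ext w
    simp
  rw [h1, P, Measure.infinitePi_pi _ (fun _ _ => hS.compl), prod_const, card_image_of_injOn hg]
  have h2 : (1 / 256 : ℝ≥0∞) = 16⁻¹ ^ 2 := by
    rw [one_div, ← ENNReal.inv_pow]; norm_num
  calc G Sᶜ ^ A.card ≤ (16⁻¹ ^ 2) ^ A.card := by rw [← h2]; gcongr
    _ = 16⁻¹ ^ (2 * A.card) := by rw [pow_mul]
    _ ≤ 16⁻¹ ^ m := pow_le_pow_right_of_le_one' (by simp) hm

/-- Peierls union bound: `∑_{m ≥ l} 4^m 2^m (1/256)^{m/2}` -/
lemma peierlsG (f : V → V → E) (hf : ∀ (v : ℤ → V) (m : ℤ), Walk v 0 m →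
    Set.InjOn v (Set.Icc 0 m) → Set.InjOn (fun k => f (v k) (v (k + 1))) (Set.Ico 0 m))
    {S : Set ℝ} (hS : MeasurableSet S) (hG : G Sᶜ ≤ 1 / 256) (z : V) (l : ℕ) :
    P G {w | ¬ PeG f S w z l} ≤ 2 * 2⁻¹ ^ l := by
  classical
  let g : (m : ℕ) → (Fin m → Fin 4) → ℤ → E := fun m d k => f (pwk z d k) (pwk z d (k + 1))
  let B : ℕ → Set Om := fun m => ⋃ d : Fin m → Fin 4,
    ⋃ A ∈ (Ico (0 : ℤ) m).powerset.filter
      (fun A : Finset ℤ => Set.InjOn (g m d) ↑A ∧ m ≤ 2 * A.card),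
      {w | ∀ k ∈ A, w (g m d k) ∉ S}
  have hB : ∀ m, P G (B m) ≤ 2⁻¹ ^ m := fun m => by
    refine (measure_iUnion_fintype_le _ _).trans ?_
    have h1 : ∀ d : Fin m → Fin 4, P G (⋃ A ∈ (Ico (0 : ℤ) m).powerset.filter
        (fun A : Finset ℤ => Set.InjOn (g m d) ↑A ∧ m ≤ 2 * A.card), {w | ∀ k ∈ A, w (g m d k) ∉ S}) ≤
        2 ^ m * 16⁻¹ ^ m := fun d => by
      refine (measure_biUnion_finset_le _ _).trans ?_
      refine (sum_le_card_nsmul _ _ ((16 : ℝ≥0∞)⁻¹ ^ m) fun A hA => ?_).trans ?_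
      · obtain ⟨-, h2, h3⟩ := mem_filter.1 hA
        exact P_all_bad hS hG _ A h2 m h3
      · rw [nsmul_eq_mul]
        gcongr
        have := (card_filter_le (Ico (0 : ℤ) m).powerset
          (fun A : Finset ℤ => Set.InjOn (g m d) ↑A ∧ m ≤ 2 * A.card))
        rw [card_powerset, Int.card_Ico, sub_zero, Int.toNat_natCast] at this
        exact_mod_cast this
    refine (sum_le_card_nsmul _ _ _ fun d _ => h1 d).trans (le_of_eq ?_)
    rw [nsmul_eq_mul, card_univ, Fintype.card_fun, Fintype.card_fin, Fintype.card_fin]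
    push_cast
    rw [← mul_pow, ← mul_pow]
    congr 1
    have : (16 : ℝ≥0∞) = (4 * 2) * 2 := by norm_num
    rw [this, ENNReal.mul_inv (by simp) (by simp), ← mul_assoc, ← mul_assoc,
      ENNReal.mul_inv_cancel (by simp) (by norm_num), one_mul]
  have hsub : {w | ¬ PeG f S w z l} ⊆ ⋃ n : ℕ, B (n + l) := by
    intro w hw
    simp only [PeG, Set.mem_setOf_eq, not_forall, not_le] at hw
    obtain ⟨v, m, h0, hl, hv, hi, hc⟩ := hw
    obtain ⟨n, rfl⟩ : ∃ n : ℕ, m = ((n + l : ℕ) : ℤ) := ⟨(m - l).toNat, by omega⟩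
    obtain ⟨d, hd⟩ := exists_pwk hv
    rw [h0] at hd
    have he : ∀ k ∈ Ico (0 : ℤ) ((n + l : ℕ) : ℤ), f (v k) (v (k + 1)) = g (n + l) d k := by
      intro k hk
      obtain ⟨a, b⟩ := mem_Ico.1 hk
      simp only [g]
      rw [hd k a b.le, hd (k + 1) (by omega) (by omega)]
    refine Set.mem_iUnion.2 ⟨n, Set.mem_iUnion.2 ⟨d, Set.mem_iUnion₂.2
      ⟨(Ico (0 : ℤ) ((n + l : ℕ) : ℤ)).filter fun k => ¬ w (f (v k) (v (k + 1))) ∈ S,
        mem_filter.2 ⟨mem_powerset.2 (filter_subset _ _), ?_, ?_⟩, ?_⟩⟩⟩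
    · intro a ha b hb e
      have ha' := (mem_filter.1 (mem_coe.1 ha)).1
      have hb' := (mem_filter.1 (mem_coe.1 hb)).1
      rw [← he a ha', ← he b hb'] at e
      exact hf v _ hv hi (mem_Ico.1 ha') (mem_Ico.1 hb') e
    · have h1 := card_filter_add_card_filter_not (s := Ico (0 : ℤ) ((n + l : ℕ) : ℤ))
        (fun k => w (f (v k) (v (k + 1))) ∈ S)
      rw [Int.card_Ico, sub_zero, Int.toNat_natCast] at h1
      omega
    · intro k hk
      obtain ⟨a, b⟩ := mem_filter.1 hk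
      rwa [← he k a]
  refine (measure_mono hsub).trans ((measure_iUnion_le _).trans ?_)
  refine (ENNReal.tsum_le_tsum fun n => hB (n + l)).trans (le_of_eq ?_)
  simp only [pow_add]
  rw [ENNReal.tsum_mul_right, ENNReal.tsum_geometric, ENNReal.one_sub_inv_two, inv_inv]

lemma peierls {S : Set ℝ} (hS : MeasurableSet S) (hG : G Sᶜ ≤ 1 / 256) (z : V) (l : ℕ) :
    P G {w | ¬ Pe S w z l} ≤ 2 * 2⁻¹ ^ l :=
  peierlsG edge (fun _ _ hv hi => hv.ed_injOn hi) hS hG z l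

lemma ae_pe {S : Set ℝ} (hS : MeasurableSet S) (hG : G Sᶜ ≤ 1 / 256) :
    ∀ᵐ w ∂P G, ∀ z, ∃ l, Pe S w z l := by
  refine ae_all_iff.2 fun z => ?_
  rw [ae_iff, ← nonpos_iff_eq_zero]
  have h1 : Filter.Tendsto (fun l : ℕ => 2 * (2⁻¹ : ℝ≥0∞) ^ l) Filter.atTop (nhds (2 * 0)) :=
    ENNReal.Tendsto.const_mul (ENNReal.tendsto_pow_atTop_nhds_zero_of_lt_one (by simp))
      (Or.inr (by simp))
  rw [mul_zero] at h1
  refine ge_of_tendsto' h1 fun l => le_trans (measure_mono fun w hw => ?_) (peierls hS hG z l)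
  exact fun h => hw ⟨l, h⟩

lemma ae_pos [NullSingletonClass G] (h0 : G (Set.Iio 0) = 0) : ∀ᵐ w ∂P G, ∀ e, 0 < w e := by
  refine ae_all_iff.2 fun e => ?_
  rw [ae_iff]
  have h1 : {w : Om | ¬ 0 < w e} = Set.pi (↑({e} : Finset E)) fun _ => Set.Iic 0 := by
    ext w
    simp
  rw [h1, P, Measure.infinitePi_pi _ (fun _ _ => measurableSet_Iic), prod_singleton,
    ← Set.Iio_union_right]
  exact measure_union_null h0 (measure_singleton _)

lemma P_sum_eq [NullSingletonClass G] (F F' : Finset E) (e : E) (h : e ∈ F) (h' : e ∉ F') :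
    P G {w | ∑ e ∈ F, w e = ∑ e ∈ F', w e} = 0 := by
  classical
  have hA : MeasurableSet {w : Om | ∑ e ∈ F, w e = ∑ e ∈ F', w e} :=
    measurableSet_eq_fun (by fun_prop) (by fun_prop)
  have := section_le (G := G) _ Set.univ hA MeasurableSet.univ e Set.univ 0
    (fun w _ => by
      rw [nonpos_iff_eq_zero]
      refine measure_mono_null (t := {∑ e ∈ F', w e - ∑ x ∈ F \ {e}, w x}) (fun t ht => ?_)
        (measure_singleton _)
      simp only [Set.mem_setOf_eq] at ht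
      rw [sum_update_of_mem h, sum_update_of_notMem h'] at ht
      simp only [Set.mem_singleton_iff]
      linarith) (fun _ _ _ _ => trivial)
  simpa using this

/-- distinct finite edge sets have distinct total weights -/
lemma ae_sums [NullSingletonClass G] : ∀ᵐ w ∂P G, ∀ F F' : Finset E,
    ∑ e ∈ F, w e = ∑ e ∈ F', w e → F = F' := by
  refine ae_all_iff.2 fun F => ae_all_iff.2 fun F' => ?_
  by_cases hF : F = F'
  · exact Filter.Eventually.of_forall fun _ _ => hF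
  · rw [ae_iff]
    have h1 : {w : Om | ¬ (∑ e ∈ F, w e = ∑ e ∈ F', w e → F = F')} =
        {w | ∑ e ∈ F, w e = ∑ e ∈ F', w e} := by
      ext w
      simp [hF]
    rw [h1]
    by_cases c : F ⊆ F'
    · obtain ⟨e, a, b⟩ : ∃ e, e ∈ F' ∧ e ∉ F := by
        by_contra hc
        push Not at hc
        exact hF (Subset.antisymm c hc)
      have := P_sum_eq (G := G) F' F e a b
      simpa only [eq_comm] using this
    · obtain ⟨e, a, b⟩ := not_subset.1 c
      exact P_sum_eq F F' e a b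

lemma ex_of {w : Om} {b : ℝ} (hb : 0 < b) (h1 : ∀ e, 0 < w e)
    (h2 : ∀ z, ∃ l, Pe (Set.Ici b) w z l) (x y : V) :
    ∃ (v : ℤ → V) (m : ℤ), v 0 = x ∧ v m = y ∧ Geo w v 0 m := by
  have hn : NN w := fun e => (h1 e).le
  obtain ⟨l, hl⟩ := h2 x
  obtain ⟨M, hM⟩ := exists_nat_ge (2 * (T w x y + 1) / b)
  let A : Set ℝ := {c | ∃ (p : ℤ → V) (m : ℤ), 0 ≤ m ∧ p 0 = x ∧ p m = y ∧ Walk p 0 m ∧
    Set.InjOn p (Set.Icc 0 m) ∧ c = cost w p 0 m ∧ c < T w x y + 1}
  have hA : A.Finite := by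
    refine Set.Finite.subset ((Set.finite_le_nat (l + M)).biUnion fun m _ =>
      Set.finite_range fun d : Fin m → Fin 4 => cost w (pwk x d) 0 m) ?_
    rintro _ ⟨p, m, a, rfl, -, c, d, rfl, e⟩
    obtain ⟨n, rfl⟩ := Int.eq_ofNat_of_zero_le a
    obtain ⟨s, hs⟩ := exists_pwk c
    refine Set.mem_iUnion₂.2 ⟨n, ?_, s, (cost_congr' hs).symm⟩
    show n ≤ l + M
    by_contra hc
    have h3 := hl.cost hn hb.le (i := 0) (j := n) rfl (by omega) c d
    have h4 : (M : ℝ) < n := by exact_mod_cast (show M < n by omega)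
    rw [div_le_iff₀ hb] at hM
    push_cast at h3
    nlinarith
  have hne : ∀ ε : ℝ, 0 < ε → ε ≤ 1 → ∃ c ∈ A, c < T w x y + ε := fun ε hε hε1 => by
    obtain ⟨p, m, a, b', c, d, e, f⟩ := T_approx hn x y hε
    exact ⟨_, ⟨p, m, a, b', c, d, e, rfl, by linarith⟩, f⟩
  obtain ⟨c0, ⟨p, m, a, rfl, rfl, d, -, rfl, -⟩, hmin⟩ := Set.exists_min_image A id hA
    ((hne 1 one_pos le_rfl).imp fun _ h => h.1)
  refine ⟨p, m, rfl, rfl, a, d, le_antisymm ?_ (T_le_cost hn a d)⟩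
  refine le_of_forall_pos_le_add fun ε hε => ?_
  obtain ⟨c, hc, hc'⟩ := hne (min ε 1) (lt_min hε one_pos) (min_le_right _ _)
  have := hmin c hc
  have := min_le_left ε 1
  simp only [id] at *
  linarith

/-- deterministic: `fin` from `Pe.T_ge`; `ex` since only finitely many simple walks have cost
`≤ T + 1` (`Pe.cost`); `uniq` by concatenating geodesics `v i → z → v j` (a geodesic, hence
simple) and comparing edge sets. -/
lemma nice_of {w : Om} {b : ℝ} (hb : 0 < b) (h1 : ∀ e, 0 < w e)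
    (h2 : ∀ z, ∃ l, Pe (Set.Ici b) w z l)
    (h3 : ∀ F F' : Finset E, ∑ e ∈ F, w e = ∑ e ∈ F', w e → F = F') : Nice w := by
  classical
  have hn : NN w := fun e => (h1 e).le
  refine ⟨h1, ex_of hb h1 h2, fun v i j z hv hz => ?_, fun x K => ?_⟩
  · obtain ⟨p, m, p0, pm, hp⟩ := ex_of hb h1 h2 (v i) z
    obtain ⟨q, m', q0, qm, hq⟩ := ex_of hb h1 h2 z (v j)
    obtain ⟨r, r1, r2, r3, r4⟩ := walk_append hp.1 hq.1 hp.2.1 hq.2.1 (pm.trans q0.symm)
    have a1 := hp.1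
    have a2 := hq.1
    have e0 : r 0 = v i := (r2 0 a1).trans p0
    have e1 : r (m + (m' - 0)) = v j := by
      rw [r3 _ (by omega), ← qm]; congr 1; ring
    have e2 : r m = z := (r2 m le_rfl).trans pm
    have e3 : cost w r 0 (m + (m' - 0)) = T w (v i) (v j) := by
      rw [r4, hp.2.2, hq.2.2, p0, pm, q0, qm]; exact hz
    have hr : Geo w r 0 (m + (m' - 0)) := ⟨by omega, r1, by rw [e0, e1, e3]⟩
    have e4 : (Ico 0 (m + (m' - 0))).image (ed r) = (Ico i j).image (ed v) := by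
      apply h3
      rw [sum_image (by simpa using r1.ed_injOn (hr.injOn h1)),
        sum_image (by simpa using hv.2.1.ed_injOn (hv.injOn h1)), ← cost_eq, ← cost_eq, e3, hv.2.2]
    have key : ∀ t, 0 ≤ t → t < m + (m' - 0) → (z = r t ∨ z = r (t + 1)) →
        ∃ k, i ≤ k ∧ k ≤ j ∧ v k = z := fun t a c h => by
      have h4 : ed r t ∈ (Ico i j).image (ed v) := e4 ▸ mem_image_of_mem _ (mem_Ico.2 ⟨a, c⟩)
      obtain ⟨k, hk, e⟩ := mem_image.1 h4
      obtain ⟨k1, k2⟩ := mem_Ico.1 hk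
      have h5 : End (ed v k) z := e ▸ (r1.end_ed a c).2 h
      rcases (hv.2.1.end_ed k1 k2).1 h5 with f | f
      exacts [⟨k, k1, k2.le, f.symm⟩, ⟨k + 1, by omega, by omega, f.symm⟩]
    rcases a1.eq_or_lt with c | c
    · exact ⟨i, le_rfl, hv.1, by rw [← pm, ← c, p0]⟩
    · exact key (m - 1) (by omega) (by omega) (Or.inr (by rw [sub_add_cancel, e2]))
  · obtain ⟨l, hl⟩ := h2 x
    obtain ⟨M, hM⟩ := exists_nat_ge (2 * K / b)
    refine (finite_nrm x (l + M)).subset fun z hz => ?_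
    show nrm (z - x) ≤ l + M
    by_contra hc
    have h4 := hl.T_ge hn hb.le (x := z) (by omega)
    have h5 : (M : ℝ) < ((nrm (z - x) : ℤ) : ℝ) := by exact_mod_cast (show (M : ℤ) < _ by omega)
    have h6 : T w x z ≤ K := hz
    rw [div_le_iff₀ hb] at hM
    nlinarith

lemma ae_nice [NullSingletonClass G] (h0 : G (Set.Iio 0) = 0) : ∀ᵐ w ∂P G, Nice w := by
  obtain ⟨p⟩ := exists_par h0
  filter_upwards [ae_pos h0, ae_pe measurableSet_Ici p.hGb, ae_sums] with w h1 h2 h3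
  exact nice_of (p.ha.trans p.hab) h1 h2 h3

end Vale.Agent.P158N
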