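import Vale.Agent.P158N.CircDet
import Vale.Agent.P158N.Peierls

/-! Cheap circuits: probability estimates. -/

namespace Vale.Agent.P158N

open MeasureTheory Finset
open scoped ENNReal Classical

def BadN (M : ℝ) (r : ℤ) : ℕ → V → Om → Prop
  | 0, a, _ => r < nrm a
  | n + 1, a, w => ∃ b, Adj a b ∧ M < w (dual a b) ∧ BadN M r n b w

lemma bad_iff {w : Om} {M : ℝ} {r : ℤ} {f : V} : Bad w M r f ↔ ∃ n, BadN M r n f w := by
  constructor
  · rintro ⟨g, h1, h2⟩
    induction h2 using Relation.ReflTransGen.head_induction_on with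
    | refl => exact ⟨0, h1⟩
    | head h _ ih =>
      obtain ⟨n, hn⟩ := ih
      exact ⟨n + 1, _, h.1, h.2, hn⟩
  · rintro ⟨n, h⟩
    induction n generalizing f with
    | zero => exact ⟨f, h, Relation.ReflTransGen.refl⟩
    | succ n ih =>
      obtain ⟨b, h1, h2, h3⟩ := h
      obtain ⟨g, h4, h5⟩ := ih h3
      exact ⟨g, h4, Relation.ReflTransGen.head ⟨h1, h2⟩ h5⟩

lemma measurable_BadN (M : ℝ) (r : ℤ) (n : ℕ) (f : V) : Measurable (BadN M r n f) := by
  induction n generalizing f with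
  | zero => exact measurable_const
  | succ n ih =>
    exact Measurable.exists fun b => measurable_const.and
      ((measurable_const.lt (measurable_pi_apply _)).and (ih b))

lemma measurableSet_Bad (M : ℝ) (r : ℤ) (f : V) : MeasurableSet {w | Bad w M r f} := by
  simp only [bad_iff]
  exact (Measurable.exists fun n => measurable_BadN M r n f).setOf

lemma Bad.walk {w : Om} {M : ℝ} {r : ℤ} {f : V} (h : Bad w M r f) : ∃ (v : ℤ → V) (m : ℤ),
    0 ≤ m ∧ v 0 = f ∧ r < nrm (v m) ∧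
      ∀ k, 0 ≤ k → k < m → Adj (v k) (v (k + 1)) ∧ M < w (dual (v k) (v (k + 1))) := by
  obtain ⟨g, h1, h2⟩ := h
  suffices ∃ (v : ℤ → V) (m : ℤ), 0 ≤ m ∧ v 0 = f ∧ v m = g ∧
      ∀ k, 0 ≤ k → k < m → Adj (v k) (v (k + 1)) ∧ M < w (dual (v k) (v (k + 1))) by
    obtain ⟨v, m, a, b, c, d⟩ := this
    exact ⟨v, m, a, b, c ▸ h1, d⟩
  clear h1
  induction h2 with
  | refl => exact ⟨fun _ => f, 0, le_rfl, rfl, rfl, fun k a b => by omega⟩
  | @tail b c _ h ih =>
    obtain ⟨v, m, a1, a2, a3, a4⟩ := ih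
    refine ⟨Function.update v (m + 1) c, m + 1, by omega, ?_, Function.update_self .., ?_⟩
    · rw [Function.update_of_ne (by omega), a2]
    · intro k k1 k2
      rw [Function.update_of_ne (show k ≠ m + 1 by omega)]
      by_cases e : k = m
      · rw [e, Function.update_self, a3]; exact h
      · rw [Function.update_of_ne (by omega)]; exact a4 k k1 (by omega)

variable {G : Measure ℝ} [IsProbabilityMeasure G]

/-- from `peierlsG dual` with `S = Iic M` and `loop_erase` -/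
lemma P_Bad {M : ℝ} (hG : G (Set.Iic M)ᶜ ≤ 1 / 256) (r : ℤ) (f : V) (l : ℕ)
    (hl : nrm f + l ≤ r + 1) : P G {w | Bad w M r f} ≤ 2 * 2⁻¹ ^ l := by
  rcases Nat.eq_zero_or_pos l with rfl | hl0
  · exact prob_le_one.trans (by simp)
  refine le_trans (measure_mono ?_) (peierlsG dual dual_injOn measurableSet_Iic hG f l)
  intro w hw hp
  obtain ⟨v, m, a1, a2, a3, a4⟩ := Bad.walk hw
  obtain ⟨p, k, b1, -, b3, b4, b5, b6, -, b8, -⟩ := loop_erase a1 fun k x y => (a4 k x y).1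
  have c1 := b5.nrm_le le_rfl b1 le_rfl
  have c2 := nrm_le_add (p k) (p 0)
  rw [b3, b4, a2] at c1 c2
  have c3 := hp p k (b3.trans a2) (by omega) b5 b6
  rw [filter_eq_empty_iff.2, card_empty] at c3
  · omega
  · intro t ht
    obtain ⟨s, s1, s2, s3, s4⟩ := b8 t (mem_Ico.1 ht).1 (mem_Ico.1 ht).2
    rw [s3, s4]
    exact not_le.2 (a4 s s1 s2).2

lemma ae_NN (h0 : G (Set.Iio 0) = 0) : ∀ᵐ w ∂P G, NN w := by
  refine ae_all_iff.2 fun e => ?_
  refine (measurePreserving_eval_infinitePi (fun _ : E => G) e).quasiMeasurePreserving.ae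
    (p := fun t : ℝ => 0 ≤ t) ?_
  rw [ae_iff]
  simp only [not_le]
  exact h0

lemma sum_Bad {M : ℝ} (hG : G (Set.Iic M)ᶜ ≤ 1 / 256) (R : ℕ) :
    ∑ f ∈ ball 0 R, P G {w | Bad w M (R - 1) f} ≤ (8 * R + 1) * 4 := by
  have h1 : ∀ f ∈ ball 0 (R : ℤ), (nrm f).toNat ∈ range (R + 1) := fun f hf => by
    have := mem_ball0.1 hf
    rw [mem_range]; omega
  rw [← sum_fiberwise_of_maps_to h1]
  have h2 : ∀ s ∈ range (R + 1), ∑ f ∈ (ball 0 (R : ℤ)).filter fun f => (nrm f).toNat = s,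
      P G {w | Bad w M (R - 1) f} ≤ (8 * R + 1) * (2 * 2⁻¹ ^ (R + 1 - 1 - s)) := by
    intro s hs
    have hs' := mem_range.1 hs
    refine (sum_le_card_nsmul _ _ (2 * 2⁻¹ ^ (R + 1 - 1 - s)) fun f hf => ?_).trans ?_
    · have a1 := (mem_filter.1 hf).2
      have a2 := nrm_nonneg f
      exact P_Bad hG _ f _ (by omega)
    · rw [nsmul_eq_mul]
      refine mul_le_mul_left ?_ _
      have a1 : ((ball 0 (R : ℤ)).filter fun f => (nrm f).toNat = s) ⊆
          (ball 0 (s : ℤ)).filter fun f => nrm f = s := fun f hf => by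
        have a1 := (mem_filter.1 hf).2
        have a2 := nrm_nonneg f
        exact mem_filter.2 ⟨mem_ball0.2 (by omega), by omega⟩
      have a2 : ((ball 0 (s : ℤ)).filter fun f => nrm f = s).card ≤ 8 * R + 1 := by
        rcases Nat.eq_zero_or_pos s with rfl | h
        · exact (card_filter_le _ _).trans (by rw [card_ball]; omega)
        · exact (card_sphere s h).trans (by omega)
      exact_mod_cast (card_le_card a1).trans a2
  refine (sum_le_sum h2).trans ?_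
  rw [← mul_sum, ← mul_sum, sum_range_reflect (fun k => (2⁻¹ : ℝ≥0∞) ^ k)]
  refine mul_le_mul_right ?_ _
  have h3 := ENNReal.sum_le_tsum (f := fun k : ℕ => (2⁻¹ : ℝ≥0∞) ^ k) (range (R + 1))
  rw [ENNReal.tsum_geometric_two] at h3
  exact (mul_le_mul_right h3 2).trans (by norm_num)

lemma cube_le (n : ℕ) : n ^ 3 ≤ 216 * 2 ^ (n / 2) := by
  have h1 : n ≤ 6 * 2 ^ (n / 6) := by
    have := Nat.lt_two_pow_self (n := n / 6)
    omega
  calc n ^ 3 ≤ (6 * 2 ^ (n / 6)) ^ 3 := Nat.pow_le_pow_left h1 3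
    _ = 216 * 2 ^ (n / 6 * 3) := by rw [mul_pow, ← pow_mul]; norm_num
    _ ≤ _ := Nat.mul_le_mul_left _ (Nat.pow_le_pow_right two_pos (by omega))

lemma Circ.mono {w : Om} {n : ℤ} {X X' : ℝ} (h : Circ w n X) (h' : X ≤ X') : Circ w n X' := by
  obtain ⟨L, F, a, b, c, d⟩ := h
  exact ⟨L, F, a, b, c.trans h', d⟩

/-- the failure event at scale `n` -/
def Fail (b M : ℝ) (n : ℕ) : Set Om := {w | n < 2 ∨
  (∃ f ∈ ball 0 ((n + 1 : ℕ) : ℤ), Bad w M ((3 * n / 2 : ℕ) : ℤ) f) ∨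
    ∃ z ∈ ball 0 ((2 * n : ℕ) : ℤ), ¬ Pe (Set.Ici b) w z n}

lemma P_Fail {b M : ℝ} (hb : G (Set.Ici b)ᶜ ≤ 1 / 256) (hG : G (Set.Iic M)ᶜ ≤ 1 / 256) {n : ℕ}
    (hn : 1 ≤ n) : P G (Fail b M n) ≤ (100 * n ^ 2 : ℕ) * 2⁻¹ ^ (n / 2) := by
  by_cases h2 : n < 2
  · obtain rfl : n = 1 := by omega
    exact prob_le_one.trans (by norm_num)
  have e : Fail b M n = (⋃ f ∈ ball 0 ((n + 1 : ℕ) : ℤ), {w | Bad w M ((3 * n / 2 : ℕ) : ℤ) f}) ∪
      ⋃ z ∈ ball 0 ((2 * n : ℕ) : ℤ), {w | ¬ Pe (Set.Ici b) w z n} := by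
    ext w
    simp only [Fail, h2, false_or, Set.mem_union, Set.mem_iUnion, Set.mem_setOf_eq, exists_prop]
  have a1 := (measure_biUnion_finset_le (μ := P G) (ball 0 ((n + 1 : ℕ) : ℤ))
    fun f => {w | Bad w M ((3 * n / 2 : ℕ) : ℤ) f}).trans
    (sum_le_card_nsmul _ _ (2 * 2⁻¹ ^ (n / 2)) fun f hf =>
      P_Bad hG _ f _ (by have := mem_ball0.1 hf; omega))
  have a2 := (measure_biUnion_finset_le (μ := P G) (ball 0 ((2 * n : ℕ) : ℤ))
    fun z => {w | ¬ Pe (Set.Ici b) w z n}).trans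
    (sum_le_card_nsmul _ _ (2 * 2⁻¹ ^ (n / 2)) fun z _ => (peierls measurableSet_Ici hb z n).trans
      (mul_le_mul_right (pow_le_pow_right_of_le_one' (by simp) (by omega)) _))
  rw [e]
  refine (measure_union_le _ _).trans ((add_le_add a1 a2).trans ?_)
  rw [card_ball, card_ball, ← add_nsmul, nsmul_eq_mul, ← mul_assoc]
  refine mul_le_mul_left ?_ _
  have : ((2 * (n + 1) + 1) ^ 2 + (2 * (2 * n) + 1) ^ 2) * 2 ≤ 100 * n ^ 2 := by nlinarith
  exact_mod_cast this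

/-- the good event at scale `n` -/
def Good (b : ℝ) (w : Om) (n : ℕ) (X : ℝ) : Prop :=
  Circ w n X ∧ ∀ z, nrm z ≤ 2 * n → Pe (Set.Ici b) w z n

/-- take `r = 3n/2`, `X = 4 M #(bad faces in ball (r+1)) + 9 n^2 * (indicator of a measurable
hull of the failure event)`; small `n` are absorbed in `C` (take `X = 9 n^2`). -/
lemma scale {b : ℝ} (hb : G (Set.Ici b)ᶜ ≤ 1 / 256) (h0 : G (Set.Iio 0) = 0) :
    ∃ C : ℝ, 0 ≤ C ∧ ∀ n : ℕ, 1 ≤ n → ∃ X : Om → ℝ≥0∞, Measurable X ∧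
      ∫⁻ w, X w ∂P G ≤ ENNReal.ofReal (C * n) ∧
      ∀ᵐ w ∂P G, ∀ x : ℝ, X w ≤ ENNReal.ofReal x → x < 9 * (n : ℝ) ^ 2 → Good b w n x := by
  obtain ⟨M, hM, hG⟩ := exists_big (G := G)
  refine ⟨1 + 4 * M * 100 + 900 * 216, by positivity, fun n hn => ?_⟩
  have n1 : (1 : ℝ) ≤ n := by exact_mod_cast hn
  have eR : (((3 * n / 2 + 1 : ℕ) : ℤ) - 1) = ((3 * n / 2 : ℕ) : ℤ) := by omega
  have m1 : ∀ f, Measurable ({w | Bad w M ((3 * n / 2 : ℕ) : ℤ) f}.indicator
      (1 : Om → ℝ≥0∞)) := fun f => measurable_one.indicator (measurableSet_Bad _ _ _)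
  have m2 : Measurable ((toMeasurable (P G) (Fail b M n)).indicator (1 : Om → ℝ≥0∞)) :=
    measurable_one.indicator (measurableSet_toMeasurable _ _)
  have m3 : Measurable fun w => ∑ f ∈ ball 0 ((3 * n / 2 + 1 : ℕ) : ℤ),
      {w | Bad w M ((3 * n / 2 : ℕ) : ℤ) f}.indicator (1 : Om → ℝ≥0∞) w :=
    Finset.measurable_sum _ fun f _ => m1 f
  refine ⟨fun w => 1 + ENNReal.ofReal (4 * M) * ∑ f ∈ ball 0 ((3 * n / 2 + 1 : ℕ) : ℤ),
      {w | Bad w M ((3 * n / 2 : ℕ) : ℤ) f}.indicator 1 w +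
    ENNReal.ofReal (9 * (n : ℝ) ^ 2) * (toMeasurable (P G) (Fail b M n)).indicator 1 w,
    (measurable_const.add (m3.const_mul _)).add (m2.const_mul _), ?_, ?_⟩
  · rw [lintegral_add_right _ (m2.const_mul _), lintegral_add_left measurable_const,
      lintegral_const_mul _ m3, lintegral_const_mul _ m2, lintegral_finset_sum _ fun f _ => m1 f,
      lintegral_indicator_one (measurableSet_toMeasurable _ _), measure_toMeasurable,
      lintegral_one, measure_univ]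
    simp only [lintegral_indicator_one (measurableSet_Bad _ _ _)]
    have a1 := sum_Bad hG (3 * n / 2 + 1)
    rw [eR] at a1
    have a2 : ((8 * (3 * n / 2 + 1 : ℕ) + 1) * 4 : ℝ≥0∞) ≤ ENNReal.ofReal (100 * n) := by
      have : (8 * (3 * n / 2 + 1) + 1) * 4 ≤ 100 * n := by omega
      rw [show (100 : ℝ) * n = ((100 * n : ℕ) : ℝ) by push_cast; rfl, ENNReal.ofReal_natCast]
      exact_mod_cast this
    have a3 : ENNReal.ofReal (9 * (n : ℝ) ^ 2) * ((100 * n ^ 2 : ℕ) * 2⁻¹ ^ (n / 2)) ≤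
        ENNReal.ofReal (900 * 216 * n) := by
      rw [show (9 : ℝ) * n ^ 2 = ((9 * n ^ 2 : ℕ) : ℝ) by push_cast; rfl,
        show (900 : ℝ) * 216 * n = ((900 * 216 * n : ℕ) : ℝ) by push_cast; ring,
        ENNReal.ofReal_natCast, ENNReal.ofReal_natCast, ← mul_assoc, ← ENNReal.inv_pow,
        ← div_eq_mul_inv]
      refine ENNReal.div_le_of_le_mul ?_
      have : 9 * n ^ 2 * (100 * n ^ 2) ≤ 900 * 216 * n * 2 ^ (n / 2) := by
        have := Nat.mul_le_mul_left (900 * n) (cube_le n)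
        nlinarith
      exact_mod_cast this
    refine (add_le_add (add_le_add (ENNReal.one_le_ofReal.2 n1)
      (mul_le_mul_right (a1.trans a2) _))
      ((mul_le_mul_right (P_Fail hb hG hn) _).trans a3)).trans (le_of_eq ?_)
    rw [← ENNReal.ofReal_mul (by positivity), ← ENNReal.ofReal_add (by positivity) (by positivity),
      ← ENNReal.ofReal_add (by positivity) (by positivity)]
    congr 1
    ring
  · filter_upwards [ae_NN h0] with w hw x h1 h2
    have x0 : 0 ≤ x :=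
      zero_le_one.trans (ENNReal.one_le_ofReal.1 ((le_self_add.trans le_self_add).trans h1))
    have nf : w ∉ Fail b M n := fun hf => by
      rw [Set.indicator_of_mem (subset_toMeasurable _ _ hf), Pi.one_apply, mul_one] at h1
      exact absurd ((ENNReal.ofReal_le_ofReal_iff x0).1 (le_add_self.trans h1)) (not_le.2 h2)
    simp only [Fail, Set.mem_setOf_eq, not_or, not_exists, not_and, not_not, not_lt] at nf
    obtain ⟨f1, f2, f3⟩ := nf
    refine ⟨(circ_det hw hM (r := ((3 * n / 2 : ℕ) : ℤ)) (by omega) (by omega) (by omega)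
      fun f hf => f2 f (mem_ball0.2 (by omega))).mono ?_,
      fun z hz => f3 z (mem_ball0.2 (by omega))⟩
    have a1 := (le_add_self.trans le_self_add).trans h1
    have a2 : ∑ f ∈ ball 0 ((3 * n / 2 + 1 : ℕ) : ℤ),
        {w | Bad w M ((3 * n / 2 : ℕ) : ℤ) f}.indicator (1 : Om → ℝ≥0∞) w =
        ((ball 0 (((3 * n / 2 : ℕ) : ℤ) + 1)).filter
          fun f => Bad w M ((3 * n / 2 : ℕ) : ℤ) f).card := by
      rw [card_filter]
      simp only [Set.indicator_apply, Set.mem_setOf_eq, Pi.one_apply, Nat.cast_sum, Nat.cast_ite,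
        Nat.cast_one, Nat.cast_zero, Nat.cast_add]
    rw [a2, ← ENNReal.ofReal_natCast, ← ENNReal.ofReal_mul (by positivity)] at a1
    exact (ENNReal.ofReal_le_ofReal_iff x0).1 a1

end Vale.Agent.P158N
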