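import Vale.Agent.P158N.Plan

/-! Existence of cheap circuits, no moment assumption. -/

namespace Vale.Agent.P158N

open Finset
open scoped Classical

/-- Faces are indexed by their lower left corner.  `dual f g` is the edge between the adjacent
faces `f`, `g`. -/
def dual (f g : V) : E := ((max f.1 g.1, max f.2 g.2), decide (f.2 = g.2))

/-- the face below or to the left of the edge `e` -/
def fb (e : E) : V := if e.2 then (e.1.1 - 1, e.1.2) else (e.1.1, e.1.2 - 1)

lemma Adj.dual_faces {x y : V} (h : Adj x y) : ((dual x y).1 = x ∧ fb (dual x y) = y) ∨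
    ((dual x y).1 = y ∧ fb (dual x y) = x) := by
  obtain ⟨a, b⟩ := x; obtain ⟨c, d⟩ := y
  simp only [adj_iff] at h
  by_cases h1 : b = d
  · simp only [fb, dual, h1, decide_true, if_true, Prod.mk.injEq]; omega
  · simp only [fb, dual, h1, decide_false, Bool.false_eq_true, if_false, Prod.mk.injEq]; omega

lemma adj_fb (e : E) : Adj e.1 (fb e) := by
  obtain ⟨⟨a, b⟩, c⟩ := e
  cases c <;> simp [Adj, fb]

lemma dual_fb (e : E) : dual e.1 (fb e) = e := by
  obtain ⟨⟨a, b⟩, c⟩ := e
  cases c <;> simp [dual, fb]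
  omega

lemma dual_symm (x y : V) : dual x y = dual y x := by
  simp only [dual, max_comm, eq_comm]

lemma dual_injOn (v : ℤ → V) (m : ℤ) (hv : Walk v 0 m) (hi : Set.InjOn v (Set.Icc 0 m)) :
    Set.InjOn (fun k => dual (v k) (v (k + 1))) (Set.Ico 0 m) := by
  rintro k ⟨a1, a2⟩ l ⟨b1, b2⟩ he
  have he' : dual (v k) (v (k + 1)) = dual (v l) (v (l + 1)) := he
  have c1 := (hv k a1 a2).dual_faces
  have c2 := (hv l b1 b2).dual_faces
  rw [he'] at c1
  have f : ∀ s t, 0 ≤ s → s ≤ m → 0 ≤ t → t ≤ m → v s = v t → s = t :=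
    fun s t _ _ _ _ e => hi ⟨‹_›, ‹_›⟩ ⟨‹_›, ‹_›⟩ e
  rcases c1 with ⟨c1, c3⟩ | ⟨c1, c3⟩ <;> rcases c2 with ⟨c2, c4⟩ | ⟨c2, c4⟩ <;>
    have := f _ _ (by omega) (by omega) (by omega) (by omega) (c1.symm.trans c2) <;>
    have := f _ _ (by omega) (by omega) (by omega) (by omega) (c3.symm.trans c4) <;> omega

/-- the face `f` is joined to a face of norm `> r` by a face path crossing only edges `> M` -/
def Bad (w : Om) (M : ℝ) (r : ℤ) (f : V) : Prop :=
  ∃ g, r < nrm g ∧ Relation.ReflTransGen (fun a b => Adj a b ∧ M < w (dual a b)) f g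

/-- exactly one face adjacent to `e` is in `I` -/
def Bd (I : Set V) (e : E) : Prop := ¬ (e.1 ∈ I ↔ fb e ∈ I)

lemma Adj.bd_dual {x y : V} (h : Adj x y) {I : Set V} : Bd I (dual x y) ↔ ¬ (x ∈ I ↔ y ∈ I) := by
  unfold Bd
  rcases h.dual_faces with ⟨a, b⟩ | ⟨a, b⟩ <;> rw [b, a]
  exact not_congr Iff.comm

/-- indicator of the boundary edges starting in `A` -/
noncomputable def chi (I A : Set V) (e : E) : ℤ := if Bd I e ∧ src e ∈ A then 1 else 0

lemma chi_deg {I A : Set V} (hA : ∀ e, Bd I e → (src e ∈ A ↔ tgt e ∈ A)) (a b : ℤ) :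
    (chi I A ((a, b), false) + chi I A ((a + 1, b), false) + chi I A ((a + 1, b - 1), true) +
      chi I A ((a + 1, b), true)) % 2 = 0 := by
  have h1 := hA ((a, b), false)
  have h2 := hA ((a + 1, b - 1), true)
  simp only [chi, Bd, src, tgt, fb, Bool.false_eq_true, if_false, if_true, add_sub_cancel_right,
    sub_add_cancel] at *
  by_cases c1 : (a, b) ∈ I <;> by_cases c2 : (a + 1, b) ∈ I <;> by_cases c3 : (a, b - 1) ∈ I <;>
    by_cases c4 : (a + 1, b - 1) ∈ I <;> by_cases c5 : (a + 1, b) ∈ A <;> simp_all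

lemma chi_zero {I A : Set V} {e : E} (h1 : e.1 ∉ I) (h2 : fb e ∉ I) : chi I A e = 0 :=
  if_neg fun h => h.1 (iff_of_false h1 h2)

lemma exists_parity {I A : Set V} {r : ℤ} (hI : ∀ g ∈ I, nrm g ≤ r)
    (hA : ∀ e, Bd I e → (src e ∈ A ↔ tgt e ∈ A)) : ∃ P : V → ℤ,
      (∀ e : E, (P e.1 + P (fb e) + chi I A e) % 2 = 0) ∧ ∀ g, r < nrm g → P g % 2 = 0 := by
  have out : ∀ a b : ℤ, (b < -r ∨ r < b ∨ a < -r ∨ r < a) → (a, b) ∉ I := fun a b h h' => by
    have := nrm_le_iff.1 (hI _ h')
    simp only at this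
    omega
  have zt : ∀ a b : ℤ, (b < -r ∨ r < b ∨ a < -r ∨ r < a - 1) → chi I A ((a, b), true) = 0 :=
    fun a b h => chi_zero (out a b (by omega)) (out (a - 1) b (by omega))
  have zf : ∀ a b : ℤ, (b < -r ∨ a < -r ∨ r < a) → chi I A ((a, b), false) = 0 :=
    fun a b h => chi_zero (out a b (by omega)) (out a (b - 1) (by omega))
  set P : V → ℤ := fun g => ∑ y ∈ Ico (-r) (g.2 + 1), chi I A ((g.1, y), false) with hP
  have low : ∀ a b, b < -r → P (a, b) = 0 := fun a b h => by
    simp only [hP]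
    rw [Ico_eq_empty (by omega), sum_empty]
  have hor : ∀ a b, (P (a, b) + P (a + 1, b) + chi I A ((a + 1, b), true)) % 2 = 0 := by
    intro a b
    by_cases h : b < -r
    · rw [low _ _ h, low _ _ h, zt _ _ (Or.inl h)]; rfl
    · have := tel (fun y => chi I A ((a, y), false) + chi I A ((a + 1, y), false))
        (fun y => chi I A ((a + 1, y - 1), true)) (show -r ≤ b + 1 by omega) fun y _ _ => by
          simpa only [add_sub_cancel_right] using chi_deg hA a y
      rw [sum_add_distrib, zt (a + 1) (-r - 1) (by omega), add_sub_cancel_right, add_zero] at this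
      exact this
  refine ⟨P, ?_, ?_⟩
  · rintro ⟨⟨a, b⟩, c⟩
    cases c
    · change (P (a, b) + P (a, b - 1) + chi I A ((a, b), false)) % 2 = 0
      by_cases h : b < -r
      · rw [low _ _ h, low _ _ (by omega), zf _ _ (Or.inl h)]; rfl
      · have h1 : Ico (-r) (b + 1) = insert b (Ico (-r) (b - 1 + 1)) := by
          ext t; simp only [mem_Ico, mem_insert]; omega
        simp only [hP]
        rw [h1, sum_insert (by simp)]
        omega
    · have := hor (a - 1) b
      rw [sub_add_cancel] at this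
      change (P (a, b) + P (a - 1, b) + chi I A ((a, b), true)) % 2 = 0
      omega
  · have side : ∀ a b, (a < -r ∨ r < a) → P (a, b) = 0 := fun a b h =>
      sum_eq_zero fun y _ => zf _ _ (Or.inr h)
    have top : ∀ b, r < b → ∀ a, -r - 1 ≤ a → P (a, b) % 2 = 0 := by
      intro b hb a ha
      induction a, ha using Int.leInduction with
      | base => rw [side _ _ (by omega)]; rfl
      | succ a _ ih =>
        have := hor a b
        rw [zt _ _ (Or.inr (Or.inl hb))] at this
        omega
    rintro ⟨a, b⟩ h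
    rw [← not_le, nrm_le_iff] at h
    simp only at h
    by_cases h1 : a < -r ∨ r < a
    · rw [side _ _ h1]; rfl
    · by_cases h2 : b < -r
      · rw [low _ _ h2]; rfl
      · exact top b (by omega) a (by omega)

/-- covering an interval by the intervals of the edges -/
lemma le_sum_of_cover {F : Finset E} {a b : E → ℝ} {s t : ℝ}
    (h : ∀ c, s ≤ c → c < t → ∃ e ∈ F, min (a e) (b e) ≤ c ∧ c < max (a e) (b e)) :
    t - s ≤ ∑ e ∈ F, |a e - b e| := by
  have h1 : Set.Ico s t ⊆ ⋃ e ∈ F, Set.Ico (min (a e) (b e)) (max (a e) (b e)) := fun c hc => by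
    obtain ⟨e, he, h'⟩ := h c hc.1 hc.2
    exact Set.mem_biUnion he h'
  have h2 := (MeasureTheory.measure_mono (μ := MeasureTheory.volume) h1).trans
    (MeasureTheory.measure_biUnion_finset_le _ _)
  simp only [Real.volume_Ico, max_sub_min_eq_abs] at h2
  rw [← ENNReal.ofReal_sum_of_nonneg fun _ _ => abs_nonneg _,
    ENNReal.ofReal_le_ofReal_iff (sum_nonneg fun _ _ => abs_nonneg _)] at h2
  simpa only [abs_sub_comm] using h2

/-- Deterministic part.  `U` = bad faces (contains all faces of norm `> r`), `I` = component of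
the face `0` in the complement of `U`, `F` = edges with exactly one adjacent face in `I`,
`L` = their endpoints.  Edges of `F` have weight `≤ M`, and their other face is in `U` and has
norm `≤ r + 1`.  A vertex outside `L` has its four faces all in `I` or all outside, which gives the
separation.  Connectivity: if no edge of `F` crosses the level `c` of `f`, let `C` be the edges of
`F` with both ends above `c`; `C` has even degree everywhere, so the parity `N g` of the number of
horizontal edges of `C` below the face `g` changes exactly across edges of `C`; `N` is constant on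
`I`, vanishes on faces of norm `> r`, hence on `U`, hence on the complement of `I`; so `C` is empty
or all of `F`.  Then cover the levels in `(f q, f p)` by the intervals of the edges (Lebesgue
measure). -/
lemma circ_det {w : Om} (hw : NN w) {M : ℝ} (hM : 0 ≤ M) {n r : ℤ} (hn : 0 ≤ n) (hr : n + 1 ≤ r)
    (hr2 : r + 1 ≤ 2 * n) (h : ∀ f, nrm f ≤ n + 1 → ¬ Bad w M r f) :
    Circ w n (4 * M * ((ball 0 (r + 1)).filter fun f => Bad w M r f).card) := by
  set I : Set V := {f | Relation.ReflTransGen (fun a b => Adj a b ∧ ¬ Bad w M r b) 0 f} with hI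
  have h0 : nrm (0 : V) = 0 := by simp [nrm]
  have nb : ∀ g ∈ I, ¬ Bad w M r g := fun g hg => by
    rcases Relation.ReflTransGen.cases_tail hg with e | ⟨_, _, e⟩
    · rw [e]; exact h 0 (by omega)
    · exact e.2
  have hr' : ∀ g ∈ I, nrm g ≤ r := fun g hg => not_lt.1 fun c => nb g hg ⟨g, c, .refl⟩
  have inI : ∀ g, nrm g ≤ n + 1 → g ∈ I := fun g hg => by
    obtain ⟨v, i, j, a, b, rfl, d, e⟩ := con_box (N := n + 1) (x := 0) (by omega) hg
    clear hg
    induction j, a using Int.leInduction with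
    | base => rw [b]; exact .refl
    | succ j a ih =>
      exact .tail (ih (d.mono le_rfl (by omega)) fun t x y => e t x (by omega))
        ⟨d j a (by omega), h _ (e _ (by omega) le_rfl)⟩
  have out : ∀ f g, Adj f g → f ∈ I → g ∉ I → Bad w M r g ∧ w (dual f g) ≤ M := by
    intro f g a b c
    have : Bad w M r g := by_contra fun d => c (.tail b ⟨a, d⟩)
    refine ⟨this, not_lt.1 fun d => nb f b ?_⟩
    obtain ⟨g', e1, e2⟩ := this
    exact ⟨g', e1, .head ⟨a, d⟩ e2⟩
  have bd : ∀ e, Bd I e → ∃ f g, Adj f g ∧ f ∈ I ∧ g ∉ I ∧ e = dual f g ∧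
      ((e.1 = f ∧ fb e = g) ∨ (e.1 = g ∧ fb e = f)) := by
    intro e he
    by_cases c : e.1 ∈ I
    · exact ⟨_, _, adj_fb e, c, fun d => he (iff_of_true c d), (dual_fb e).symm, .inl ⟨rfl, rfl⟩⟩
    · refine ⟨_, _, (adj_fb e).symm, by_contra fun d => he (iff_of_false c d), c, ?_,
        .inr ⟨rfl, rfl⟩⟩
      rw [dual_symm, dual_fb]
  have nr : ∀ e, Bd I e → nrm (src e) ≤ r + 1 ∧ nrm (tgt e) ≤ r + 1 := by
    intro e he
    obtain ⟨f, g, -, a, -, -, b⟩ := bd e he
    have := nrm_le_iff.1 (hr' f a)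
    obtain ⟨⟨x, y⟩, c⟩ := e
    rcases b with ⟨rfl, -⟩ | ⟨-, rfl⟩ <;> cases c <;>
      simp only [nrm_le_iff, src, tgt, fb, Bool.false_eq_true, if_false, if_true] at * <;> omega
  set F : Finset E := (ball 0 (r + 1) ×ˢ univ).filter (Bd I) with hF
  have mF : ∀ e, e ∈ F ↔ Bd I e := fun e => by
    rw [hF, mem_filter, mem_product, mem_ball0]
    exact ⟨fun a => a.2, fun a => ⟨⟨(nr e a).1, mem_univ _⟩, a⟩⟩
  refine ⟨{z | ∃ e ∈ F, z = src e ∨ z = tgt e}, F, fun e he => ?_, ?_, ?_, ?_, ?_⟩
  · have := nr e ((mF e).1 he); omega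
  · rintro z ⟨e, he, rfl | rfl⟩ <;> have := nr e ((mF e).1 he) <;> omega
  · set B := (ball 0 (r + 1)).filter fun f => Bad w M r f with hB
    have h1 : F ⊆ B.biUnion fun g => {(g, true), (g, false), ((g.1 + 1, g.2), true),
        ((g.1, g.2 + 1), false)} := by
      intro e he
      obtain ⟨f, g, a, b, c, -, d⟩ := bd e ((mF e).1 he)
      refine mem_biUnion.2 ⟨g, mem_filter.2 ⟨mem_ball0.2 ?_, (out f g a b c).1⟩, ?_⟩
      · have := nrm_le_add g f
        have := a.symm.nrm
        have := hr' f b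
        omega
      · obtain ⟨⟨x, y⟩, t⟩ := e
        rcases d with ⟨-, rfl⟩ | ⟨rfl, -⟩ <;> cases t <;> simp [fb]
    have h2 : F.card ≤ B.card * 4 :=
      (card_le_card h1).trans (card_biUnion_le_card_mul _ _ _ fun _ _ => card_le_four)
    have h3 : ∑ e ∈ F, w e ≤ F.card • M := sum_le_card_nsmul _ _ _ fun e he => by
      obtain ⟨f, g, a, b, c, d, -⟩ := bd e ((mF e).1 he)
      rw [d]; exact (out f g a b c).2
    have h4 : (F.card : ℝ) ≤ B.card * 4 := by exact_mod_cast h2
    rw [nsmul_eq_mul] at h3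
    nlinarith
  · intro v i j a b c d
    by_contra hc
    have key : ∀ t, i ≤ t → t ≤ j → v t ∈ I := by
      intro t ht
      induction t, ht using Int.leInduction with
      | base => exact fun _ => inI _ (by omega)
      | succ t ht ih =>
        intro e
        by_contra f
        have g := b t ht (by omega)
        have he := (mF _).2 (g.bd_dual.2 fun x => f (x.1 (ih (by omega))))
        rcases g.dual_faces with ⟨x, -⟩ | ⟨x, -⟩
        · exact hc ⟨t, ht, by omega, _, he, .inl x.symm⟩
        · exact hc ⟨t + 1, by omega, e, _, he, .inl x.symm⟩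
    have := hr' _ (key j a le_rfl)
    omega
  · rintro f p ⟨ep, hp, hp'⟩ q ⟨eq, hq, hq'⟩
    refine le_sum_of_cover fun c c1 c2 => by_contra fun hc => ?_
    have hA : ∀ e, Bd I e → (src e ∈ {x | c < f x} ↔ tgt e ∈ {x | c < f x}) := by
      intro e he
      have : ¬ (min (f (src e)) (f (tgt e)) ≤ c ∧ c < max (f (src e)) (f (tgt e))) :=
        fun x => hc ⟨e, (mF e).2 he, x⟩
      change c < f (src e) ↔ c < f (tgt e)
      rw [min_le_iff, lt_max_iff] at this
      constructor <;> intro x <;> by_contra y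
      exacts [this ⟨.inr (not_lt.1 y), .inl x⟩, this ⟨.inl (not_lt.1 y), .inr x⟩]
    obtain ⟨P, P1, P2⟩ := exists_parity hr' hA
    have P3 : ∀ x y, Adj x y → (x ∈ I ↔ y ∈ I) → (P x + P y) % 2 = 0 := by
      intro x y a b
      have := P1 (dual x y)
      rw [chi, if_neg fun z => a.bd_dual.1 z.1 b] at this
      rcases a.dual_faces with ⟨u, v⟩ | ⟨u, v⟩ <;> rw [v, u] at this <;> omega
    have P4 : ∀ g ∈ I, (P g + P 0) % 2 = 0 := by
      intro g hg
      induction hg with
      | refl => omega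
      | tail a b ih =>
        have := P3 _ _ b.1 (iff_of_true a (.tail a b))
        omega
    have P5 : ∀ g, Bad w M r g → P g % 2 = 0 := by
      rintro g ⟨g', a, b⟩
      induction b using Relation.ReflTransGen.head_induction_on with
      | refl => exact P2 _ a
      | head x y ih =>
        have := P3 _ _ x.1 (iff_of_false (fun z => nb _ z ⟨g', a, .head x y⟩)
          fun z => nb _ z ⟨g', a, y⟩)
        omega
    have P6 : ∀ e ∈ F, (chi I {x | c < f x} e + P 0) % 2 = 0 := by
      intro e he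
      obtain ⟨x, y, a, b, d, -, g⟩ := bd e ((mF e).1 he)
      have := P1 e
      have := P4 x b
      have := P5 y (out x y a b d).1
      rcases g with ⟨rfl, rfl⟩ | ⟨rfl, rfl⟩ <;> omega
    have e1 := P6 ep hp
    have e2 := P6 eq hq
    have bp := (mF _).1 hp
    have bq := (mF _).1 hq
    rw [chi, if_pos ⟨bp, by
      rcases hp' with rfl | rfl
      exacts [c2, (hA _ bp).2 c2]⟩] at e1
    rw [chi, if_neg fun x => by
      rcases hq' with rfl | rfl
      exacts [c1.not_gt x.2, c1.not_gt ((hA _ bq).1 x.2)]] at e2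
    omega

end Vale.Agent.P158N
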