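import Vale.Agent.P158N.Prob

namespace Vale.Agent.P158N

open MeasureTheory Finset
open scoped ENNReal Classical

/-! ### closed local conditions on tuples of paths -/

/-- `Φ` is a countable conjunction of conditions that depend on finitely many coordinates of the
paths and are measurable in the weights -/
def Cl {ι : Type} (Φ : Om → (ι → ℤ → V) → Prop) : Prop :=
  ∃ Ψ : ℕ → Om → (ι → ℤ → V) → Prop,
    (∀ n, ∃ N : ℤ, ∀ w x x', (∀ i k, |k| ≤ N → x i k = x' i k) → Ψ n w x → Ψ n w x') ∧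
    (∀ n x, MeasurableSet {w | Ψ n w x}) ∧ ∀ w x, Φ w x ↔ ∀ n, Ψ n w x

variable {ι : Type} [Fintype ι]

lemma Cl.base {Φ : Om → (ι → ℤ → V) → Prop} (N : ℤ)
    (h1 : ∀ w x x', (∀ i k, |k| ≤ N → x i k = x' i k) → Φ w x → Φ w x')
    (h2 : ∀ x, MeasurableSet {w | Φ w x}) : Cl Φ :=
  ⟨fun _ => Φ, fun _ => ⟨N, h1⟩, fun _ => h2, fun _ _ => ⟨fun h _ => h, fun h => h 0⟩⟩

lemma Cl.and {Φ Φ' : Om → (ι → ℤ → V) → Prop} (h : Cl Φ) (h' : Cl Φ') :
    Cl fun w x => Φ w x ∧ Φ' w x := by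
  obtain ⟨Ψ, a1, a2, a3⟩ := h
  obtain ⟨Ψ', b1, b2, b3⟩ := h'
  refine ⟨fun n w x => Ψ n w x ∧ Ψ' n w x, fun n => ?_, fun n x => (a2 n x).inter (b2 n x),
    fun w x => by simp only [a3, b3, forall_and]⟩
  obtain ⟨N, hN⟩ := a1 n
  obtain ⟨N', hN'⟩ := b1 n
  exact ⟨max N N', fun w x x' e h => ⟨hN w x x' (fun i k hk => e i k (le_max_of_le_left hk)) h.1,
    hN' w x x' (fun i k hk => e i k (le_max_of_le_right hk)) h.2⟩⟩

lemma Cl.forall {J : Type} [Countable J] {Φ : J → Om → (ι → ℤ → V) → Prop} (h : ∀ j, Cl (Φ j)) :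
    Cl fun w x => ∀ j, Φ j w x := by
  rcases isEmpty_or_nonempty J with hJ | hJ
  · exact Cl.base 0 (fun _ _ _ _ _ j => hJ.elim j) fun x => by simp
  · obtain ⟨f, hf⟩ := exists_surjective_nat (J × ℕ)
    choose Ψ a1 a2 a3 using h
    refine ⟨fun n => Ψ (f n).1 (f n).2, fun n => a1 _ _, fun n => a2 _ _, fun w x =>
      ⟨fun h n => (a3 _ w x).1 (h _) _, fun h j => (a3 j w x).2 fun m => ?_⟩⟩
    obtain ⟨n, hn⟩ := hf (j, m)
    have := h n
    simp only [hn] at this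
    exact this

lemma Cl.bi_gen (i : ι) (f : Om → (ι → ℤ → V) → Om) (N : ℤ)
    (h1 : ∀ w x x', (∀ i k, |k| ≤ N → x i k = x' i k) → f w x = f w x')
    (h2 : ∀ x, Measurable fun w => f w x) : Cl fun w (x : ι → ℤ → V) => Bi (f w x) (x i) := by
  have key : Cl fun w (x : ι → ℤ → V) => ∀ p : {p : ℤ × ℤ // p.1 ≤ p.2},
      Geo (f w x) (x i) p.1.1 p.1.2 := by
    refine Cl.forall fun p => ?_
    obtain ⟨⟨a, b⟩, hab⟩ := p
    simp only at hab ⊢
    refine Cl.base (max N (|a| + |b|)) (fun w x x' e h => ?_) fun x => ?_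
    · have e1 : ∀ k, a ≤ k → k ≤ b → x i k = x' i k := fun k c d => e i k (le_max_of_le_right (by
        simp only [abs_eq_max_neg]; omega))
      rw [← h1 w x x' fun i k hk => e i k (le_max_of_le_left hk)]
      refine ⟨hab, fun k c d => ?_, ?_⟩
      · rw [← e1 k c d.le, ← e1 (k + 1) (by omega) (by omega)]
        exact h.2.1 k c d
      · rw [← cost_congr' e1, ← e1 a le_rfl hab, ← e1 b hab le_rfl]
        exact h.2.2
    · by_cases hw : Walk (x i) a b
      · simp only [Geo, hab, hw, true_and]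
        exact measurableSet_eq_fun ((measurable_cost _ _ _).comp (h2 x))
          ((measurable_T _ _).comp (h2 x))
      · simp [Geo, hw]
  have e : (fun w (x : ι → ℤ → V) => Bi (f w x) (x i)) = fun w x =>
      ∀ p : {p : ℤ × ℤ // p.1 ≤ p.2}, Geo (f w x) (x i) p.1.1 p.1.2 :=
    funext fun w => funext fun x => propext
      ⟨fun h p => h _ _ p.2, fun h a b hab => h ⟨(a, b), hab⟩⟩
  rw [e]
  exact key

lemma Cl.bi (i : ι) : Cl fun w (x : ι → ℤ → V) => Bi w (x i) :=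
  Cl.bi_gen i (fun w _ => w) 0 (fun _ _ _ _ => rfl) fun _ => measurable_id

lemma Cl.bi_update (i : ι) (k : ℤ) (c : ℝ) : Cl fun w (x : ι → ℤ → V) =>
    Bi (Function.update w (ed (x i) k) (w (ed (x i) k) + c)) (x i) := by
  refine Cl.bi_gen i (fun w x => Function.update w (ed (x i) k) (w (ed (x i) k) + c)) (|k| + 1)
    (fun w x x' e => ?_) fun x => ?_
  · have : ed (x i) k = ed (x' i) k := by
      rw [ed, ed, e i k (by omega), e i (k + 1) (by simp only [abs_eq_max_neg]; omega)]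
    simp only [this]
  · have h1 : Measurable fun w : Om => w (ed (x i) k) + c := by fun_prop
    exact measurable_update'.comp (measurable_id.prodMk h1)

/-- the compact set of tuples of paths staying in growing balls -/
def Kb (y : V) (L : ℤ) (x : ι → ℤ → V) : Prop := ∀ i k, nrm (x i k - y) ≤ L + |k|

lemma isClosed_local {p : (ι → ℤ → V) → Prop} (N : ℤ)
    (h : ∀ x x', (∀ i k, |k| ≤ N → x i k = x' i k) → p x → p x') : IsClosed {x | p x} := by
  have hc : Continuous fun (x : ι → ℤ → V) (i : ι) (k : Icc (-N) N) => x i k := by fun_prop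
  have e : {x | p x} = (fun (x : ι → ℤ → V) (i : ι) (k : Icc (-N) N) => x i k) ⁻¹'
      ((fun (x : ι → ℤ → V) (i : ι) (k : Icc (-N) N) => x i k) '' {x | p x}) := by
    refine Set.Subset.antisymm (Set.subset_preimage_image _ _) ?_
    rintro x ⟨x', h1, h2⟩
    exact h x' x (fun i k hk => congrFun (congrFun h2 i) ⟨k, mem_Icc.2 (abs_le.1 hk)⟩) h1
  rw [e]
  exact (isClosed_discrete _).preimage hc

lemma Cl.isClosed {Φ : Om → (ι → ℤ → V) → Prop} (h : Cl Φ) (w : Om) : IsClosed {x | Φ w x} := by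
  obtain ⟨Ψ, a1, -, a3⟩ := h
  simp only [a3, Set.ofPred_forall]
  refine isClosed_iInter fun n => ?_
  obtain ⟨N, hN⟩ := a1 n
  exact isClosed_local N (hN w)

omit [Fintype ι] in
lemma isCompact_Kb (y : V) (L : ℤ) : IsCompact {x : ι → ℤ → V | Kb y L x} := by
  have e : {x : ι → ℤ → V | Kb y L x} =
      Set.pi Set.univ fun _ => Set.pi Set.univ fun k => {z | nrm (z - y) ≤ L + |k|} := by
    ext x
    simp [Kb]
  rw [e]
  exact isCompact_univ_pi fun _ => isCompact_univ_pi fun k => (finite_nrm y _).isCompact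

/-- (K2) -/
lemma Cl.compact {Φ : ℕ → Om → (ι → ℤ → V) → Prop} (h : ∀ n, Cl (Φ n)) (w : Om)
    (hm : ∀ n x, Φ (n + 1) w x → Φ n w x) (y : V) (L : ℤ)
    (hx : ∀ n, ∃ x, Kb y L x ∧ Φ n w x) : ∃ x, Kb y L x ∧ ∀ n, Φ n w x := by
  have hc : ∀ n, IsCompact ({x : ι → ℤ → V | Kb y L x} ∩ {x | Φ n w x}) := fun n =>
    (isCompact_Kb y L).inter_right ((h n).isClosed w)
  obtain ⟨x, hx'⟩ := IsCompact.nonempty_iInter_of_sequence_nonempty_isCompact_isClosed
    (fun n => {x : ι → ℤ → V | Kb y L x} ∩ {x | Φ n w x})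
    (fun n x h => ⟨h.1, hm n x h.2⟩) hx (hc 0) fun n => (hc n).isClosed
  rw [Set.mem_iInter] at hx'
  exact ⟨x, (hx' 0).1, fun n => (hx' n).2⟩

lemma measurable_ex {Ψ : Om → (ι → ℤ → V) → Prop} (N : ℤ)
    (h1 : ∀ w x x', (∀ i k, |k| ≤ N → x i k = x' i k) → Ψ w x → Ψ w x')
    (h2 : ∀ x, MeasurableSet {w | Ψ w x}) (y : V) (L : ℤ) :
    MeasurableSet {w | ∃ x, Kb y L x ∧ Ψ w x} := by
  obtain ⟨ex, hex⟩ : ∃ ex : (ι → Icc (-N) N → V) → ι → ℤ → V, ∀ g i k,
      ex g i k = if h : k ∈ Icc (-N) N then g i ⟨k, h⟩ else y := ⟨_, fun _ _ _ => rfl⟩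
  have e : {w | ∃ x, Kb y L x ∧ Ψ w x} =
      ⋃ g : ι → Icc (-N) N → V, {_w | Kb y L (ex g)} ∩ {w | Ψ w (ex g)} := by
    ext w
    simp only [Set.mem_iUnion, Set.mem_inter_iff, Set.mem_ofPred_eq]
    refine ⟨?_, fun ⟨g, hg⟩ => ⟨_, hg⟩⟩
    rintro ⟨x, a, b⟩
    refine ⟨fun i k => x i k, fun i k => ?_, h1 w x _ (fun i k hk => ?_) b⟩
    · rw [hex]
      split_ifs
      · exact a i k
      · have h3 := (nrm_nonneg _).trans (a i 0)
        have h4 := abs_nonneg k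
        rw [abs_zero] at h3
        rw [sub_self]
        change max |(0 : ℤ)| |(0 : ℤ)| ≤ _
        rw [abs_zero, max_self]
        omega
    · rw [hex, dif_pos (mem_Icc.2 (abs_le.1 hk))]
  rw [e]
  exact MeasurableSet.iUnion fun g => (MeasurableSet.const _).inter (h2 _)

/-- (K1) -/
lemma Cl.measurable {Φ : Om → (ι → ℤ → V) → Prop} (h : Cl Φ) (y : V) (L : ℤ) :
    MeasurableSet {w | ∃ x, Kb y L x ∧ Φ w x} := by
  obtain ⟨Ψ, a1, a2, a3⟩ := h
  choose N hN using a1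
  have h1 : ∀ n w x x', (∀ i k, |k| ≤ ∑ m ∈ range (n + 1), |N m| → x i k = x' i k) →
      (∀ m ∈ range (n + 1), Ψ m w x) → ∀ m ∈ range (n + 1), Ψ m w x' :=
    fun n w x x' e h m hm => hN m w x x' (fun i k hk => e i k (hk.trans ((le_abs_self _).trans
      (single_le_sum (f := fun m => |N m|) (fun _ _ => abs_nonneg _) hm)))) (h m hm)
  have h2 : ∀ n x, MeasurableSet {w | ∀ m ∈ range (n + 1), Ψ m w x} := fun n x => by
    simp only [Set.ofPred_forall]
    exact MeasurableSet.iInter fun m => MeasurableSet.iInter fun _ => a2 m x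
  have e : {w | ∃ x, Kb y L x ∧ Φ w x} =
      ⋂ n, {w | ∃ x, Kb y L x ∧ ∀ m ∈ range (n + 1), Ψ m w x} := by
    ext w
    simp only [Set.mem_iInter, Set.mem_ofPred_eq]
    refine ⟨fun ⟨x, a, b⟩ n => ⟨x, a, fun m _ => (a3 w x).1 b m⟩, fun h => ?_⟩
    obtain ⟨x, a, b⟩ := Cl.compact (Φ := fun n w x => ∀ m ∈ range (n + 1), Ψ m w x)
      (fun n => Cl.base _ (h1 n) (h2 n)) w
      (fun n x h m hm => h m (mem_range.2 (Nat.lt_succ_of_lt (mem_range.1 hm)))) y L h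
    exact ⟨x, a, (a3 w x).2 fun n => b n n (mem_range.2 (Nat.lt_succ_self n))⟩
  rw [e]
  exact MeasurableSet.iInter fun n => measurable_ex _ (h1 n) (h2 n) y L

end Vale.Agent.P158N
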