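import Vale.Agent.P158N.Circ

/-! Consequences of the good event at scale `n`. -/

namespace Vale.Agent.P158N

open MeasureTheory Finset
open scoped ENNReal Classical

variable {w : Om} {b X : ℝ} {n : ℕ}

/-- the circuit has diameter at most `X` (take `f = T w q`) -/
lemma Circ.diam {m : ℤ} (hw : NN w) (h : Circ w m X) : ∃ L : Set V, (∀ z ∈ L, nrm z ≤ 2 * m) ∧
    (∀ (v : ℤ → V) (i j : ℤ), i ≤ j → Walk v i j → nrm (v i) ≤ m → 2 * m < nrm (v j) →
      ∃ k, i ≤ k ∧ k ≤ j ∧ v k ∈ L) ∧ ∀ p ∈ L, ∀ q ∈ L, T w p q ≤ X := by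
  obtain ⟨L, F, -, h2, h3, h4, h5⟩ := h
  refine ⟨L, h2, h4, fun p hp q hq => ?_⟩
  have a1 := h5 (fun z => T w z q) p hp q hq
  rw [T_self hw, sub_zero] at a1
  refine a1.trans ((sum_le_sum fun e _ => ?_).trans h3)
  have b1 := T_le_edge hw (adj_src_tgt e)
  rw [edge_src_tgt] at b1
  have b2 := T_tri hw (src e) (tgt e) q
  have b3 := T_tri hw (tgt e) (src e) q
  rw [T_symm w (tgt e) (src e)] at b3
  rw [abs_le]
  constructor <;> linarith

lemma Good.nonneg (hw : NN w) (h : Good b w n X) : 0 ≤ X := by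
  obtain ⟨_, F, -, -, h3, -⟩ := h.1
  exact (sum_nonneg fun e _ => hw e).trans h3

/-- a geodesic with ends outside `Bx (2n)` spends few steps between two visits of `Bx n` -/
lemma Good.len (hw : Nice w) (hb : 0 < b) (h : Good b w n X) {v : ℤ → V} {i0 i j j0 : ℤ}
    (hv : Geo w v i0 j0) (h1 : i0 ≤ i) (h2 : i ≤ j) (h3 : j ≤ j0) (a1 : 2 * n < nrm (v i0))
    (a2 : 2 * n < nrm (v j0)) (b1 : nrm (v i) ≤ n) (b2 : nrm (v j) ≤ n) :
    ((j - i : ℤ) : ℝ) ≤ n + 2 * X / b := by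
  have X0 := h.nonneg hw.nn
  have q0 : 0 ≤ 2 * X / b := by positivity
  by_cases hl : j - i ≤ n
  · have : ((j - i : ℤ) : ℝ) ≤ n := by exact_mod_cast hl
    linarith
  obtain ⟨L, -, l2, l3⟩ := h.1.diam hw.nn
  obtain ⟨k2, c1, c2, c3⟩ := l2 v j j0 h3 (hv.2.1.mono (by omega) le_rfl) b2 a2
  obtain ⟨k1, d1, d2, d3⟩ := l2 (rev v) (-i) (-i0) (by omega)
    (Walk.rev (by simpa using hv.2.1.mono le_rfl (by omega))) (by simpa [rev] using b1)
    (by simpa [rev] using a1)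
  have e1 := l3 _ d3 _ c3
  simp only [rev] at e1
  rw [← hv.cost_eq hw.nn (by omega) (by omega) c2] at e1
  have e2 := cost_sub_le hw.nn v (show -k1 ≤ i by omega) h2 c1
  have e3 := (h.2 (v i) (by omega)).cost hw.nn hb.le rfl (j := j) (by omega)
    (hv.2.1.mono h1 h3) ((hv.injOn hw.pos).mono (Set.Icc_subset_Icc h1 h3))
  have e4 : (j : ℝ) - i ≤ 2 * X / b := by
    rw [le_div_iff₀ hb]; linarith
  push_cast
  linarith [Nat.cast_nonneg (α := ℝ) n]

lemma Good.card_geo (hw : Nice w) (hb : 0 < b) (h : Good b w n X) {v : ℤ → V} {i0 j0 : ℤ}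
    (hv : Geo w v i0 j0) (a1 : 2 * n < nrm (v i0)) (a2 : 2 * n < nrm (v j0)) (A : Finset V)
    (hA : ∀ z ∈ A, nrm z ≤ n ∧ ∃ k, i0 ≤ k ∧ k ≤ j0 ∧ v k = z) :
    (A.card : ℝ) ≤ n + 2 * X / b + 1 := by
  have X0 := h.nonneg hw.nn
  rcases A.eq_empty_or_nonempty with rfl | ⟨z, hz⟩
  · rw [card_empty, Nat.cast_zero]; positivity
  have ne : ((Icc i0 j0).filter fun k => nrm (v k) ≤ n).Nonempty := by
    obtain ⟨c, k, d1, d2, rfl⟩ := hA z hz
    exact ⟨k, mem_filter.2 ⟨mem_Icc.2 ⟨d1, d2⟩, c⟩⟩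
  obtain ⟨i, hi, mi⟩ := exists_min_image _ id ne
  obtain ⟨j, hj, mj⟩ := exists_max_image _ id ne
  have hij : i ≤ j := mi j hj
  obtain ⟨i1, i2⟩ := mem_filter.1 hi
  obtain ⟨j1, j2⟩ := mem_filter.1 hj
  have e1 := h.len hw hb hv (mem_Icc.1 i1).1 hij (mem_Icc.1 j1).2 a1 a2 i2 j2
  have e2 : A ⊆ (Icc i j).image v := fun x hx => by
    obtain ⟨c, k, d1, d2, rfl⟩ := hA x hx
    have m : k ∈ (Icc i0 j0).filter fun k => nrm (v k) ≤ n := mem_filter.2 ⟨mem_Icc.2 ⟨d1, d2⟩, c⟩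
    exact mem_image_of_mem _ (mem_Icc.2 ⟨mi k m, mj k m⟩)
  have e3 := (card_le_card e2).trans card_image_le
  rw [Int.card_Icc] at e3
  have e4 : (A.card : ℤ) ≤ j - i + 1 := by omega
  have e5 : (A.card : ℝ) ≤ ((j - i : ℤ) : ℝ) + 1 := by exact_mod_cast e4
  linarith

lemma Good.card_on (hw : Nice w) (hb : 0 < b) (h : Good b w n X) {x y : V} (hx : 2 * n < nrm x)
    (hy : 2 * n < nrm y) :
    (((ball 0 n).filter fun z => On w x z y).card : ℝ) ≤ n + 2 * X / b + 1 := by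
  obtain ⟨v, m, rfl, rfl, hv⟩ := hw.ex x y
  exact h.card_geo hw hb hv hx hy _ fun z hz =>
    ⟨mem_ball0.1 (mem_filter.1 hz).1, hw.uniq v 0 m z hv (mem_filter.1 hz).2⟩

lemma Good.card_bi (hw : Nice w) (hb : 0 < b) (h : Good b w n X) {v : ℤ → V} (hv : Bi w v) :
    (((ball 0 n).filter fun z => z ∈ Set.range v).card : ℝ) ≤ n + 2 * X / b + 1 := by
  obtain ⟨k0, a, c⟩ := escape (hv.inj hw.pos) 0 (2 * n)
  simp only [sub_zero] at c
  refine h.card_geo hw hb (hv (-k0) k0 (by omega)) (c _ (by rw [abs_neg]; exact le_abs_self _))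
    (c _ (le_abs_self _)) _ fun z hz => ?_
  obtain ⟨z1, k, rfl⟩ := mem_filter.1 hz
  have z2 := mem_ball0.1 z1
  have : ¬ k0 ≤ |k| := fun e => by have := c k e; omega
  rw [abs_eq_max_neg] at this
  exact ⟨z2, k, by omega, by omega, rfl⟩

/-- far excursions are expensive -/
lemma Good.sep (hw : Nice w) (hb : 0 < b) (h : Good b w n X) {y y' u : V} {m : ℤ}
    (hy : nrm y ≤ n) (hy' : nrm y' ≤ n) (hu : m ≤ nrm u) (hm : 3 * (n : ℤ) ≤ m) :
    T w y y' + (b * (m - 2 * n) - X) ≤ T w y u + T w u y' := by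
  have nn := hw.nn
  have X0 := h.nonneg nn
  by_cases h2 : 2 * (n : ℤ) < nrm u
  swap
  · have := T_tri nn y u y'
    have e : (m : ℝ) ≤ 2 * n := by
      have : m ≤ 2 * n := by omega
      exact_mod_cast this
    nlinarith
  obtain ⟨L, l1, l2, l3⟩ := h.1.diam nn
  have key : ∀ x, nrm x ≤ n → ∃ p ∈ L, T w x p + b * (m - 2 * n) / 2 ≤ T w x u := by
    intro x hx
    obtain ⟨v, k, rfl, rfl, hv⟩ := hw.ex x u
    obtain ⟨t, c1, c2, c3⟩ := l2 v 0 k hv.1 hv.2.1 hx h2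
    refine ⟨v t, c3, ?_⟩
    have d1 := hv.on nn le_rfl c1 c2 le_rfl
    have d2 := l1 _ c3
    have d3 := nrm_le_add (v k) (v t)
    have d4 := (h.2 _ d2).T_ge (x := v k) nn hb.le (by omega)
    have d5 : (m : ℝ) - 2 * n ≤ (nrm (v k - v t) : ℤ) := by
      have : m - 2 * n ≤ nrm (v k - v t) := by omega
      exact_mod_cast this
    unfold On at d1
    nlinarith
  obtain ⟨p, p1, p2⟩ := key y hy
  obtain ⟨q, q1, q2⟩ := key y' hy'
  have e1 := l3 p p1 q q1
  have e2 := T_tri nn y p y'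
  have e3 := T_tri nn p q y'
  rw [T_symm w q y'] at e3
  rw [T_symm w u y']
  linarith

variable {G : Measure ℝ} [IsProbabilityMeasure G] [NullSingletonClass G]

/-- expected number of points of a geodesic in `Bx n` (use `(2n+1)^2 ≤ 9 n^2`) -/
lemma lenE (h0 : G (Set.Iio 0) = 0) : ∃ C : ℝ, 0 ≤ C ∧ ∀ n : ℕ, 1 ≤ n → ∀ x y : V,
    2 * n < nrm x → 2 * n < nrm y →
    ∑ z ∈ ball 0 n, P G {w | On w x z y} ≤ ENNReal.ofReal (C * n) := by
  obtain ⟨p⟩ := exists_par h0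
  have hb : 0 < p.b := p.ha.trans p.hab
  obtain ⟨C, C0, hC⟩ := scale p.hGb h0
  refine ⟨2 + (2 / p.b + 1) * C, by positivity, fun n hn x y hx hy => ?_⟩
  obtain ⟨X, mX, iX, gX⟩ := hC n hn
  have n1 : (1 : ℝ) ≤ n := by exact_mod_cast hn
  simp only [← lintegral_indicator_one (measurableSet_On _ _ _)]
  rw [← lintegral_finset_sum _ fun z _ => measurable_one.indicator (measurableSet_On _ _ _)]
  refine (lintegral_mono_ae (g := fun w => ENNReal.ofReal (2 * n) +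
    ENNReal.ofReal (2 / p.b + 1) * X w) ?_).trans ?_
  · filter_upwards [gX, ae_nice h0] with w h1 h2
    have e : ∑ z ∈ ball 0 (n : ℤ), {w | On w x z y}.indicator (1 : Om → ℝ≥0∞) w =
        ((ball 0 (n : ℤ)).filter fun z => On w x z y).card := by
      rw [card_filter]
      simp only [Set.indicator_apply, Set.mem_setOf_eq, Pi.one_apply, Nat.cast_sum, Nat.cast_ite,
        Nat.cast_one, Nat.cast_zero]
    rw [e]
    by_cases ht : X w = ⊤
    · rw [ht, ENNReal.mul_top (ENNReal.ofReal_pos.2 (by positivity)).ne', add_top]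
      exact le_top
    have t0 : 0 ≤ (X w).toReal := ENNReal.toReal_nonneg
    rw [← ENNReal.ofReal_toReal ht, ← ENNReal.ofReal_mul (by positivity),
      ← ENNReal.ofReal_add (by positivity) (by positivity), ← ENNReal.ofReal_natCast]
    refine ENNReal.ofReal_le_ofReal ?_
    have e2 : (2 / p.b + 1) * (X w).toReal = 2 * (X w).toReal / p.b + (X w).toReal := by ring
    have t1 : 0 ≤ 2 * (X w).toReal / p.b := by positivity
    by_cases hl : (X w).toReal < 9 * (n : ℝ) ^ 2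
    · have := (h1 _ (ENNReal.ofReal_toReal ht).ge hl).card_on h2 hb hx hy
      linarith
    · have a1 := (Nat.cast_le (α := ℝ)).2
        (card_filter_le (ball 0 (n : ℤ)) fun z => On w x z y)
      rw [card_ball] at a1
      push_cast at a1
      nlinarith
  · rw [lintegral_add_left measurable_const, lintegral_const_mul _ mX, lintegral_const,
      measure_univ, mul_one]
    refine (add_le_add le_rfl (mul_le_mul_right iX _)).trans (le_of_eq ?_)
    rw [← ENNReal.ofReal_mul (by positivity), ← ENNReal.ofReal_add (by positivity) (by positivity)]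
    congr 1
    ring

/-- Markov -/
lemma good_whp (hb : G (Set.Ici b)ᶜ ≤ 1 / 256) (h0 : G (Set.Iio 0) = 0) {δ : ℝ≥0∞} (hδ : 0 < δ) :
    ∃ (C : ℝ) (n0 : ℕ), 0 ≤ C ∧ ∀ n : ℕ, n0 ≤ n → P G {w | ¬ Good b w n (C * n)} ≤ δ := by
  obtain ⟨C, C0, hC⟩ := scale hb h0
  obtain ⟨d, -, d1, d2⟩ := ENNReal.lt_iff_exists_real_btwn.1 hδ
  have d0 : 0 < d := ENNReal.ofReal_pos.1 d1
  refine ⟨C / d + 1, ⌈C / d + 1⌉₊ + 1, by positivity, fun n hn => ?_⟩
  obtain ⟨X, mX, iX, gX⟩ := hC n (by omega)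
  have n1 : C / d + 1 + 1 ≤ n := by
    have h1 := Nat.le_ceil (C / d + 1)
    have h2 : ((⌈C / d + 1⌉₊ + 1 : ℕ) : ℝ) ≤ n := Nat.cast_le.2 hn
    push_cast at h2
    linarith
  have q0 : 0 ≤ C / d := by positivity
  have n0 : (0 : ℝ) < n := by linarith
  refine (measure_mono_ae (t := {w | ENNReal.ofReal ((C / d + 1) * n) ≤ X w}) ?_).trans
    ((meas_ge_le_lintegral_div mX.aemeasurable (ENNReal.ofReal_pos.2 (by positivity)).ne'
      ENNReal.ofReal_ne_top).trans (le_trans (ENNReal.div_le_of_le_mul (iX.trans ?_)) d2.le))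
  · filter_upwards [gX] with w h1 h2
    by_contra h3
    exact h2 (h1 _ (not_le.1 h3).le (by nlinarith))
  · rw [← ENNReal.ofReal_mul d0.le]
    refine ENNReal.ofReal_le_ofReal ?_
    have e : d * ((C / d + 1) * n) = C * n + d * n := by field_simp
    rw [e]
    nlinarith

end Vale.Agent.P158N
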