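import Vale.Agent.P158N.Events
import Vale.Agent.P158N.Alt
import Vale.Agent.P158N.Scale

/-! The deterministic counting lemma. -/

namespace Vale.Agent.P158N

open MeasureTheory Finset
open scoped Classical

variable {G : Measure ℝ} {p : Par G} {w : Om} {c : ℝ}

lemma Circ.nonneg {m : ℤ} {X : ℝ} (hw : NN w) (h : Circ w m X) : 0 ≤ X := by
  obtain ⟨_, F, -, -, h3, -⟩ := h
  exact (sum_nonneg fun e _ => hw e).trans h3

lemma near_or_far (hw : NN w) {J D L H : ℕ} {n m : ℤ} {W : ℝ} {v u : ℤ → V}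
    (hv : RobJ c J w v) (hu : Rob c w u) (h0 : nrm (v 0) ≤ n) (h1 : nrm (u 0) ≤ n)
    (hm : n + L + H ≤ m) (hc : Close w m W v u) {t : ℤ} (ht : |t| ≤ D) (hd : ∀ s, u s ≠ v t) :
    Near c J D L W H w (v 0) ∨ Far c J L n m W w (v 0) := by
  by_cases hf : ∀ s, (L : ℤ) < nrm (u s - v 0)
  · exact Or.inr ⟨v, u, rfl, hv, hu, h1, hf, hc⟩
  push Not at hf
  obtain ⟨s, hs⟩ := hf
  have bv := hv.rob.bi
  have bu := hu.bi.sh s
  have cl := hc.sh hw hu.bi s
  have e0 : sh u s 0 = u s := by simp [sh]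
  have n0 : nrm (sh u s 0) ≤ n + L := by
    have := nrm_le_add (u s) (v 0)
    rw [e0]; omega
  refine Or.inl ⟨v, sh u s, rfl, e0 ▸ hs, hv, bu, ⟨t, ht, fun r => hd _⟩,
    fun a b a1 a2 b1 _ => ⟨cl.hyb hw bv bu a2 b1 ?_ (by omega),
      cl.symm.hyb hw bu bv a2 b1 ?_ (by omega)⟩⟩
  · have := bv.nrm_le 0 a
    have := nrm_le_add (v a) (v 0)
    rw [abs_eq_max_neg] at *; omega
  · have := bu.nrm_le 0 a
    have := nrm_le_add (sh u s a) (sh u s 0)
    rw [abs_eq_max_neg] at *; omega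

/-- (CT) Apply `bucket` (with `ε = W`, alternation from `propZ` and `alt`) to the family of all
chosen bigeodesics, index set `Y × Fin k`; the bucket of an index is `⌊ν / W⌋`.  If `y` is neither
`Near` nor `Far`, its `k` members lie in distinct buckets, and every member of such a bucket passes
through `y`.  For each bucket these `y` lie on one bigeodesic. -/
lemma count (hc : 0 < c) (h : Typ p w) {J k D L H n : ℕ} {m : ℤ} {W X X' : ℝ} (hW : 0 < W)
    (g1 : Good p.b w n X) (g2 : Circ w m X') (hm : (n : ℤ) + L + H ≤ m) :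
    (k : ℝ) * ((ball 0 n).filter fun y => Mem c J k D w y ∧
        ¬ (Near c J D L (2 * W) H w y ∨ Far c J L n m (2 * W) w y)).card ≤
      (n + 2 * X / p.b + 1) * (16 * X' / W + 1) := by
  set Y := (ball 0 n).filter fun y => Mem c J k D w y ∧
    ¬ (Near c J D L (2 * W) H w y ∨ Far c J L n m (2 * W) w y) with hY
  have nn := h.nice.nn
  have hb : 0 < p.b := p.ha.trans p.hab
  have X0 := g1.1.nonneg nn
  have X1 := g2.nonneg nn
  have hmem : ∀ y : Y, nrm y.1 ≤ n ∧ Mem c J k D w y ∧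
      ¬ (Near c J D L (2 * W) H w y ∨ Far c J L n m (2 * W) w y) := fun y =>
    ⟨mem_ball0.1 (mem_filter.1 y.2).1, (mem_filter.1 y.2).2⟩
  choose x hx1 hx2 using fun y : Y => (hmem y).2.1
  obtain ⟨ν, hν1, hν2⟩ := bucket h.nice (m := m) (by omega) g2 hW (I := Y × Fin k)
    (fun a => x a.1 a.2) fun a => (hx1 a.1 a.2).2.rob.bi
  let β : Y × Fin k → ℕ := fun a => ⌊ν a / W⌋₊
  have key : ∀ a b : Y × Fin k, β a = β b → ∀ t : ℤ, |t| ≤ D →
      (∀ s, x b.1 b.2 s ≠ x a.1 a.2 t) → False := by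
    intro a b hab t ht hd
    have ra := (hx1 a.1 a.2).2
    have rb := (hx1 b.1 b.2).2.rob
    have hr : Set.range (x a.1 a.2) ≠ Set.range (x b.1 b.2) := fun e => by
      obtain ⟨s, hs⟩ : x a.1 a.2 t ∈ Set.range (x b.1 b.2) := e ▸ Set.mem_range_self t
      exact hd s hs
    have al := alt h.nice ra.rob.bi rb.bi (propZ hc h ra.rob rb.bi hr)
      (propZ hc h ra.rob rb.bi.rev (by rwa [range_rev]))
    have le : |ν a - ν b| + W ≤ 2 * W := by
      have a1 := Nat.floor_le (div_nonneg (hν1 a).1 hW.le)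
      have a2 := Nat.lt_floor_add_one (ν a / W)
      have b1 := Nat.floor_le (div_nonneg (hν1 b).1 hW.le)
      have b2 := Nat.lt_floor_add_one (ν b / W)
      have e : (⌊ν a / W⌋₊ : ℝ) = ⌊ν b / W⌋₊ := congrArg Nat.cast hab
      have c1 : |ν a / W - ν b / W| ≤ 1 := by rw [abs_le]; constructor <;> linarith
      rw [← sub_div, abs_div, abs_of_pos hW, div_le_one hW] at c1
      linarith
    have na : nrm (x a.1 a.2 0) ≤ n := (hx1 a.1 a.2).1 ▸ (hmem a.1).1
    have nb : nrm (x b.1 b.2 0) ≤ n := (hx1 b.1 b.2).1 ▸ (hmem b.1).1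
    refine (hmem a.1).2.2 ?_
    rw [← (hx1 a.1 a.2).1]
    rcases hν2 a b al with cl | cl
    · exact near_or_far nn ra rb na nb hm (cl.mono le) ht hd
    · exact near_or_far nn ra rb.rev na (by simpa [rev] using nb) hm (cl.mono le) ht
        fun s => hd _
  have fib : ∀ B : ℕ, (((univ : Finset (Y × Fin k)).filter fun a => β a = B).card : ℝ) ≤
      n + 2 * X / p.b + 1 := by
    intro B
    rcases ((univ : Finset (Y × Fin k)).filter fun a => β a = B).eq_empty_or_nonempty with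
      e | ⟨b, hb'⟩
    · rw [e, card_empty, Nat.cast_zero]; positivity
    refine le_trans (Nat.cast_le.2 (card_le_card_of_injOn (fun a => a.1.1) (fun a ha => ?_)
      fun a ha a' ha' e => ?_)) (g1.card_bi h.nice hb (hx1 b.1 b.2).2.rob.bi)
    · refine mem_coe.2 (mem_filter.2 ⟨mem_ball0.2 (hmem a.1).1, ?_⟩)
      by_contra hn
      refine key a b ((mem_filter.1 ha).2.trans (mem_filter.1 hb').2.symm) 0 (by simp)
        fun s e => hn ⟨s, e.trans (hx1 a.1 a.2).1⟩
    · obtain ⟨y, i⟩ := a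
      obtain ⟨y', j⟩ := a'
      obtain rfl : y = y' := Subtype.ext e
      by_contra hn
      obtain ⟨t, t1, t2⟩ := hx2 y i j fun e => hn (by rw [e])
      exact key (y, i) (y, j) ((mem_filter.1 ha).2.trans (mem_filter.1 ha').2.symm) t t1 t2
  have tot := card_eq_sum_card_fiberwise (s := (univ : Finset (Y × Fin k)))
    (t := range (⌊16 * X' / W⌋₊ + 1)) (f := β) fun a _ => mem_coe.2 (mem_range.2
      (Nat.lt_succ_of_le (Nat.floor_le_floor (div_le_div_of_nonneg_right (hν1 a).2 hW.le))))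
  rw [card_univ, Fintype.card_prod, Fintype.card_fin, Fintype.card_coe] at tot
  have tot' : (k : ℝ) * Y.card = ∑ B ∈ range (⌊16 * X' / W⌋₊ + 1),
      (((univ : Finset (Y × Fin k)).filter fun a => β a = B).card : ℝ) := by
    rw [← Nat.cast_sum, ← tot, mul_comm]; push_cast; rfl
  rw [tot']
  refine (sum_le_card_nsmul _ _ _ fun B _ => fib B).trans ?_
  rw [card_range, nsmul_eq_mul, mul_comm]
  refine mul_le_mul_of_nonneg_left ?_ (by positivity)
  push_cast
  have := Nat.floor_le (show 0 ≤ 16 * X' / W by positivity)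
  linarith

lemma Far.part (hw : NN w) {J L : ℕ} {n m : ℤ} {W : ℝ} {y : V} (hy : nrm y ≤ n) (hm : n ≤ m)
    (h : Far c J L n m W w y) : Part c L (2 * W + 1) w y := by
  obtain ⟨v, u, rfl, hv, hu, h1, h2, h3⟩ := h
  exact ⟨u, hu, h2, h3.near hw hv.rob.bi hu.bi (hy.trans hm) (h1.trans hm)⟩

lemma Bi.exit (hw : Nice w) {u : ℤ → V} (hu : Bi w u) {m : ℤ} (h : nrm (u 0) ≤ m) :
    ∃ j, 0 ≤ j ∧ nrm (u j) = m := by
  obtain ⟨k0, a, b⟩ := escape (hu.inj hw.pos) 0 m
  have := b k0 (le_abs_self _)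
  rw [sub_zero] at this
  obtain ⟨j, c, -, d, -⟩ := (hu.walk 0 k0).exists_first a h this.le
  exact ⟨j, c, d⟩

/-- (O2) `no_detour` with `u i`, `u j` the first points of norm `m` before and after `u 0`,
and `Good.sep` at scale `n'` -/
lemma Far.false (hw : Nice w) {b X : ℝ} (hb : 0 < b) {J L n' : ℕ} {n m : ℤ} {W : ℝ} {y : V}
    (g : Good b w n' X) (hy : nrm y ≤ n) (hn : n + J + 1 ≤ n') (hL : J ≤ L) (hm : 3 * (n' : ℤ) ≤ m)
    (hW : 0 ≤ W) (hc : 2 * W < c) (hX : W < b * (m - 2 * n') - X)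
    (h : Far c J L n m W w y) : False := by
  obtain ⟨v, u, rfl, ⟨k, hk, hv⟩, hu, h1, h2, h3⟩ := h
  have nn := hw.nn
  have bv := hv.1
  have bu := hu.bi
  obtain ⟨j, j0, hj⟩ := bu.exit hw (m := m) (by omega)
  obtain ⟨i, i0, hi⟩ := bu.rev.exit hw (m := m) (by simp only [rev, neg_zero]; omega)
  simp only [rev] at hi
  have nx : ∀ x, x = v k ∨ x = v (k + 1) → nrm x ≤ n' := by
    rintro x (rfl | rfl)
    · have := bv.nrm_le 0 k
      have := nrm_le_add (v k) (v 0)
      rw [abs_eq_max_neg] at *; omega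
    · have := bv.nrm_le 0 (k + 1)
      have := nrm_le_add (v (k + 1)) (v 0)
      rw [abs_eq_max_neg] at *; omega
  refine hv.no_detour (i := -i) (j := j) hw (by linarith) bu (fun t e => ?_) (by omega) ?_
    (fun x hx => ?_) fun x hx => ?_
  · have a1 := h2 t
    have a2 := bv.nrm_le 0 k
    rw [e] at a1
    rw [sub_zero] at a2
    omega
  · have a1 := (h3 (u j) (v 0) hj.le (by omega)).1
    have a2 := (h3 (u (-i)) (v 0) hi.le (by omega)).2
    have a3 := Bu_on nn bu (show -i ≤ j by omega)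
    have a4 := Bu_sum_on nn bu (-i)
    have a5 := Bu_sum_on nn bv 0
    have a6 := Bu_sum_nonneg nn bu (v 0)
    linarith
  · have a0 := nx x hx
    have a1 := (h3 (u (-i)) x hi.le (by omega)).2
    have a2 := Bu_on_rev nn bu (show -i ≤ 0 by omega)
    have a3 := Bu_lip nn bu.rev (u 0) x
    have a4 := g.sep hw hb a0 (y' := u 0) (by omega) hi.ge hm
    rw [T_symm] at a3
    linarith
  · have a0 := nx x hx
    have a1 := (h3 (u j) x hj.le (by omega)).1
    have a2 := Bu_on nn bu j0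
    have a3 := Bu_lip nn bu (u 0) x
    have a4 := g.sep hw hb a0 (y' := u 0) (by omega) hj.ge hm
    rw [T_symm] at a3 a2
    linarith

end Vale.Agent.P158N
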