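import Mathlib

namespace Vale.Agent.P158N

/-- Vertices of the square lattice. -/
abbrev V : Type := ℤ × ℤ

/-- Nearest-neighbour edges: `(x, false)` is the edge from `x` to `x + (1,0)`, and `(x, true)` is
the edge from `x` to `x + (0,1)`. -/
abbrev E : Type := V × Bool

/-- Nearest neighbours. -/
def Adj (x y : V) : Prop := |x.1 - y.1| + |x.2 - y.2| = 1

/-- The (unoriented) edge joining two nearest neighbours. -/
def edge (x y : V) : E := ((min x.1 y.1, min x.2 y.2), decide (x.1 = y.1))

/-- The sum of the weights of the edges traversed by `v i, v (i+1), ..., v j`. -/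
noncomputable def cost (w : E → ℝ) (v : ℤ → V) (i j : ℤ) : ℝ :=
  ∑ k ∈ Finset.Ico i j, w (edge (v k) (v (k + 1)))

/-- `v i, v (i+1), ..., v j` is a nearest-neighbour path. -/
def Walk (v : ℤ → V) (i j : ℤ) : Prop := ∀ k, i ≤ k → k < j → Adj (v k) (v (k + 1))

/-- The passage time: the infimum of the weights of finite nearest-neighbour paths. -/
noncomputable def T (w : E → ℝ) (x y : V) : ℝ :=
  sInf {c | ∃ (v : ℤ → V) (i j : ℤ), i ≤ j ∧ v i = x ∧ v j = y ∧ Walk v i j ∧ c = cost w v i j}

end Vale.Agent.P158N
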