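import Vale.Agent.P158N.PropZ
import Vale.Agent.P158N.Cl

/-! Events attached to a vertex: measurability, translation, compactness. -/

namespace Vale.Agent.P158N

open MeasureTheory Finset
open scoped Classical

/-- `k` robust bigeodesics through `y`, pairwise distinct at level `D` -/
def Mem (c : ℝ) (J k D : ℕ) (w : Om) (y : V) : Prop := ∃ x : Fin k → ℤ → V,
  (∀ i, x i 0 = y ∧ RobJ c J w (x i)) ∧
  ∀ i j, i ≠ j → ∃ t : ℤ, |t| ≤ D ∧ ∀ s, x j s ≠ x i t

/-- a robust bigeodesic through `y` and a distinct one nearby with hybrids bounded up to level `H` -/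
def Near (c : ℝ) (J D L : ℕ) (W : ℝ) (H : ℕ) (w : Om) (y : V) : Prop := ∃ v u : ℤ → V,
  v 0 = y ∧ nrm (u 0 - y) ≤ L ∧ RobJ c J w v ∧ Bi w u ∧ (∃ t : ℤ, |t| ≤ D ∧ ∀ s, u s ≠ v t) ∧
  ∀ a b : ℤ, -(H : ℤ) ≤ a → a ≤ 0 → 0 ≤ b → b ≤ H →
    T w (v a) (v 0) + T w (u 0) (u b) - T w (v 0) (u 0) - W ≤ T w (v a) (u b) ∧
    T w (u a) (u 0) + T w (v 0) (v b) - T w (u 0) (v 0) - W ≤ T w (u a) (v b)

/-- a robust bigeodesic far from `y` for which `y` is almost optimal -/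
def Part (c : ℝ) (L : ℕ) (C : ℝ) (w : Om) (y : V) : Prop := ∃ u : ℤ → V, Rob c w u ∧
  (∀ s, (L : ℤ) < nrm (u s - y)) ∧
  ∃ a b : ℤ, a ≤ 0 ∧ 0 ≤ b ∧ T w (u a) y + T w y (u b) ≤ T w (u a) (u b) + C

/-- a close pair whose second member avoids the ball of radius `L` but visits `Bx n` -/
def Far (c : ℝ) (J L : ℕ) (n m : ℤ) (W : ℝ) (w : Om) (y : V) : Prop := ∃ v u : ℤ → V,
  v 0 = y ∧ RobJ c J w v ∧ Rob c w u ∧ nrm (u 0) ≤ n ∧ (∀ s, (L : ℤ) < nrm (u s - y)) ∧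
  Close w m W v u

variable {G : Measure ℝ} {p : Par G} {w : Om} {c : ℝ}

section ClA
variable {ι : Type} [Fintype ι]

lemma Cl.congr {Φ Φ' : Om → (ι → ℤ → V) → Prop} (h : Cl Φ) (e : ∀ w x, Φ w x ↔ Φ' w x) :
    Cl Φ' := by
  have : Φ = Φ' := funext fun w => funext fun x => propext (e w x)
  exact this ▸ h

lemma Cl.or {Φ Φ' : Om → (ι → ℤ → V) → Prop} (h : Cl Φ) (h' : Cl Φ') :
    Cl fun w x => Φ w x ∨ Φ' w x := by
  obtain ⟨Ψ, a1, a2, a3⟩ := h
  obtain ⟨Ψ', b1, b2, b3⟩ := h'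
  have key : Cl fun w x => ∀ q : ℕ × ℕ, Ψ q.1 w x ∨ Ψ' q.2 w x := by
    refine Cl.forall fun q => ?_
    obtain ⟨N, hN⟩ := a1 q.1
    obtain ⟨N', hN'⟩ := b1 q.2
    exact Cl.base (max N N') (fun w x x' e h => h.imp
      (hN w x x' fun i k hk => e i k (le_max_of_le_left hk))
      (hN' w x x' fun i k hk => e i k (le_max_of_le_right hk))) fun x => (a2 _ x).union (b2 _ x)
  refine key.congr fun w x => ?_
  simp only [a3, b3, Prod.forall, forall_or_left, forall_or_right]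

lemma Cl.const (q : Prop) : Cl fun _ (_ : ι → ℤ → V) => q :=
  Cl.base 0 (fun _ _ _ _ h => h) fun _ => MeasurableSet.const _

lemma Cl.exFin {J : Type} (s : Finset J) {Φ : J → Om → (ι → ℤ → V) → Prop} (h : ∀ j, Cl (Φ j)) :
    Cl fun w x => ∃ j ∈ s, Φ j w x := by
  induction s using Finset.induction_on with
  | empty => exact (Cl.const False).congr fun w x => by simp
  | insert a s _ ih => exact ((h a).or ih).congr fun w x => by simp

lemma Cl.exZ (D : ℤ) {Φ : ℤ → Om → (ι → ℤ → V) → Prop} (h : ∀ j, Cl (Φ j)) :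
    Cl fun w x => ∃ t, |t| ≤ D ∧ Φ t w x :=
  (Cl.exFin (Icc (-D) D) h).congr fun w x => by simp only [mem_Icc, abs_le]

lemma Cl.imp (q : Prop) {Φ : Om → (ι → ℤ → V) → Prop} (h : Cl Φ) : Cl fun w x => q → Φ w x :=
  ((Cl.const (¬ q)).or h).congr fun _ _ => imp_iff_not_or.symm

lemma Cl.pt (i : ι) (k : ℤ) (q : V → Prop) : Cl fun _ (x : ι → ℤ → V) => q (x i k) :=
  Cl.base |k| (fun _ _ _ e h => e i k le_rfl ▸ h) fun _ => MeasurableSet.const _

lemma Cl.ne (i j : ι) (t : ℤ) : Cl fun _ (x : ι → ℤ → V) => ∀ s, x j s ≠ x i t :=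
  Cl.forall fun s => Cl.base (max |s| |t|) (fun _ _ _ e h => by
    rw [← e j s (le_max_left _ _), ← e i t (le_max_right _ _)]; exact h)
    fun _ => MeasurableSet.const _

lemma Cl.robAt (c : ℝ) (i : ι) (k : ℤ) : Cl fun w (x : ι → ℤ → V) => RobAt c w (x i) k :=
  (Cl.bi i).and (Cl.bi_update i k c)

lemma Cl.robJ (c : ℝ) (J : ℕ) (i : ι) : Cl fun w (x : ι → ℤ → V) => RobJ c J w (x i) :=
  Cl.exZ J fun k => Cl.robAt c i k

omit [Fintype ι] in
lemma Kb_of {x : ι → ℤ → V} {y : V} {L : ℤ} (h : ∀ i, Bi w (x i)) (h0 : ∀ i, nrm (x i 0 - y) ≤ L) :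
    Kb y L x := fun i k => by
  have h1 := (h i).nrm_le 0 k
  have h2 := nrm_tri (x i k) (x i 0) y
  have h3 := h0 i
  rw [sub_zero] at h1
  omega

end ClA

lemma nrm_zeroE : nrm 0 = 0 := by simp [nrm]

/-- the `Near` condition on a pair of paths -/
def NearX (c : ℝ) (J D L : ℕ) (W : ℝ) (H : ℕ) (y : V) (w : Om) (x : Bool → ℤ → V) : Prop :=
  x true 0 = y ∧ nrm (x false 0 - y) ≤ L ∧ RobJ c J w (x true) ∧ Bi w (x false) ∧
  (∃ t : ℤ, |t| ≤ D ∧ ∀ s, x false s ≠ x true t) ∧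
  ∀ a b : ℤ, -(H : ℤ) ≤ a → a ≤ 0 → 0 ≤ b → b ≤ H →
    T w (x true a) (x true 0) + T w (x false 0) (x false b) - T w (x true 0) (x false 0) - W ≤
      T w (x true a) (x false b) ∧
    T w (x false a) (x false 0) + T w (x true 0) (x true b) - T w (x false 0) (x true 0) - W ≤
      T w (x false a) (x true b)

lemma cl_NearX (c : ℝ) (J D L : ℕ) (W : ℝ) (H : ℕ) (y : V) : Cl (NearX c J D L W H y) := by
  refine (Cl.pt true 0 (· = y)).and ((Cl.pt false 0 fun z => nrm (z - y) ≤ L).and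
    ((Cl.robJ c J true).and ((Cl.bi false).and ((Cl.exZ D fun t => Cl.ne true false t).and
      (Cl.forall fun a => Cl.forall fun b => Cl.imp _ (Cl.imp _ (Cl.imp _ (Cl.imp _ ?_))))))))
  refine Cl.base (max |a| |b|) (fun w x x' e h => ?_) fun x => ?_
  · have h0 : |(0 : ℤ)| ≤ max |a| |b| := le_max_of_le_left (by simp)
    rw [← e true a (le_max_left _ _), ← e false a (le_max_left _ _), ← e true b (le_max_right _ _),
      ← e false b (le_max_right _ _), ← e true 0 h0, ← e false 0 h0]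
    exact h
  · exact (measurableSet_le ((((measurable_T _ _).add (measurable_T _ _)).sub
      (measurable_T _ _)).sub_const W) (measurable_T _ _)).inter
      (measurableSet_le ((((measurable_T _ _).add (measurable_T _ _)).sub
        (measurable_T _ _)).sub_const W) (measurable_T _ _))

lemma near_iffE {J D L : ℕ} {W : ℝ} {H : ℕ} {y : V} :
    Near c J D L W H w y ↔ ∃ x, Kb y L x ∧ NearX c J D L W H y w x := by
  refine ⟨fun ⟨v, u, h⟩ => ⟨fun b => cond b v u, Kb_of (w := w) (fun i => ?_) fun i => ?_, h⟩,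
    fun ⟨x, _, h⟩ => ⟨x true, x false, h⟩⟩
  · cases i
    · exact h.2.2.2.1
    · exact h.2.2.1.rob.bi
  · cases i
    · exact h.2.1
    · simp only [cond_true, h.1, sub_self, nrm_zeroE]
      positivity

/-- the full `Near` configuration contradicts `propZ` -/
lemma near_false (hc : 0 < c) (h : Typ p w) {J D L : ℕ} {W : ℝ} {y : V}
    (hn : ∀ H, Near c J D L W H w y) : False := by
  obtain ⟨x, -, hx⟩ := Cl.compact (fun H => cl_NearX c J D L W H y) w
    (fun H x ⟨a1, a2, a3, a4, a5, a6⟩ => ⟨a1, a2, a3, a4, a5, fun a b b1 b2 b3 b4 =>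
      a6 a b (by push_cast; omega) b2 b3 (by push_cast; omega)⟩) y L fun H => near_iffE.1 (hn H)
  obtain ⟨-, -, a3, a4, ⟨t, -, ht⟩, -⟩ := hx 0
  have key := fun (a b : ℤ) (ha : a ≤ 0) (hb : 0 ≤ b) =>
    (hx (b - a).toNat).2.2.2.2.2 a b (by omega) ha hb (by omega)
  refine propZ hc h a3.rob a4 (fun e => ?_)
    ⟨⟨T w (x true 0) (x false 0) + W, fun a b ha hb => by linarith [(key a b ha hb).1]⟩,
      ⟨T w (x false 0) (x true 0) + W, fun a b ha hb => by linarith [(key a b ha hb).2]⟩⟩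
  obtain ⟨s, hs⟩ : x true t ∈ Set.range (x false) := e ▸ ⟨t, rfl⟩
  exact ht s hs

lemma measurableSet_Mem (c : ℝ) (J k D : ℕ) (y : V) : MeasurableSet {w | Mem c J k D w y} := by
  have h : Cl fun w (x : Fin k → ℤ → V) => (∀ i, x i 0 = y ∧ RobJ c J w (x i)) ∧
      ∀ i j, i ≠ j → ∃ t : ℤ, |t| ≤ D ∧ ∀ s, x j s ≠ x i t :=
    (Cl.forall fun i => (Cl.pt i 0 (· = y)).and (Cl.robJ c J i)).and
      (Cl.forall fun i => Cl.forall fun j => Cl.imp _ (Cl.exZ D fun t => Cl.ne i j t))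
  refine (h.measurable y 0).congr (Set.ext fun w => ⟨fun ⟨x, _, h⟩ => ⟨x, h⟩, fun ⟨x, h⟩ =>
    ⟨x, Kb_of (w := w) (fun i => (h.1 i).2.rob.bi) fun i => ?_, h⟩⟩)
  rw [(h.1 i).1, sub_self, nrm_zeroE]

lemma measurableSet_Near (c : ℝ) (J D L : ℕ) (W : ℝ) (H : ℕ) (y : V) :
    MeasurableSet {w | Near c J D L W H w y} :=
  ((cl_NearX c J D L W H y).measurable y L).congr (Set.ext fun _ => near_iffE.symm)

lemma measurableSet_Part (c : ℝ) (L : ℕ) (C : ℝ) (y : V) :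
    MeasurableSet {w | Part c L C w y} := by
  have h : ∀ k a b : ℤ, Cl fun w (x : Unit → ℤ → V) => RobAt c w (x ()) k ∧
      (∀ s, (L : ℤ) < nrm (x () s - y)) ∧ a ≤ 0 ∧ 0 ≤ b ∧
      T w (x () a) y + T w y (x () b) ≤ T w (x () a) (x () b) + C := fun k a b => by
    refine (Cl.robAt c () k).and ((Cl.forall fun s => Cl.pt () s fun z =>
      (L : ℤ) < nrm (z - y)).and ((Cl.const _).and ((Cl.const _).and ?_)))
    refine Cl.base (max |a| |b|) (fun w x x' e h => ?_) fun x => ?_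
    · rw [← e () a (le_max_left _ _), ← e () b (le_max_right _ _)]
      exact h
    · exact measurableSet_le ((measurable_T _ _).add (measurable_T _ _))
        ((measurable_T _ _).add_const C)
  refine (MeasurableSet.iUnion fun k => MeasurableSet.iUnion fun a => MeasurableSet.iUnion fun b =>
    MeasurableSet.iUnion fun R => (h k a b).measurable y R).congr (Set.ext fun w => ?_)
  simp only [Set.mem_iUnion, Set.mem_ofPred_eq]
  refine ⟨fun ⟨k, a, b, _, x, _, h1, h2, h3⟩ => ⟨x (), ⟨k, h1⟩, h2, a, b, h3⟩,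
    fun ⟨u, ⟨k, h1⟩, h2, a, b, h3⟩ => ⟨k, a, b, nrm (u 0 - y), fun _ => u,
      Kb_of (w := w) (fun _ => h1.1) fun _ => le_rfl, h1, h2, h3⟩⟩

lemma RobAt_tau (c : ℝ) (y : V) (w : Om) (v : ℤ → V) (k : ℤ) :
    RobAt c (tau y w) v k ↔ RobAt c w (fun t => v t + y) k := by
  simp only [RobAt, ed, update_tau, tau_edge, Bi_tau]

lemma ex_shiftE {ι : Type} (y : V) (x : ι → V) : ∃ x' : ι → V, x = fun t => x' t + y :=
  ⟨fun t => x t - y, by simp⟩

lemma Mem_tau (c : ℝ) (J k D : ℕ) (w : Om) (y : V) :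
    Mem c J k D (tau y w) 0 ↔ Mem c J k D w y := by
  constructor
  · rintro ⟨x, h⟩
    exact ⟨fun i t => x i t + y, by simpa [RobJ, RobAt_tau] using h⟩
  · rintro ⟨x, h⟩
    choose x' hx' using fun i => ex_shiftE y (x i)
    obtain rfl : x = fun i t => x' i t + y := funext hx'
    exact ⟨x', by simpa [RobJ, RobAt_tau] using h⟩

lemma Near_tau (c : ℝ) (J D L : ℕ) (W : ℝ) (H : ℕ) (w : Om) (y : V) :
    Near c J D L W H (tau y w) 0 ↔ Near c J D L W H w y := by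
  constructor
  · rintro ⟨v, u, h⟩
    exact ⟨fun t => v t + y, fun t => u t + y, by
      simpa [RobJ, RobAt_tau, Bi_tau, T_tau] using h⟩
  · rintro ⟨v, u, h⟩
    obtain ⟨v, rfl⟩ := ex_shiftE y v
    obtain ⟨u, rfl⟩ := ex_shiftE y u
    exact ⟨v, u, by simpa [RobJ, RobAt_tau, Bi_tau, T_tau] using h⟩

lemma Part_tau (c : ℝ) (L : ℕ) (C : ℝ) (w : Om) (y : V) :
    Part c L C (tau y w) 0 ↔ Part c L C w y := by
  constructor
  · rintro ⟨u, h⟩
    exact ⟨fun t => u t + y, by simpa [Rob, RobAt_tau, T_tau] using h⟩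
  · rintro ⟨u, h⟩
    obtain ⟨u, rfl⟩ := ex_shiftE y u
    exact ⟨u, by simpa [Rob, RobAt_tau, T_tau] using h⟩

end Vale.Agent.P158N
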