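import Vale.Agent.P158N.Basic

/-! Geodesics, betweenness, bigeodesics, Peierls property (deterministic consequences). -/

namespace Vale.Agent.P158N

open Finset

def Geo (w : Om) (v : ℤ → V) (i j : ℤ) : Prop :=
  i ≤ j ∧ Walk v i j ∧ cost w v i j = T w (v i) (v j)

def On (w : Om) (x z y : V) : Prop := T w x z + T w z y = T w x y

def Bi (w : Om) (v : ℤ → V) : Prop := ∀ i j, i ≤ j → Geo w v i j

/-- positive weights, geodesics exist and are unique, balls are finite -/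
structure Nice (w : Om) : Prop where
  pos : ∀ e, 0 < w e
  ex : ∀ x y, ∃ (v : ℤ → V) (m : ℤ), v 0 = x ∧ v m = y ∧ Geo w v 0 m
  uniq : ∀ (v : ℤ → V) (i j : ℤ) (z : V), Geo w v i j → On w (v i) z (v j) →
    ∃ k, i ≤ k ∧ k ≤ j ∧ v k = z
  fin : ∀ (x : V) (K : ℝ), {z | T w x z ≤ K}.Finite

open Classical in
/-- Peierls property: on simple paths from `z` with at least `l` steps, at least half of the
edges (read through `f`) have weight in `S` -/
def PeG (f : V → V → E) (S : Set ℝ) (w : Om) (z : V) (l : ℕ) : Prop :=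
  ∀ (v : ℤ → V) (m : ℤ), v 0 = z → (l : ℤ) ≤ m → Walk v 0 m → Set.InjOn v (Set.Icc 0 m) →
    m ≤ 2 * (((Ico 0 m).filter fun k => w (f (v k) (v (k + 1))) ∈ S).card : ℤ)

def Pe (S : Set ℝ) (w : Om) (z : V) (l : ℕ) : Prop := PeG edge S w z l

variable {w w1 w2 : Om} {v u : ℤ → V} {i j k l i' j' : ℤ} {x y z z' : V}

lemma Nice.nn (h : Nice w) : NN w := fun e => (h.pos e).le

lemma Geo.sub (hw : NN w) (h : Geo w v i j) (h1 : i ≤ k) (h2 : k ≤ l) (h3 : l ≤ j) :
    Geo w v k l := by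
  obtain ⟨a, b, c⟩ := h
  refine ⟨h2, b.mono h1 h3, le_antisymm ?_ (T_le_cost hw h2 (b.mono h1 h3))⟩
  have e1 := cost_add w v h1 (h2.trans h3)
  have e2 := cost_add w v h2 h3
  have t1 := T_le_cost hw h1 (b.mono le_rfl (h2.trans h3))
  have t2 := T_le_cost hw h3 (b.mono (h1.trans h2) le_rfl)
  have := T_tri hw (v i) (v k) (v j)
  have := T_tri hw (v k) (v l) (v j)
  linarith
lemma Geo.cost_eq (hw : NN w) (h : Geo w v i j) (h1 : i ≤ k) (h2 : k ≤ l) (h3 : l ≤ j) :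
    cost w v k l = T w (v k) (v l) := (h.sub hw h1 h2 h3).2.2
lemma Geo.on (hw : NN w) (h : Geo w v i j) {a b c : ℤ} (h1 : i ≤ a) (h2 : a ≤ b) (h3 : b ≤ c)
    (h4 : c ≤ j) : On w (v a) (v b) (v c) := by
  unfold On
  rw [← h.cost_eq hw h1 h2 (h3.trans h4), ← h.cost_eq hw (h1.trans h2) h3 h4,
    ← h.cost_eq hw h1 (h2.trans h3) h4, cost_add w v h2 h3]
lemma cost_pos (hw : ∀ e, 0 < w e) (v : ℤ → V) (h : k < l) : 0 < cost w v k l :=
  sum_pos (fun _ _ => hw _) ⟨k, mem_Ico.2 ⟨le_rfl, h⟩⟩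

lemma Geo.injOn (hw : ∀ e, 0 < w e) (h : Geo w v i j) : Set.InjOn v (Set.Icc i j) := by
  have hn : NN w := fun e => (hw e).le
  have key : ∀ k l, i ≤ k → k < l → l ≤ j → v k ≠ v l := fun k l a b c e => by
    have h1 := h.cost_eq hn a b.le c
    rw [e, T_self hn] at h1
    exact (cost_pos hw v b).ne' h1
  rintro k ⟨a, b⟩ l ⟨c, d⟩ e
  rcases lt_trichotomy k l with f | f | f
  exacts [(key k l a f d e).elim, f, (key l k c f b e.symm).elim]
lemma Geo.sh (h : Geo w v (i + k) (j + k)) : Geo w (sh v k) i j := ⟨by have := h.1; omega, h.2.1.sh, by rw [cost_sh]; exact h.2.2⟩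
lemma Geo.rev (h : Geo w v (-j) (-i)) : Geo w (rev v) i j := ⟨by have := h.1; omega, h.2.1.rev, by rw [cost_rev, T_symm]; exact h.2.2⟩
/-- the passage time from the start is strictly increasing along a geodesic -/
lemma Geo.T_lt (hw : ∀ e, 0 < w e) (h : Geo w v i j) (h1 : i ≤ k) (h2 : k < l) (h3 : l ≤ j) :
    T w (v i) (v k) < T w (v i) (v l) := by
  have hn : NN w := fun e => (hw e).le
  rw [← h.cost_eq hn le_rfl h1 (by omega), ← h.cost_eq hn le_rfl (by omega) h3,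
    ← cost_add w v h1 h2.le]
  linarith [cost_pos hw v h2]
/-- (L1) lowering edges of a geodesic keeps it a geodesic -/
lemma Geo.lower (hw1 : NN w1) (hw2 : NN w2) (h : Geo w2 v i j) (hi : Set.InjOn v (Set.Icc i j))
    (F : Finset E) (h1 : ∀ e, e ∉ F → w1 e = w2 e) (h2 : ∀ e ∈ F, w1 e ≤ w2 e)
    (hF : ∀ e ∈ F, ∃ k, i ≤ k ∧ k < j ∧ ed v k = e) : Geo w1 v i j := by
  refine ⟨h.1, h.2.1, le_antisymm ?_ (T_le_cost hw1 h.1 h.2.1)⟩
  rw [cost_lower h.2.1 hi F h1 hF, h.2.2]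
  exact T_lower hw1 hw2 F (fun e he => (h1 e he).ge) h2 _ _

lemma On.symm (h : On w x z y) : On w y z x := by
  unfold On at *; rw [T_symm w y z, T_symm w z x, T_symm w y x]; linarith
lemma on_left (hw : NN w) (x y : V) : On w x x y := by simp [On, T_self hw]
lemma on_right (hw : NN w) (x y : V) : On w x y y := by simp [On, T_self hw]
/-- x .. z' .. z .. y -/
lemma On.left (hw : NN w) (h : On w x z y) (h' : On w x z' z) : On w x z' y ∧ On w z' z y := by
  unfold On at *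
  have := T_tri hw z' z y
  have := T_tri hw x z' y
  constructor <;> linarith
/-- x .. z .. z' .. y -/
lemma On.right (hw : NN w) (h : On w x z y) (h' : On w z z' y) : On w x z' y ∧ On w x z z' := by
  unfold On at *
  have := T_tri hw x z z'
  have := T_tri hw x z' y
  constructor <;> linarith
lemma Nice.T_pos (hw : Nice w) (h : x ≠ y) : 0 < T w x y := by
  obtain ⟨v, m, rfl, rfl, hg⟩ := hw.ex x y
  rw [← hg.2.2]
  exact cost_pos hw.pos v (hg.1.lt_of_ne fun e => h (by rw [e]))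
lemma On.antisymm (hw : Nice w) (h : On w x z z') (h' : On w x z' z) : z = z' := by
  by_contra hc
  have := hw.T_pos hc
  have := hw.T_pos (Ne.symm hc)
  unfold On at *
  linarith
lemma On.total (hw : Nice w) (h : On w x z y) (h' : On w x z' y) :
    On w x z z' ∨ On w x z' z := by
  obtain ⟨v, m, rfl, rfl, hg⟩ := hw.ex x y
  obtain ⟨k, a, b, rfl⟩ := hw.uniq v 0 m z hg h
  obtain ⟨l, c, d, rfl⟩ := hw.uniq v 0 m z' hg h'
  rcases le_total k l with e | e
  exacts [Or.inl (hg.on hw.nn le_rfl a e d), Or.inr (hg.on hw.nn le_rfl c e b)]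
lemma On.exists_geo (hw : Nice w) (h : On w x z y) : ∃ (v : ℤ → V) (i j : ℤ), i ≤ 0 ∧ 0 ≤ j ∧
    v i = x ∧ v 0 = z ∧ v j = y ∧ Geo w v i j := by
  obtain ⟨v, m, rfl, rfl, hg⟩ := hw.ex x y
  obtain ⟨k, a, b, rfl⟩ := hw.uniq v 0 m z hg h
  exact ⟨sh v k, -k, m - k, by omega, by omega, by simp [sh], by simp [sh], by simp [sh],
    Geo.sh (by simpa using hg)⟩
lemma Geo.le_of_T (hw : ∀ e, 0 < w e) (h : Geo w v i j) (h1 : i ≤ l) (h3 : k ≤ j)
    (ht : T w (v i) (v k) ≤ T w (v i) (v l)) : k ≤ l := by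
  by_contra hc
  exact absurd (h.T_lt hw h1 (not_le.1 hc) h3) (not_lt.2 ht)

lemma Geo.eq_aux (hw : Nice w) (h : Geo w v i j) (h' : Geo w u i' j') (h1 : v i = u i')
    (h2 : v j = u j') {t : ℤ} (ht : 0 ≤ t) (a : i + t ≤ j) (b : i' + t ≤ j') :
    v (i + t) = u (i' + t) := by
  induction t, ht using Int.le_induction with
  | base => simpa using h1
  | succ t ht ih =>
    have e := ih (by omega) (by omega)
    obtain ⟨k, k1, k2, k3⟩ := hw.uniq v i j (u (i' + (t + 1))) h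
      (h1 ▸ h2 ▸ h'.on hw.nn le_rfl (by omega) b le_rfl)
    obtain ⟨l, l1, l2, l3⟩ := hw.uniq u i' j' (v (i + (t + 1))) h'
      (h1 ▸ h2 ▸ h.on hw.nn le_rfl (by omega) a le_rfl)
    have c1 := h'.T_lt hw.pos (k := i' + t) (l := i' + (t + 1)) (by omega) (by omega) b
    have c2 := h.T_lt hw.pos (k := i + t) (l := i + (t + 1)) (by omega) (by omega) a
    have k4 : i + t < k := by
      by_contra hc
      rcases (not_lt.1 hc).eq_or_lt with f | f
      · rw [← k3, f, ← e] at c1; exact lt_irrefl _ c1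
      · have := h.T_lt hw.pos k1 f (by omega); rw [k3, e, h1] at this; linarith
    have l4 : i' + t < l := by
      by_contra hc
      rcases (not_lt.1 hc).eq_or_lt with f | f
      · rw [← l3, f, e] at c2; exact lt_irrefl _ c2
      · have := h'.T_lt hw.pos l1 f (by omega); rw [l3, ← e, ← h1] at this; linarith
    have k5 : k ≤ i + (t + 1) := by
      refine h.le_of_T hw.pos (by omega) k2 ?_
      rw [k3, ← l3, h1]
      rcases (show i' + (t + 1) ≤ l by omega).eq_or_lt with f | f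
      · rw [f]
      · exact (h'.T_lt hw.pos (by omega) f l2).le
    rw [← k3]; congr 1; omega

/-- (U) geodesics with the same endpoints coincide -/
lemma Geo.eq (hw : Nice w) (h : Geo w v i j) (h' : Geo w u i' j') (h1 : v i = u i')
    (h2 : v j = u j') : j - i = j' - i' ∧ ∀ t, 0 ≤ t → t ≤ j - i → v (i + t) = u (i' + t) := by
  have a := h.1
  have b := h'.1
  have e : j - i = j' - i' := by
    rcases le_total (j - i) (j' - i') with c | c
    · have := h.eq_aux hw h' h1 h2 (t := j - i) (by omega) (by omega) (by omega)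
      rw [add_sub_cancel, h2] at this
      have := h'.injOn hw.pos ⟨b, le_rfl⟩ ⟨by omega, by omega⟩ this
      omega
    · have := h.eq_aux hw h' h1 h2 (t := j' - i') (by omega) (by omega) (by omega)
      rw [add_sub_cancel, ← h2] at this
      have := h.injOn hw.pos ⟨by omega, by omega⟩ ⟨a, le_rfl⟩ this
      omega
  exact ⟨e, fun t c d => h.eq_aux hw h' h1 h2 c (by omega) (by omega)⟩

/-- last modified edge on a geodesic of `w1` -/
lemma last_edge (hw1 : Nice w1) (hw2 : NN w2) (F : Finset E) (h : ∀ e, e ∉ F → w2 e ≤ w1 e)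
    (x y : V) : T w2 x y ≤ T w1 x y ∨
      ∃ e ∈ F, ∃ p, End e p ∧ On w1 x p y ∧ T w2 p y ≤ T w1 p y := by
  obtain ⟨v, m, rfl, rfl, hg⟩ := hw1.ex x y
  by_cases hc : ∃ k, 0 ≤ k ∧ k < m ∧ ed v k ∈ F
  · obtain ⟨k, ⟨k1, k2, k3⟩, hk⟩ := Int.exists_greatest_of_bdd
      (P := fun k => 0 ≤ k ∧ k < m ∧ ed v k ∈ F) ⟨m, fun _ h => h.2.1.le⟩ hc
    refine Or.inr ⟨_, k3, v (k + 1), (hg.2.1.end_ed k1 k2).2 (Or.inr rfl),
      hg.on hw1.nn le_rfl (by omega) (by omega) le_rfl, ?_⟩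
    rw [← hg.cost_eq hw1.nn (by omega) (by omega) le_rfl]
    refine (T_le_cost hw2 (by omega) (hg.2.1.mono (by omega) le_rfl)).trans
      (cost_le fun t a b => h _ fun c => ?_)
    have := hk t ⟨by omega, b, c⟩
    omega
  · push Not at hc
    refine Or.inl ?_
    rw [← hg.2.2]
    exact (T_le_cost hw2 hg.1 hg.2.1).trans (cost_le fun t a b => h _ (hc t a b))

lemma Bi.walk (h : Bi w v) (i j : ℤ) : Walk v i j := fun k _ _ => (h k (k + 1) (by omega)).2.1 k le_rfl (by omega)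
lemma Bi.cost (h : Bi w v) (hij : i ≤ j) : cost w v i j = T w (v i) (v j) := (h i j hij).2.2
lemma Bi.on (hw : NN w) (h : Bi w v) {a b c : ℤ} (h2 : a ≤ b) (h3 : b ≤ c) :
    On w (v a) (v b) (v c) := (h a c (h2.trans h3)).on hw le_rfl h2 h3 le_rfl
lemma Bi.sh (h : Bi w v) (k : ℤ) : Bi w (sh v k) := fun i j hij => Geo.sh (h _ _ (by omega))
lemma Bi.rev (h : Bi w v) : Bi w (rev v) := fun i j hij => Geo.rev (h _ _ (by omega))
lemma Bi.inj (hw : ∀ e, 0 < w e) (h : Bi w v) : Function.Injective v := fun k l e =>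
  (h (min k l) (max k l) min_le_max).injOn hw ⟨min_le_left _ _, le_max_left _ _⟩
    ⟨min_le_right _ _, le_max_right _ _⟩ e
lemma Bi.nrm_le (h : Bi w v) (k l : ℤ) : nrm (v l - v k) ≤ |l - k| := (h.walk (min k l) (max k l)).nrm_le' (min_le_left _ _) (le_max_left _ _) (min_le_right _ _)
    (le_max_right _ _)
lemma escape_fin (hv : Function.Injective v) {A : Set V} (hA : A.Finite) :
    ∃ k0 : ℤ, 0 ≤ k0 ∧ ∀ k, k0 ≤ |k| → v k ∉ A := by
  obtain ⟨M, hM⟩ := ((hA.preimage hv.injOn).image abs).bddAbove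
  refine ⟨max 0 (M + 1), le_max_left _ _, fun k hk hc => ?_⟩
  have := hM ⟨k, hc, rfl⟩
  omega

/-- an injective sequence leaves every box -/
lemma escape (hv : Function.Injective v) (y : V) (N : ℤ) :
    ∃ k0 : ℤ, 0 ≤ k0 ∧ ∀ k, k0 ≤ |k| → N < nrm (v k - y) := by
  obtain ⟨k0, a, b⟩ := escape_fin hv (finite_nrm y N)
  exact ⟨k0, a, fun k hk => not_le.1 (b k hk)⟩
/-- passage times along a bigeodesic tend to infinity -/
lemma Bi.T_large (hw : Nice w) (h : Bi w v) (y : V) (K : ℝ) :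
    ∃ k0 : ℤ, 0 ≤ k0 ∧ ∀ k, k0 ≤ |k| → K < T w y (v k) := by
  obtain ⟨k0, a, b⟩ := escape_fin (h.inj hw.pos) (hw.fin y K)
  exact ⟨k0, a, fun k hk => not_le.1 (b k hk)⟩
lemma Bi.lower (hw1 : NN w1) (hw2 : ∀ e, 0 < w2 e) (h : Bi w2 v)
    (F : Finset E) (h1 : ∀ e, e ∉ F → w1 e = w2 e) (h2 : ∀ e ∈ F, w1 e ≤ w2 e)
    (hF : ∀ e ∈ F, ∃ k, ed v k = e) : Bi w1 v := by
  choose! f hf using hF
  obtain ⟨M, hM⟩ := (F.finite_toSet.image fun e => |f e|).bddAbove
  intro i j hij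
  refine ((h (min i (-M)) (max j (M + 1)) (by omega)).lower hw1 (fun e => (hw2 e).le)
    (h.inj hw2).injOn F h1 h2 fun e he => ⟨f e, ?_, ?_, hf e he⟩).sub hw1 (by omega) hij
    (by omega) <;>
  · have := abs_le.1 (hM ⟨e, he, rfl⟩)
    omega
lemma Bi.eq_fwd (hw : Nice w) (h : Bi w v) (h' : Bi w u) (hr : Set.range v ⊆ Set.range u)
    (h0 : v 0 = u 0) (h1 : v 1 ≠ u (-1)) (hk : 0 ≤ k) : v k = u k := by
  obtain ⟨t, ht⟩ := hr ⟨k, rfl⟩
  rcases le_total 0 t with c | c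
  · obtain ⟨a, b⟩ := (h 0 k hk).eq hw (h' 0 t c) h0 ht.symm
    rw [← ht]; congr 1; omega
  · obtain ⟨a, b⟩ := (h 0 k hk).eq hw (h'.rev 0 (-t) (by omega)) h0
      (by simp [P158N.rev, ht])
    rcases hk.eq_or_lt with rfl | hk
    · exact h0
    · exact (h1 (by simpa [P158N.rev] using b 1 (by omega) (by omega))).elim

lemma Bi.eq_of_one (hw : Nice w) (h : Bi w v) (h' : Bi w u) (hr : Set.range v ⊆ Set.range u)
    (h0 : v 0 = u 0) (h1 : v 1 = u 1) : v = u := by
  funext k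
  rcases le_total 0 k with c | c
  · refine h.eq_fwd hw h' hr h0 (fun e => ?_) c
    have := h'.inj hw.pos (h1.symm.trans e)
    omega
  · have := h.rev.eq_fwd hw h'.rev (by simpa using hr) (by simpa [P158N.rev] using h0)
      (fun e => ?_) (k := -k) (by omega)
    · simpa [P158N.rev] using this
    · simp only [P158N.rev, neg_neg] at e
      have := h.inj hw.pos (e.trans h1.symm)
      omega

/-- two bigeodesics with the same range and the same base point -/
lemma Bi.eq_or_rev (hw : Nice w) (h : Bi w v) (h' : Bi w u) (hr : Set.range v ⊆ Set.range u)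
    (h0 : v 0 = u 0) : v = u ∨ v = P158N.rev u := by
  by_cases c : v 1 = u (-1)
  · exact Or.inr (h.eq_of_one hw h'.rev (by simpa using hr) (by simpa [P158N.rev] using h0) c)
  · exact Or.inl (h.eq_of_one hw h' hr h0 (h.eq_fwd hw h' hr h0 c (by omega)))
lemma Bi.range_eq (hw : Nice w) (h : Bi w v) (h' : Bi w u) (hr : Set.range v ⊆ Set.range u) :
    Set.range v = Set.range u := by
  obtain ⟨k, hk⟩ := hr ⟨0, rfl⟩
  rcases h.eq_or_rev hw (h'.sh k) (by simpa using hr) (by simp [P158N.sh, hk]) with e | e <;>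
    simp [e]
/-- limits of geodesics through a fixed point with both ends going to infinity -/
lemma exists_bi_limit (hw : Nice w) (p : V) (a b : ℕ → V) (h : ∀ n, On w (a n) p (b n))
    (ha : ∀ n : ℕ, (n : ℤ) ≤ nrm (a n - p)) (hb : ∀ n : ℕ, (n : ℤ) ≤ nrm (b n - p)) :
    ∃ β : ℤ → V, Bi w β ∧ β 0 = p ∧ ∀ m : ℤ, 0 ≤ m → ∀ n0 : ℕ, ∃ n, n0 ≤ n ∧
      On w (a n) p (β m) := by
  choose g i j g1 g2 g3 g4 g5 g6 using fun n => (h n).exists_geo hw
  have hi : ∀ n : ℕ, i n ≤ -n := fun n => by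
    have := (g6 n).2.1.nrm_le le_rfl (g1 n) (g2 n)
    rw [g3, g4, nrm_comm] at this
    have := ha n
    omega
  have hj : ∀ n : ℕ, (n : ℤ) ≤ j n := fun n => by
    have := (g6 n).2.1.nrm_le (g1 n) (g2 n) le_rfl
    rw [g5, g4] at this
    have := hb n
    omega
  set U : Ultrafilter ℕ := Filter.hyperfilter ℕ
  have hU : ∀ N : ℕ, ∀ᶠ n in (U : Filter ℕ), N ≤ n := fun N =>
    Nat.hyperfilter_le_atTop (Filter.eventually_ge_atTop N)
  have key : ∀ k : ℤ, ∃ x, ∀ᶠ n in (U : Filter ℕ), g n k = x := fun k => by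
    have : ∀ᶠ n in (U : Filter ℕ), ∃ x ∈ {x | nrm (x - p) ≤ |k|}, g n k = x := by
      filter_upwards [hU k.natAbs] with n hn
      have a := hi n
      have b := hj n
      have := (g6 n).2.1.nrm_le' (g1 n) (g2 n) (l := k) (by omega) (by omega)
      exact ⟨_, by simpa [g4] using this, rfl⟩
    obtain ⟨x, -, hx⟩ := (Ultrafilter.eventually_exists_mem_iff (finite_nrm p |k|)).1 this
    exact ⟨x, hx⟩
  choose β hβ using key
  refine ⟨β, fun s t hst => ?_, ?_, fun m hm n0 => ?_⟩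
  · obtain ⟨n, ⟨h1, h2⟩, h3⟩ := (((hU s.natAbs).and (hU t.natAbs)).and
      ((Filter.eventually_all_finset (Icc s t)).2 fun k _ => hβ k)).exists
    have h4 : ∀ k, s ≤ k → k ≤ t → g n k = β k := fun k a b => h3 k (mem_Icc.2 ⟨a, b⟩)
    have a := hi n
    have b := hj n
    obtain ⟨-, c, d⟩ := (g6 n).sub hw.nn (k := s) (l := t) (by omega) hst (by omega)
    refine ⟨hst, fun k e f => ?_, ?_⟩
    · rw [← h4 k e f.le, ← h4 (k + 1) (by omega) (by omega)]; exact c k e f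
    · rw [← cost_congr' h4, d, h4 s le_rfl hst, h4 t hst le_rfl]
  · obtain ⟨n, hn⟩ := (hβ 0).exists
    rw [← hn, g4]
  · obtain ⟨n, ⟨h1, h2⟩, h3⟩ := (((hU n0).and (hU m.natAbs)).and (hβ m)).exists
    have b := hj n
    refine ⟨n, h1, ?_⟩
    rw [← h3, ← g3, ← g4 n]
    exact (g6 n).on hw.nn le_rfl (g1 n) hm (by omega)

variable {S : Set ℝ} {n : ℕ}

lemma PeG.mono {f : V → V → E} {n' : ℕ} (h : PeG f S w z n) (hn : n ≤ n') : PeG f S w z n' := fun v m a b => h v m a (by omega)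
lemma Pe.mono {n' : ℕ} (h : Pe S w z n) (hn : n ≤ n') : Pe S w z n' := PeG.mono h hn
/-- forward form: many `S`-edges among the indices in `[k, l)` -/
lemma Pe.pick (h : Pe S w z n) (hz : v i = z) (hk : i ≤ k) (hkl : k ≤ l) (hn : i + n ≤ l)
    (hv : Walk v i l) (hi : Set.InjOn v (Set.Icc i l)) :
    ∃ A : Finset ℤ, (∀ t ∈ A, k ≤ t ∧ t < l ∧ w (ed v t) ∈ S) ∧
      l - i - 2 * (k - i) ≤ 2 * (A.card : ℤ) := by
  classical
  have h1 := h (sh v i) (l - i) (by simp [sh, hz]) (by omega) (Walk.sh (by simpa using hv))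
    (by
      rintro s ⟨a, b⟩ t ⟨c, d⟩ e
      have := hi (x₁ := s + i) (x₂ := t + i) ⟨by omega, by omega⟩ ⟨by omega, by omega⟩ e
      omega)
  refine ⟨(Ico k l).filter fun t => w (ed v t) ∈ S, fun t ht => ?_, ?_⟩
  · simp only [mem_filter, mem_Ico] at ht; tauto
  · have h2 : ((Ico 0 (l - i)).filter fun t => w (edge (sh v i t) (sh v i (t + 1))) ∈ S).card ≤
        (Ico i k ∪ (Ico k l).filter fun t => w (ed v t) ∈ S).card := by
      refine card_le_card_of_injOn (· + i) (fun t ht => ?_) fun s _ t _ e => by simpa using e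
      simp only [coe_filter, mem_Ico, Set.mem_setOf_eq, coe_union, coe_Ico, Set.mem_union,
        Set.mem_Ico] at ht ⊢
      by_cases c : t + i < k
      · exact Or.inl ⟨by omega, c⟩
      · exact Or.inr ⟨⟨by omega, by omega⟩, by rw [← ed_sh]; exact ht.2⟩
    have h3 := h2.trans (card_union_le _ _)
    rw [Int.card_Ico] at h3
    have h4 : ((Ico 0 (l - i)).filter fun t => w (edge (sh v i t) (sh v i (t + 1))) ∈ S).card =
      (@filter _ (fun t => w (edge (sh v i t) (sh v i (t + 1))) ∈ S)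
        (fun _ => Classical.propDecidable _) (Ico 0 (l - i))).card := by congr
    omega
/-- backward form: the path is read backwards from `v i = z` -/
lemma Pe.pick' (h : Pe S w z n) (hz : v i = z) (hk : k ≤ i) (hkl : l ≤ k) (hn : l + n ≤ i)
    (hv : Walk v l i) (hi : Set.InjOn v (Set.Icc l i)) :
    ∃ A : Finset ℤ, (∀ t ∈ A, l ≤ t ∧ t < k ∧ w (ed v t) ∈ S) ∧
      i - l - 2 * (i - k) ≤ 2 * (A.card : ℤ) := by
  obtain ⟨A, h1, h2⟩ := h.pick (v := rev v) (i := -i) (k := -k) (l := -l) (by simp [rev, hz])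
    (by omega) (by omega) (by omega) (Walk.rev (by simpa using hv)) (by
      rintro s ⟨a, b⟩ t ⟨c, d⟩ e
      have := hi (x₁ := -s) (x₂ := -t) ⟨by omega, by omega⟩ ⟨by omega, by omega⟩ e
      omega)
  refine ⟨A.image fun t => -t - 1, fun t ht => ?_, ?_⟩
  · obtain ⟨s, hs, rfl⟩ := mem_image.1 ht
    obtain ⟨a, b, c⟩ := h1 s hs
    exact ⟨by omega, by omega, by rwa [ed_rev] at c⟩
  · rw [card_image_of_injective _ fun s t e => by simpa using e]
    omega
lemma Pe.cost {b : ℝ} (hw : NN w) (hb : 0 ≤ b) (h : Pe (Set.Ici b) w z n) (hz : v i = z)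
    (hn : i + n ≤ j) (hv : Walk v i j) (hi : Set.InjOn v (Set.Icc i j)) :
    b * (j - i) / 2 ≤ P158N.cost w v i j := by
  obtain ⟨A, h1, h2⟩ := h.pick hz le_rfl (by omega) hn hv hi
  have h3 : (A.card : ℝ) * b ≤ ∑ t ∈ A, w (ed v t) := by
    simpa using card_nsmul_le_sum A _ b fun t ht => (h1 t ht).2.2
  have h4 : ∑ t ∈ A, w (ed v t) ≤ P158N.cost w v i j :=
    sum_le_sum_of_subset_of_nonneg (fun t ht => mem_Ico.2 ⟨(h1 t ht).1, (h1 t ht).2.1⟩)
      fun _ _ _ => hw _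
  have h5 : (j : ℝ) - i ≤ 2 * A.card := by
    have : j - i ≤ 2 * (A.card : ℤ) := by omega
    exact_mod_cast this
  nlinarith
lemma Pe.T_ge {b : ℝ} (hw : NN w) (hb : 0 ≤ b) (h : Pe (Set.Ici b) w z n)
    (hn : (n : ℤ) ≤ nrm (x - z)) : b * (nrm (x - z)) / 2 ≤ T w z x := by
  refine le_of_forall_pos_le_add fun ε hε => ?_
  obtain ⟨p, m, a, rfl, rfl, c, d, e⟩ := T_approx hw z x hε
  have h1 := c.nrm_le le_rfl a le_rfl
  have h2 := h.cost hw hb rfl (by omega) c d
  have h3 : ((nrm (p m - p 0) : ℤ) : ℝ) ≤ (m : ℝ) := by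
    rw [sub_zero] at h1; exact_mod_cast h1
  have := mul_le_mul_of_nonneg_left h3 hb
  rw [Int.cast_zero, sub_zero] at h2
  linarith

end Vale.Agent.P158N
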