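import Vale.Agent.P158N.LemTb

/-! Lemma T: almost surely no vertex is a branch point at all scales. -/

namespace Vale.Agent.P158N

open MeasureTheory Finset Filter LTx
open scoped ENNReal Classical Topology

variable {G : Measure ℝ} [IsProbabilityMeasure G]

lemma measurableSet_ApS (n : ℕ) (a q : V) : MeasurableSet {w | ApS n a w q} := by
  simp only [ApS, Set.ofPred_exists, Set.ofPred_and]
  exact MeasurableSet.iUnion fun b => (MeasurableSet.const _).inter
    (MeasurableSet.iUnion fun b' => (MeasurableSet.const _).inter (measurableSet_Apx _ _ _ _))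

/-- `section_le` with `A' = {On a (src e) b}`, `W = Icc 0 p.a` -/
lemma P_Tiny (p : Par G) {η : ℝ} {c : ℝ≥0∞} (hη : 0 < η) (hc : ∀ x, G (Set.Icc x (x + η)) ≤ c)
    (a b : V) (e : E) :
    G (Set.Icc 0 p.a) * P G {w | Tiny p.b η a b e w} ≤ c * P G {w | On w a (src e) b} := by
  have hb := p.ha.trans p.hab
  refine section_le _ _ (measurableSet_Tiny _ _ _ _ _) (measurableSet_On _ _ _) e _ c
    (fun w hw => ?_) fun w hw t ht => ?_
  · have key : ∀ s t, Tiny p.b η a b e (Function.update w e s) →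
        Tiny p.b η a b e (Function.update w e t) → t - η ≤ s := by
      intro s t hs ht
      by_contra hlt
      obtain ⟨-, a1, -, a2⟩ := hs
      obtain ⟨-, -, a3, -⟩ := ht
      simp only [Function.update_self, Function.update_idem] at a1 a2 a3
      have h1 := low hw.1 e (hb.le.trans a1) (t := t) (by linarith) a3
      have h2 := (T_upd hw.1 e (s := s + η) (t := t) (by linarith) (by linarith) a b).2
      have h3 := T_tri (nn_upd hw.1 e (hb.le.trans a1)) a (src e) b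
      linarith
    refine le_trans (measure_mono fun t ht => ?_)
      (hc (sInf {t | Tiny p.b η a b e (Function.update w e t)}))
    refine ⟨csInf_le ⟨t - η, fun s hs => key s t hs ht⟩ ht, ?_⟩
    have := le_csInf (s := {t | Tiny p.b η a b e (Function.update w e t)}) ⟨t, ht⟩
      fun s hs => key s t hs ht
    linarith
  · obtain ⟨a0, a1, a2, -⟩ := hw
    have h0 : t ≤ w e := ht.2.trans (p.hab.le.trans a1)
    have h1 := low a0 e ht.1 h0 (a := a) (b := b) (by simpa only [Function.update_eq_self] using a2)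
    have h2 := (T_upd a0 e ht.1 h0 a b).2
    have h3 := T_tri (nn_upd a0 e ht.1) a (src e) b
    exact le_antisymm (by linarith) h3

lemma P_Up [NullSingletonClass G] (h0 : G (Set.Iio 0) = 0) (r : ℕ) {δ : ℝ≥0∞} (hδ : 0 < δ) :
    ∃ K : ℝ, 1 ≤ K ∧ ∀ z, P G {w | ¬ Up r K w z} ≤ δ := by
  have _ := h0
  have hm : ∀ K : ℕ, MeasurableSet {w | ¬ Up r (K + 1) w 0} := fun K => by
    refine MeasurableSet.compl (s := {w | Up r (K + 1) w 0}) ?_
    simp only [Up, Set.ofPred_forall]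
    exact MeasurableSet.iInter fun x => MeasurableSet.iInter fun _ =>
      measurableSet_le (measurable_T _ _) measurable_const
  have h1 := tendsto_measure_iInter_atTop (μ := P G) (fun K => (hm K).nullMeasurableSet)
    (fun K K' hK w hw h => hw fun x hx => (h x hx).trans (by
      have : (K : ℝ) ≤ K' := by exact_mod_cast hK
      linarith)) ⟨0, measure_ne_top _ _⟩
  have e : ⋂ K : ℕ, {w | ¬ Up r (K + 1) w 0} = ∅ := by
    refine Set.eq_empty_of_forall_notMem fun w hw => ?_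
    obtain ⟨K, hK⟩ := exists_nat_ge (∑ x ∈ ball 0 r, |T w 0 x|)
    refine Set.mem_iInter.1 hw K fun x hx => ?_
    have := single_le_sum (f := fun x => |T w 0 x|) (fun _ _ => abs_nonneg _) (mem_ball.2 hx)
    linarith [le_abs_self (T w 0 x)]
  rw [e, measure_empty] at h1
  obtain ⟨K, hK⟩ := (h1.eventually (ge_mem_nhds hδ)).exists
  refine ⟨K + 1, by simp, fun z => le_trans (measure_mono fun w hw => ?_)
    ((P_tau z {w | ¬ Up r (K + 1) w 0}).trans_le hK)⟩
  intro h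
  refine hw fun x hx => ?_
  have := h (x - z) (by rwa [sub_zero])
  rwa [T_tau, zero_add, sub_add_cancel] at this

variable [NullSingletonClass G]

namespace LTx

lemma sum_ApS (h0 : G (Set.Iio 0) = 0) {n : ℕ} (hn : 1 ≤ n) (a : V) :
    ∑ q ∈ ball 0 (4 * n : ℕ), P G {w | ApS n a w q} ≤ (72 * n : ℕ) := by
  have h := count_le (G := G) (ball 0 (4 * n : ℕ)) ∅ (fun q => {w | ApS n a w q}) (fun _ => ∅)
    (measurableSet_ApS n a) 1 (72 * n : ℕ) ?_
  · simpa using h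
  filter_upwards [ae_nice h0] with w hw
  rw [one_mul]
  refine le_trans (Nat.cast_le.2 ((tree hw a (sph (9 * n)) _ fun q hq => ?_).trans (card_sph hn)))
    le_self_add
  obtain ⟨h1, b, hb, b', hb', h2⟩ := mem_filter.1 hq
  have h3 := mem_ball0.1 h1
  have h4 := nrm_sph hb
  have h5 := nrm_sph hb'
  push_cast at h3 h4 h5
  exact ⟨b, hb, b', hb', fun e => by subst e; omega, fun e => by subst e; omega, h2⟩

/-- the points with a barely used heavy edge nearby -/
lemma sum_Tiny (h0 : G (Set.Iio 0) = 0) (p : Par G) (r : ℕ) {δ : ℝ≥0∞} (hδ : 0 < δ) :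
    ∃ η : ℝ, 0 < η ∧ η ≤ 1 ∧ ∀ n : ℕ, 1 ≤ n → r ≤ n → ∀ a ∈ sph (9 * n),
      ∑ z ∈ ball 0 (3 * n), P G {w | ∃ b ∈ sph (9 * n), ∃ e : E, nrm (src e - z) ≤ r ∧
        Tiny p.b (2 * η) a b e w} ≤ δ * n ^ 2 := by
  obtain ⟨C, hC, hl⟩ := lenE h0
  obtain ⟨c, hc, hc'⟩ := ENNReal.exists_nnreal_pos_mul_lt
    (a := 72 * (2 * ((((2 * r + 1) ^ 2 : ℕ) : ℝ≥0∞) * ENNReal.ofReal (C * 4))))
    (b := G (Set.Icc 0 p.a) * δ) (by finiteness) (mul_ne_zero p.hGa.ne' hδ.ne')
  obtain ⟨η, h1, h2, h3⟩ := exists_modulus (G := G) (ε := c) (by exact_mod_cast hc)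
  refine ⟨η / 2, by linarith, by linarith, fun n hn hr a ha => ?_⟩
  rw [mul_div_cancel₀ η two_ne_zero]
  refine (ENNReal.mul_le_mul_iff_right p.hGa.ne' (measure_ne_top _ _)).1 ?_
  have key : ∀ b ∈ sph (9 * n), ∀ d : Bool, G (Set.Icc 0 p.a) * ∑ z ∈ ball 0 (3 * n),
      ∑ x ∈ ball z r, P G {w | Tiny p.b η a b (x, d) w} ≤
      c * (((2 * r + 1) ^ 2 : ℕ) * (ENNReal.ofReal (C * 4) * n)) := by
    intro b hb d
    have h4 := hl (4 * n) (by omega) a b (by rw [nrm_sph ha]; push_cast; omega)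
      (by rw [nrm_sph hb]; push_cast; omega)
    rw [show C * ((4 * n : ℕ) : ℝ) = C * 4 * n by push_cast; ring,
      ENNReal.ofReal_mul (by positivity), ENNReal.ofReal_natCast] at h4
    refine (mul_le_mul_right (double n r hr fun x => P G {w | Tiny p.b η a b (x, d) w}) _).trans ?_
    rw [mul_left_comm, mul_left_comm (c : ℝ≥0∞), mul_sum]
    refine mul_le_mul_right (le_trans (sum_le_sum fun x _ => P_Tiny p h1 h3 a b (x, d)) ?_) _
    rw [← mul_sum]
    exact mul_le_mul_right h4 _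
  calc _ ≤ G (Set.Icc 0 p.a) * ∑ z ∈ ball 0 (3 * n), ∑ b ∈ sph (9 * n), ∑ d : Bool,
        ∑ x ∈ ball z r, P G {w | Tiny p.b η a b (x, d) w} := by
        refine mul_le_mul_right (sum_le_sum fun z _ => ?_) _
        refine le_trans (measure_mono (t := ⋃ b ∈ sph (9 * n), ⋃ d ∈ (univ : Finset Bool),
          ⋃ x ∈ ball z r, {w | Tiny p.b η a b (x, d) w}) ?_) ?_
        · rintro w ⟨b, hb, ⟨x, d⟩, h4, h5⟩
          simp only [Set.mem_iUnion]
          exact ⟨b, hb, d, mem_univ _, x, mem_ball.2 h4, h5⟩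
        · exact (measure_biUnion_finset_le _ _).trans (sum_le_sum fun b _ =>
            (measure_biUnion_finset_le _ _).trans (sum_le_sum fun d _ =>
              measure_biUnion_finset_le _ _))
    _ = ∑ b ∈ sph (9 * n), ∑ d : Bool, G (Set.Icc 0 p.a) * ∑ z ∈ ball 0 (3 * n),
        ∑ x ∈ ball z r, P G {w | Tiny p.b η a b (x, d) w} := by
        rw [sum_comm, mul_sum]
        refine sum_congr rfl fun b _ => ?_
        rw [sum_comm, mul_sum]
    _ ≤ ∑ _b ∈ sph (9 * n), ∑ _d : Bool,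
        c * (((2 * r + 1) ^ 2 : ℕ) * (ENNReal.ofReal (C * 4) * n)) :=
        sum_le_sum fun b hb => sum_le_sum fun d _ => key b hb d
    _ ≤ (72 * n : ℕ) * (2 * (c * (((2 * r + 1) ^ 2 : ℕ) * (ENNReal.ofReal (C * 4) * n)))) := by
        rw [sum_const, sum_const, nsmul_eq_mul, nsmul_eq_mul, card_univ, Fintype.card_bool,
          Nat.cast_ofNat]
        exact mul_le_mul_left (Nat.cast_le.2 (card_sph hn)) _
    _ = c * (72 * (2 * ((((2 * r + 1) ^ 2 : ℕ) : ℝ≥0∞) * ENNReal.ofReal (C * 4)))) * n ^ 2 := by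
        rw [Nat.cast_mul 72, Nat.cast_ofNat]; ring
    _ ≤ _ := (mul_le_mul_left hc'.le _).trans_eq (mul_assoc _ _ _)

/-- the points near which an apex can be created -/
lemma sum_Cr (h0 : G (Set.Iio 0) = 0) (r : ℕ) {κ δ : ℝ≥0∞} (hκ : 0 < κ) (hκ1 : κ ≤ 1)
    (hδ : 0 < δ) : ∃ n0 : ℕ, ∀ n : ℕ, n0 ≤ n → 1 ≤ n → r ≤ n → ∀ a,
      ∑ z ∈ ball 0 (3 * n), P G {w | ∃ F ⊆ ball z r ×ˢ (univ : Finset Bool), ∃ W : E → Set ℝ,
        (∀ e ∈ F, MeasurableSet (W e) ∧ κ ≤ G (W e)) ∧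
        ∀ s : Om, (∀ e ∈ F, s e ∈ W e) → ∃ F' ⊆ F, ¬ Nice (F'.piecewise s w) ∨
          ∃ q ∈ ball z r, ApS n a (F'.piecewise s w) q} ≤ δ * n ^ 2 := by
  obtain ⟨N, hN⟩ : ∃ N, N = (2 * r + 1) ^ 2 * 2 := ⟨_, rfl⟩
  have k0 : κ ^ N ≠ 0 := pow_ne_zero _ hκ.ne'
  have k1 : κ ^ N ≠ ∞ := ENNReal.pow_ne_top (hκ1.trans_lt ENNReal.one_lt_top).ne
  obtain ⟨n0, hn0⟩ := ENNReal.exists_nat_mul_gt (a := κ ^ N * δ)
    (b := 2 ^ N * ((((2 * r + 1) ^ 2 : ℕ) : ℝ≥0∞) * 72)) (mul_ne_zero k0 hδ.ne') (by finiteness)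
  refine ⟨n0, fun n hn hn1 hr a => (ENNReal.mul_le_mul_iff_right k0 k1).1 ?_⟩
  have hz : P G (toMeasurable (P G) {w | ¬ Nice w}) = 0 := by
    rw [measure_toMeasurable]; exact ae_iff.1 (ae_nice h0)
  calc _ ≤ ∑ z ∈ ball 0 (3 * n), 2 ^ N * ∑ q ∈ ball z r, P G {w | ApS n a w q} := by
        rw [mul_sum]
        refine sum_le_sum fun z _ => ?_
        have h1 := qmod (G := G) (toMeasurable (P G) {w | ¬ Nice w} ∪
          ⋃ q ∈ ball z r, {w | ApS n a w q}) ((measurableSet_toMeasurable _ _).union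
            (measurableSet_biUnion _ fun q _ => measurableSet_ApS n a q))
          (ball z r ×ˢ (univ : Finset Bool)) κ hκ1
        rw [card_product, card_ball, card_univ, Fintype.card_bool, ← hN] at h1
        refine le_trans (mul_le_mul_right (measure_mono ?_) _) (h1.trans (mul_le_mul_right
          ((measure_union_le _ _).trans ?_) _))
        · rintro w ⟨F, a1, W, a2, a3⟩
          refine ⟨F, a1, W, a2, fun s hs => ?_⟩
          obtain ⟨F', b1, b2⟩ := a3 s hs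
          refine ⟨F', b1, b2.imp (fun h => subset_toMeasurable _ _ h) fun ⟨q, c1, c2⟩ => ?_⟩
          exact Set.mem_biUnion (mem_coe.2 c1) c2
        · rw [hz, zero_add]
          exact measure_biUnion_finset_le _ _
    _ ≤ 2 ^ N * (((2 * r + 1) ^ 2 : ℕ) * (72 * n : ℕ)) := by
        rw [← mul_sum]
        exact mul_le_mul_right ((double n r hr _).trans (mul_le_mul_right (sum_ApS h0 hn1 a) _)) _
    _ = 2 ^ N * ((((2 * r + 1) ^ 2 : ℕ) : ℝ≥0∞) * 72) * n := by
        rw [Nat.cast_mul 72, Nat.cast_ofNat]; ring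
    _ ≤ n * (κ ^ N * δ) * n :=
        mul_le_mul_left (hn0.le.trans (mul_le_mul_left (Nat.cast_le.2 hn) _)) _
    _ = _ := by ring

lemma P_Pair' (h0 : G (Set.Iio 0) = 0) (R : ℕ) {δ : ℝ≥0∞} (hδ : 0 < δ) : ∃ n0 : ℕ, ∀ n : ℕ,
    n0 ≤ n → ∀ a ∈ sph (9 * n), ∑ z ∈ ball 0 (3 * n), P G {w | Pair n R a w z} ≤
      247 * δ * n ^ 2 := by
  obtain ⟨p⟩ := exists_par h0
  have hb := p.ha.trans p.hab
  have hab := p.hab
  obtain ⟨l, hl⟩ := ex_level ((2 * R + 1) ^ 2) hδ
  obtain ⟨K0, -, hK0⟩ := P_Up h0 R hδ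
  obtain ⟨J, hJ, hJ'⟩ := ex_nat (4 * K0 + 1) (y := (p.b - p.a) / 2) (by linarith) l
  obtain ⟨K1, -, hK1⟩ := P_Up h0 (R + J) hδ
  obtain ⟨H, hH, hH'⟩ := ex_nat K1 (y := p.b / 2) (by linarith) l
  obtain ⟨η, e1, e2, hT⟩ := sum_Tiny h0 p (2 * H + 2) hδ
  obtain ⟨η', κ0, S, s1, s2, s3, s4, s5, s6⟩ := exists_soft (G := G) e1
  obtain ⟨l1, hl1, hl1'⟩ := ex_nat (2 * K1 + 4 * K0 + 1) (y := p.b / 2) (by linarith) l
  obtain ⟨l2, -, hl2⟩ := ex_nat (2 * K0 + l1 * η') (y := η' / 2) (by linarith) l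
  obtain ⟨K2, -, hK2⟩ := P_Up h0 (R + l2) hδ
  obtain ⟨R', hR, hR'⟩ := ex_nat (2 * K0 + K2) (y := p.b / 2) (by linarith)
    (l + R + J + 2 * H + 2 + l2)
  obtain ⟨n0, hC⟩ := sum_Cr h0 R' (κ := min κ0 (G (Set.Icc 0 p.a))) (lt_min s3 p.hGa)
    ((min_le_right _ _).trans prob_le_one) hδ
  refine ⟨n0 + R' + 1, fun n hn a ha => ?_⟩
  have h1 := hT n (by omega) (by omega) a ha
  have h2 := hC n (by omega) (by omega) (by omega) a
  have hl' : (2 : ℝ≥0∞) * 2⁻¹ ^ l ≤ δ := by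
    refine le_trans (le_mul_of_one_le_left zero_le ?_) hl
    exact_mod_cast Nat.one_le_pow _ _ (by omega)
  have hB : ∀ z, P G ({w | ¬ Nice w} ∪ {w | ¬ Up R K0 w z} ∪ {w | ¬ Up (R + J) K1 w z} ∪
      {w | ¬ Up (R + l2) K2 w z} ∪ (⋃ x ∈ ball z R, {w | ¬ Pe (Set.Ici p.b) w x l}) ∪
      {w | ¬ Pe S w z l}) ≤ 0 + δ + δ + δ + δ + δ := fun z => by
    refine (measure_union_le _ _).trans (add_le_add ((measure_union_le _ _).trans (add_le_add
      ((measure_union_le _ _).trans (add_le_add ((measure_union_le _ _).trans (add_le_add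
        ((measure_union_le _ _).trans (add_le_add (ae_iff.1 (ae_nice h0)).le (hK0 z))) (hK1 z)))
          (hK2 z))) ?_)) ((peierls s4 s5 z l).trans hl'))
    refine (measure_biUnion_finset_le _ _).trans (le_trans (sum_le_card_nsmul _ _ _
      fun x _ => peierls measurableSet_Ici p.hGb x l) ?_)
    rwa [card_ball, nsmul_eq_mul]
  refine (sum3 hB h1 h2 fun z hz w hw hc => ?_).trans ?_
  · simp only [Set.mem_union, Set.mem_ofPred_eq, not_or, not_not, Set.mem_iUnion, not_exists] at hc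
    obtain ⟨⟨⟨⟨⟨c1, c2⟩, c3⟩, c4⟩, c5⟩, c6⟩ := hc
    exact (pair_cases p c1 (R' := R') (κ := min κ0 (G (Set.Icc 0 p.a))) ha (mem_ball0.1 hz) hw
      (min_le_right _ _) (fun t ht => (min_le_left _ _).trans (s6 t ht)) s1 s2 e2 c2 c3 c4
      (fun x hx => c5 x (mem_ball.2 hx)) c6 hJ (by linarith) hH (by linarith) hl1 (by linarith)
      (by linarith) (by omega) (by omega) (by omega) (by omega) (by linarith) (by omega)).imp
      (fun ⟨b, d1, e, d2, d3⟩ => ⟨b, d1, e, by exact_mod_cast d2, d3⟩) id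
  · have h3 : ((ball 0 (3 * n)).card : ℝ≥0∞) ≤ 49 * n ^ 2 := by
      have := card_ball 0 (3 * n)
      push_cast at this
      rw [this]
      have : 1 ≤ n := by omega
      exact_mod_cast (by nlinarith : (2 * (3 * n) + 1) ^ 2 ≤ 49 * n ^ 2)
    refine (add_le_add (mul_le_mul_left h3 _) le_rfl).trans (le_of_eq ?_)
    ring

end LTx

lemma P_Pair (h0 : G (Set.Iio 0) = 0) (R : ℕ) {ε : ℝ} (hε : 0 < ε) : ∃ n0 : ℕ, ∀ n : ℕ, n0 ≤ n →
    ∀ a ∈ sph (9 * n), ∑ z ∈ ball 0 (3 * n), P G {w | Pair n R a w z} ≤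
      ENNReal.ofReal (ε * (n : ℝ) ^ 2) := by
  obtain ⟨n0, h⟩ := P_Pair' h0 R (δ := ENNReal.ofReal (ε / 247)) (by simpa using hε)
  refine ⟨n0, fun n hn a ha => (h n hn a ha).trans (le_of_eq ?_)⟩
  rw [ENNReal.ofReal_mul hε.le, ENNReal.ofReal_pow (by positivity), ENNReal.ofReal_natCast,
    ← ENNReal.ofReal_ofNat 247, ← ENNReal.ofReal_mul (by norm_num)]
  congr 2
  ring

theorem lemT (h0 : G (Set.Iio 0) = 0) : ∀ᵐ w ∂P G, NoApex w := by
  obtain ⟨A, hA⟩ : ∃ A : V → Set Om, ∀ q, A q = {w | ∀ H : ℤ, ∃ a b b', H < nrm (a - q) ∧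
    H < nrm (b - q) ∧ H < nrm (b' - q) ∧ Apx w a q b b'} := ⟨_, fun _ => rfl⟩
  have ht : ∀ q, P G (A q) ≤ P G (A 0) := fun q => by
    refine le_trans (measure_mono fun w hw => ?_) (P_tau q (A 0)).le
    rw [hA] at hw
    rw [Set.mem_preimage, hA]
    intro H
    obtain ⟨a, b, b', h1, h2, h3, h4, h5, h6⟩ := hw H
    refine ⟨a - q, b - q, b' - q, by simpa using h1, by simpa using h2, by simpa using h3,
      by simpa [On, T_tau] using h4, by simpa [On, T_tau] using h5, fun x h7 h8 => ?_⟩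
    have := h6 (x + q) (by simpa [On, T_tau] using h7) (by simpa [On, T_tau] using h8)
    simpa using this
  have ht' : ∀ q, P G (A 0) ≤ P G (A q) := fun q => by
    refine le_trans (P_tau q (A 0)).ge (measure_mono fun w hw => ?_)
    rw [Set.mem_preimage, hA] at hw
    rw [hA]
    intro H
    obtain ⟨a, b, b', h1, h2, h3, h4, h5, h6⟩ := hw H
    refine ⟨a + q, b + q, b' + q, by simpa using h1, by simpa using h2, by simpa using h3,
      by simpa [On, T_tau] using h4, by simpa [On, T_tau] using h5, fun x h7 h8 => ?_⟩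
    have := h6 (x - q) (by simpa [On, T_tau] using h7) (by simpa [On, T_tau] using h8)
    exact sub_eq_zero.1 this
  suffices h : P G (A 0) = 0 by
    refine ae_all_iff.2 fun q => ?_
    rw [ae_iff]
    simp only [not_not]
    exact le_antisymm (hA q ▸ (ht q).trans h.le) zero_le
  by_contra hρ
  have hρ' : 0 < (P G (A 0)).toReal := ENNReal.toReal_pos hρ (measure_ne_top _ _)
  obtain ⟨R, hR1, hR⟩ := ex_nat (72 * 24) hρ' 1
  obtain ⟨n0, hP⟩ := P_Pair h0 R (ε := (P G (A 0)).toReal / 72) (by positivity)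
  obtain ⟨n, hn1, hn⟩ := ex_nat (72 * 12) hρ' (n0 + 1)
  have hR' : (0 : ℝ) < R := by exact_mod_cast hR1
  have hn' : (0 : ℝ) < n := by exact_mod_cast (by omega : 0 < n)
  have k1 : ∀ a ∈ sph (9 * n), (n : ℝ≥0∞) * ∑ q ∈ ball 0 n, P G {w | ApS n a w q} ≤
      ENNReal.ofReal (n * (24 * n / R + 12)) +
        ENNReal.ofReal ((P G (A 0)).toReal / 72 * (n : ℝ) ^ 2) := fun a ha => by
    refine (count_le (ball 0 n) (ball 0 (3 * n)) (fun q => {w | ApS n a w q})
      (fun z => {w | Pair n R a w z}) (measurableSet_ApS n a) n _ ?_).trans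
      (add_le_add le_rfl (hP n (by omega) a ha))
    filter_upwards [ae_nice h0] with w hw
    have h1 := ENNReal.ofReal_le_ofReal (apex_le_pair hw (n := n) (by omega) hR1 ha)
    rw [ENNReal.ofReal_add (by positivity) (by positivity), ENNReal.ofReal_mul (by positivity),
      ENNReal.ofReal_natCast, ENNReal.ofReal_natCast, ENNReal.ofReal_natCast] at h1
    exact h1
  have k2 : ∀ q ∈ ball 0 n, P G (A 0) ≤ ∑ a ∈ sph (9 * n), P G {w | ApS n a w q} := fun q hq => by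
    refine (ht' q).trans (le_trans (measure_mono_ae ?_) (measure_biUnion_finset_le _ _))
    filter_upwards [ae_nice h0] with w hw h
    have hq' := mem_ball0.1 hq
    have h' : w ∈ A q := h
    rw [hA] at h'
    obtain ⟨a, b, b', h1, h2, h3, h4⟩ := h' (10 * n)
    have far : ∀ x, 10 * (n : ℤ) < nrm (x - q) → ((9 * n : ℕ) : ℤ) ≤ nrm x := fun x hx => by
      have := nrm_sub_le x q
      push_cast
      omega
    have hq9 : nrm q ≤ (9 * n : ℕ) := by push_cast; omega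
    obtain ⟨a1, a2, a3⟩ := ex_sph hw hq9 (far a h1)
    obtain ⟨b1, b2, b3⟩ := ex_sph hw hq9 (far b h2)
    obtain ⟨c1, c2, c3⟩ := ex_sph hw hq9 (far b' h3)
    exact Set.mem_biUnion (mem_coe.2 a2) ⟨b1, b2, c1, c2, h4.trunc hw.nn a3.symm b3 c3⟩
  have k3 : (n : ℝ≥0∞) * (((2 * n + 1) ^ 2 : ℕ) * P G (A 0)) ≤ (72 * n : ℕ) *
      (ENNReal.ofReal (n * (24 * n / R + 12)) +
        ENNReal.ofReal ((P G (A 0)).toReal / 72 * (n : ℝ) ^ 2)) := by
    have h1 := sum_le_sum k2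
    rw [sum_const, card_ball, nsmul_eq_mul, sum_comm] at h1
    refine (mul_le_mul_right h1 _).trans ?_
    rw [mul_sum]
    refine (sum_le_card_nsmul _ _ _ k1).trans ?_
    rw [nsmul_eq_mul]
    exact mul_le_mul_left (Nat.cast_le.2 (card_sph (by omega))) _
  have k4 := ENNReal.toReal_mono (by finiteness) k3
  rw [ENNReal.toReal_mul, ENNReal.toReal_mul, ENNReal.toReal_mul,
    ENNReal.toReal_add ENNReal.ofReal_ne_top ENNReal.ofReal_ne_top,
    ENNReal.toReal_ofReal (by positivity), ENNReal.toReal_ofReal (by positivity),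
    ENNReal.toReal_natCast, ENNReal.toReal_natCast, ENNReal.toReal_natCast] at k4
  push_cast at k4
  generalize (P G (A 0)).toReal = ρ at *
  have k5 : 72 * (24 * (n : ℝ) / R) ≤ ρ * n := by
    rw [mul_div_assoc', div_le_iff₀ hR']
    nlinarith
  have k6 : ((2 * (n : ℝ) + 1) ^ 2 * ρ) ≤ 72 * (n * (24 * n / R + 12) + ρ / 72 * (n : ℝ) ^ 2) :=
    le_of_mul_le_mul_left (by linarith) hn'
  nlinarith [mul_pos hn' hρ', mul_pos hn' (mul_pos hn' hρ')]

end Vale.Agent.P158N
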