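import Vale.Agent.P158N.AP
import Vale.Agent.P158N.Par

/-! Deterministic part of Lemma T. -/

namespace Vale.Agent.P158N

open MeasureTheory Finset
open scoped ENNReal Classical

/-- the sphere of radius `r` -/
noncomputable def sph (r : ℕ) : Finset V := (ball 0 r).filter fun x => nrm x = r

/-- `q` is an apex for the source `a` and targets on the sphere of radius `9 n` -/
def ApS (n : ℕ) (a : V) (w : Om) (q : V) : Prop := ∃ b ∈ sph (9 * n), ∃ b' ∈ sph (9 * n),
  Apx w a q b b'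

/-- two disjoint branches of the geodesic tree of `a` pass near `z` -/
def Pair (n R : ℕ) (a : V) (w : Om) (z : V) : Prop := ∃ b ∈ sph (9 * n), ∃ b' ∈ sph (9 * n),
  ∃ z', nrm (z' - z) ≤ R ∧ On w a z b ∧ On w a z' b' ∧ ∀ x, On w z x b → ¬ On w a x b'

/-- the heavy edge `e` is on the geodesic from `a` to `b` but only barely -/
def Tiny (β η : ℝ) (a b : V) (e : E) (w : Om) : Prop := NN w ∧ β ≤ w e ∧
  (T w a (src e) + w e + T w (tgt e) b = T w a b ∨ T w a (tgt e) + w e + T w (src e) b = T w a b) ∧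
  T (Function.update w e (w e + η)) a b < T w a b + η

/-- `T z x ≤ K` on the ball of radius `r` -/
def Up (r : ℕ) (K : ℝ) (w : Om) (z : V) : Prop := ∀ x, nrm (x - z) ≤ r → T w z x ≤ K

variable {G : Measure ℝ}

lemma mem_sph {r : ℕ} {x : V} : x ∈ sph r ↔ nrm x = r := by
  simp only [sph, mem_filter, mem_ball0]; omega

/-- last point of a geodesic in a box -/
lemma last_pt {w : Om} (hw : Nice w) {a q b : V} {r : ℤ} (h : On w a q b) (hq : nrm q ≤ r)
    (hb : r < nrm b) : ∃ z, nrm z = r ∧ On w q z b ∧ On w a z b ∧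
      ∀ x, On w z x b → nrm x ≤ r → x = z := by
  obtain ⟨g, i, j, i0, j0, rfl, rfl, rfl, hg⟩ := h.exists_geo hw
  obtain ⟨t, ⟨t1, t2, t3⟩, ht⟩ := Int.exists_greatest_of_bdd
    (P := fun t => 0 ≤ t ∧ t ≤ j ∧ nrm (g t) ≤ r) ⟨j, fun _ h => h.2.1⟩ ⟨0, le_rfl, j0, hq⟩
  have t4 : t < j := t2.lt_of_ne fun e => by rw [e] at t3; omega
  refine ⟨g t, ?_, hg.on hw.nn i0 t1 t2 le_rfl, hg.on hw.nn le_rfl (by omega) t2 le_rfl,
    fun x x1 x2 => ?_⟩
  · have a1 : ¬ nrm (g (t + 1)) ≤ r := fun c => by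
      have := ht (t + 1) ⟨by omega, by omega, c⟩; omega
    have a2 := hg.2.1.nrm_le (k := t) (l := t + 1) (by omega) (by omega) (by omega)
    have := nrm_le_add (g (t + 1)) (g t)
    omega
  · obtain ⟨s, s1, s2, rfl⟩ := hw.uniq g t j x (hg.sub hw.nn (by omega) t2 le_rfl) x1
    have := ht s ⟨by omega, s2, x2⟩
    congr 1; omega

def cell (R : ℤ) (z : V) : Bool × Bool × ℤ :=
  if |z.2| ≤ |z.1| then (true, decide (0 ≤ z.1), z.2 / R) else (false, decide (0 ≤ z.2), z.1 / R)

lemma ediv_close {R x y : ℤ} (hR : 0 < R) (h : x / R = y / R) : |x - y| ≤ R := by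
  have a := Int.mul_ediv_add_emod x R
  have b := Int.mul_ediv_add_emod y R
  have := Int.emod_nonneg x hR.ne'
  have := Int.emod_nonneg y hR.ne'
  have := Int.emod_lt_of_pos x hR
  have := Int.emod_lt_of_pos y hR
  rw [h] at a
  rw [abs_le]; constructor <;> linarith

lemma cell_close {R : ℤ} (hR : 0 < R) {z z' : V} (hn : nrm z = nrm z')
    (h : cell R z = cell R z') : nrm (z' - z) ≤ R := by
  unfold cell at h
  split_ifs at h with h1 h2 h2 <;> simp only [Prod.mk.injEq, decide_eq_decide, true_and,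
    Bool.true_eq_false, Bool.false_eq_true, false_and] at h
  all_goals
    have := ediv_close hR h.2
    have h3 := h.1
    simp only [nrm, Prod.fst_sub, Prod.snd_sub, abs_eq_max_neg] at *
    omega

lemma cell_mem {R M : ℤ} (hR : 0 < R) {z : V} (hz : nrm z ≤ M) :
    cell R z ∈ (univ : Finset Bool) ×ˢ (univ : Finset Bool) ×ˢ Icc (-(M / R) - 1) (M / R) := by
  have key : ∀ x : ℤ, |x| ≤ M → x / R ∈ Icc (-(M / R) - 1) (M / R) := fun x hx => by
    rw [abs_le] at hx
    refine mem_Icc.2 ⟨Int.le_ediv_of_mul_le hR ?_, Int.ediv_le_ediv hR hx.2⟩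
    have := Int.mul_ediv_add_emod M R
    have := Int.emod_lt_of_pos M hR
    nlinarith
  unfold cell
  split_ifs <;> simp only [mem_product, mem_univ, true_and] <;> apply key <;>
    simp only [nrm] at hz <;> omega

lemma apex_le_sph {w : Om} (hw : Nice w) {n R r : ℕ} (hR : 1 ≤ R) (h1 : n < r) (h2 : r < 3 * n)
    (a : V) : (((ball 0 n).filter fun q => ApS n a w q).card : ℝ) ≤
      (24 * n / R + 12) + ((sph r).filter fun z => Pair n R a w z).card := by
  let Lp : V → Prop := fun z => ∃ b ∈ sph (9 * n), On w a z b ∧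
    ∀ x, On w z x b → nrm x ≤ r → x = z
  obtain ⟨W, hW⟩ : ∃ W : Finset V, ∀ z, z ∈ W ↔ z ∈ sph r ∧ Lp z :=
    ⟨(sph r).filter Lp, fun _ => mem_filter⟩
  have c1 : ((ball 0 n).filter fun q => ApS n a w q).card ≤ W.card := by
    refine tree hw a _ _ fun q hq => ?_
    obtain ⟨hq, b, hb, b', hb', hA⟩ := mem_filter.1 hq
    rw [mem_ball0] at hq
    have n1 := mem_sph.1 hb
    have n2 := mem_sph.1 hb'
    obtain ⟨z, z1, z2, z3, z4⟩ := last_pt hw hA.1 (r := r) (by omega) (by omega)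
    obtain ⟨z', y1, y2, y3, y4⟩ := last_pt hw hA.2.1 (r := r) (by omega) (by omega)
    refine ⟨z, (hW _).2 ⟨mem_sph.2 z1, b, hb, z3, z4⟩, z',
      (hW _).2 ⟨mem_sph.2 y1, b', hb', y3, y4⟩, ?_, ?_,
      hA.trunc hw.nn (on_left hw.nn _ _) z2 y2⟩ <;> rintro rfl <;> omega
  have R0 : (0 : ℤ) < R := by omega
  have c2 : (W.filter fun z => ¬ Pair n R a w z).card ≤ ((univ : Finset Bool) ×ˢ
      (univ : Finset Bool) ×ˢ Icc (-((3 * n : ℤ) / R) - 1) ((3 * n : ℤ) / R)).card := by
    have key : ∀ z ∈ W.filter fun z => ¬ Pair n R a w z, ∀ z' ∈ W, cell R z = cell R z' →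
        On w a z z' := fun z hz z' hz' e => by
      obtain ⟨hz, np⟩ := mem_filter.1 hz
      obtain ⟨z1, b, hb, z2, z3⟩ := (hW _).1 hz
      obtain ⟨y1, b', hb', y2, y3⟩ := (hW _).1 hz'
      rw [mem_sph] at z1 y1
      by_contra hc
      refine np ⟨b, hb, b', hb', z', cell_close R0 (by omega) e, z2, y2, fun x x1 x2 => ?_⟩
      have o := (x2.left hw.nn (z2.right hw.nn x1).2).1
      rcases o.total hw y2 with f | f
      · exact hc f
      · have := y3 z (o.left hw.nn f).2 z1.le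
        exact hc (this ▸ on_right hw.nn _ _)
    refine card_le_card_of_injOn (cell R) (fun z hz => cell_mem R0 ?_) fun z hz z' hz' e =>
      (key z hz z' (mem_filter.1 hz').1 e).antisymm hw (key z' hz' z (mem_filter.1 hz).1 e.symm)
    have := mem_sph.1 ((hW _).1 (mem_filter.1 hz).1).1
    omega
  have c3 : (W.filter fun z => Pair n R a w z).card ≤
      ((sph r).filter fun z => Pair n R a w z).card :=
    card_le_card (filter_subset_filter _ fun z hz => ((hW z).1 hz).1)
  have c4 := card_filter_add_card_filter_not (s := W) fun z => Pair n R a w z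
  have d0 : (0 : ℤ) ≤ (3 * n : ℤ) / R := Int.ediv_nonneg (by omega) R0.le
  have d1 : (((3 * n : ℤ) / R : ℤ) : ℝ) ≤ 3 * n / R := by
    rw [le_div_iff₀ (by exact_mod_cast R0)]
    exact_mod_cast Int.ediv_mul_le (3 * n : ℤ) R0.ne'
  simp only [card_product, card_univ, Fintype.card_bool, Int.card_Icc] at c2
  have c5 : (((ball 0 n).filter fun q => ApS n a w q).card : ℤ) ≤ 8 * ((3 * n : ℤ) / R) + 8 +
      ((sph r).filter fun z => Pair n R a w z).card := by omega
  have c6 : (((ball 0 n).filter fun q => ApS n a w q).card : ℝ) ≤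
      8 * (((3 * n : ℤ) / R : ℤ) : ℝ) + 8 + ((sph r).filter fun z => Pair n R a w z).card := by
    exact_mod_cast c5
  have : (24 : ℝ) * n / R = 8 * (3 * n / R) := by ring
  linarith

/-- For each `r ∈ [2n,3n)` send a target `b` to the last point of the geodesic `a → b` in `Bx r`;
by `tree` the number of apexes in `Bx n` is at most the number of such points, which lie on the
sphere of radius `r`; in each `R × R` cell at most one of them is an ancestor of all the others,
and the others satisfy `Pair`. -/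
lemma apex_le_pair {w : Om} (hw : Nice w) {n R : ℕ} (hn : 1 ≤ n) (hR : 1 ≤ R) {a : V}
    (ha : a ∈ sph (9 * n)) :
    (n : ℝ) * ((ball 0 n).filter fun q => ApS n a w q).card ≤
      n * (24 * n / R + 12) + ((ball 0 (3 * n)).filter fun z => Pair n R a w z).card := by
  have h1 := card_nsmul_le_sum (Ico (2 * n) (3 * n))
    (fun r => (24 * n / R + 12 : ℝ) + ((sph r).filter fun z => Pair n R a w z).card) _
    fun r hr => apex_le_sph hw hR (by have := (mem_Ico.1 hr).1; omega) (mem_Ico.1 hr).2 a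
  rw [sum_add_distrib, sum_const, Nat.card_Ico, show 3 * n - 2 * n = n by omega, nsmul_eq_mul,
    nsmul_eq_mul, ← Nat.cast_sum, ← card_biUnion] at h1
  · refine h1.trans (add_le_add_right (Nat.cast_le.2 (card_le_card fun z hz => ?_)) _)
    obtain ⟨r, hr, hz⟩ := mem_biUnion.1 hz
    obtain ⟨z1, z2⟩ := mem_filter.1 hz
    have := mem_sph.1 z1
    have := (mem_Ico.1 hr).2
    exact mem_filter.2 ⟨mem_ball0.2 (by omega), z2⟩
  · intro r _ s _ hrs
    refine disjoint_left.2 fun z h1 h2 => hrs ?_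
    have := mem_sph.1 (mem_filter.1 h1).1
    have := mem_sph.1 (mem_filter.1 h2).1
    omega

lemma src_near {g : ℤ → V} {i j t : ℤ} (hg : Walk g i j) (h1 : i ≤ t) (h2 : t < j) (h3 : i ≤ 0)
    (h4 : 0 ≤ j) : nrm (src (ed g t) - g 0) ≤ max (t + 1) (-t) := by
  have a := hg.nrm_le' h3 h4 h1 h2.le
  have b := hg.nrm_le' (l := t + 1) h3 h4 (by omega) (by omega)
  rw [abs_eq_max_neg] at a b
  rcases (hg.end_ed h1 h2).1 (Or.inl rfl) with c | c <;> rw [c] <;> omega

lemma sum_gain {w s : Om} {g : ℤ → V} {i j : ℤ} (hg : Walk g i j) (hi : Set.InjOn g (Set.Icc i j))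
    {A : Finset ℤ} {c : ℝ} (hA : ∀ t ∈ A, i ≤ t ∧ t < j) (hc : ∀ t ∈ A, c ≤ w (ed g t) - s (ed g t)) :
    A.card * c ≤ ∑ e ∈ A.image (ed g), (w e - s e) := by
  rw [sum_image fun x hx y hy e => hg.ed_injOn hi (hA x hx) (hA y hy) e]
  simpa using card_nsmul_le_sum A _ c hc

/-- the local trichotomy at a point satisfying `Pair`; see notes/P158N.md -/
lemma pair_cases (p : Par G) {w : Om} (hw : Nice w) {n R l J H l1 l2 R' : ℕ}
    {K0 K1 K2 η η' : ℝ} {S : Set ℝ} {κ : ℝ≥0∞} {a z : V} (ha : a ∈ sph (9 * n))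
    (hz : nrm z ≤ 3 * n) (hp : Pair n R a w z)
    (hκ : κ ≤ G (Set.Icc 0 p.a)) (hS : ∀ t ∈ S, κ ≤ G (Set.Icc (t - η) (t - η')))
    (hη' : 0 < η') (hη : η' ≤ η) (hη1 : η ≤ 1)
    (u0 : Up R K0 w z) (u1 : Up (R + J) K1 w z) (u2 : Up (R + l2) K2 w z)
    (pe1 : ∀ x, nrm (x - z) ≤ R → Pe (Set.Ici p.b) w x l) (pe2 : Pe S w z l)
    (hJ : l ≤ J) (hJ' : 4 * K0 + 1 < J * (p.b - p.a) / 2) (hH : l ≤ H) (hH' : K1 < p.b * H / 2)
    (hl1 : l ≤ l1) (hl1' : 2 * K1 + 4 * K0 + 1 < p.b * l1 / 2)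
    (hl2 : 2 * K0 < (l2 / 2 - l1) * η') (hR' : l ≤ R') (hR'' : R + J ≤ R')
    (hR3 : 2 * H + 2 ≤ R') (hR4 : R + l2 + 1 ≤ R') (hR5 : 2 * K0 + K2 < p.b * R' / 2)
    (hn : R' < n) :
    (∃ b ∈ sph (9 * n), ∃ e : E, nrm (src e - z) ≤ 2 * H + 2 ∧ Tiny p.b (2 * η) a b e w) ∨
    ∃ F ⊆ ball z R' ×ˢ (univ : Finset Bool), ∃ W : E → Set ℝ,
      (∀ e ∈ F, MeasurableSet (W e) ∧ κ ≤ G (W e)) ∧
      ∀ s : Om, (∀ e ∈ F, s e ∈ W e) → ∃ F' ⊆ F, ¬ Nice (F'.piecewise s w) ∨
        ∃ q ∈ ball z R', ApS n a (F'.piecewise s w) q := by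
  obtain ⟨b, hb, b', hb', z', hz', o1, o2, hdis⟩ := hp
  obtain ⟨g, i, j, i0, j0, gi, rfl, rfl, hg⟩ := o1.exists_geo hw
  obtain ⟨g', i', j', i0', j0', gi', rfl, rfl, hg'⟩ := o2.exists_geo hw
  have nn := hw.nn
  have bpos : 0 < p.b := p.ha.trans p.hab
  have na := mem_sph.1 ha
  have nb := mem_sph.1 hb
  have ig := hg.injOn hw.pos
  have ig' := hg'.injOn hw.pos
  have hi : i ≤ -(6 * n) := by
    have h1 := hg.2.1.nrm_le le_rfl i0 j0
    have := nrm_le_add a (g 0)
    rw [gi, nrm_comm] at h1; omega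
  have hj : (6 * n : ℤ) ≤ j := by
    have := hg.2.1.nrm_le i0 j0 le_rfl
    have := nrm_le_add (g j) (g 0)
    omega
  have hi' : i' ≤ -(5 * n) := by
    have h1 := hg'.2.1.nrm_le le_rfl i0' j0'
    have := nrm_le_add a (g' 0)
    have := nrm_le_add (g' 0) (g 0)
    rw [gi', nrm_comm] at h1; omega
  have z0 : nrm (g 0 - g 0) ≤ R := by simp [nrm]
  have K00 : 0 ≤ K0 := (T_nonneg nn _ _).trans (u0 _ z0)
  have uz := u0 _ hz'
  have og : ∀ s t, i ≤ s → s ≤ t → t ≤ j → On w a (g s) (g t) := fun s t a b c =>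
    gi ▸ hg.on nn le_rfl a b c
  have og' : ∀ s t, i' ≤ s → s ≤ t → t ≤ j' → On w a (g' s) (g' t) := fun s t a b c =>
    gi' ▸ hg'.on nn le_rfl a b c
  have n1 : ∀ k : ℤ, -(J : ℤ) ≤ k → k ≤ 0 → nrm (g' k - g 0) ≤ R + J := fun k a b => by
    have h1 := hg'.2.1.nrm_le (k := k) (l := 0) (by omega) b j0'
    have := nrm_tri (g' k) (g' 0) (g 0)
    rw [nrm_comm (g' 0)] at h1; omega
  have uK : ∀ k : ℤ, -(J : ℤ) ≤ k → k ≤ 0 → T w (g 0) (g' k) ≤ K1 := fun k a b =>
    u1 _ (by push_cast; exact n1 k a b)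
  have hl12 : 2 * l1 < l2 := by
    have : (0 : ℝ) < l2 / 2 - l1 := by
      by_contra hc
      nlinarith
    have : (2 * l1 : ℝ) < l2 := by linarith
    exact_mod_cast this
  by_cases win : ∀ k m : ℤ, -(J : ℤ) ≤ k → k ≤ 0 → (l1 : ℤ) ≤ m → m ≤ l2 →
      η < T w (g m) (g' j') - T w (g' k) (g' j') + T w (g' k) (g j) - T w (g m) (g j)
  · obtain ⟨A, hA, cA⟩ := (pe1 _ hz').pick' (v := g') (i := 0) (k := 0) (l := -(J : ℤ)) rfl le_rfl
      (by omega) (by omega) (hg'.2.1.mono (by omega) j0')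
      (ig'.mono (Set.Icc_subset_Icc (by omega) j0'))
    obtain ⟨B, hB, cB⟩ := pe2.pick (v := g) (i := 0) (k := l1) (l := l2) rfl (by omega)
      (by omega) (by omega) (hg.2.1.mono i0 (by omega))
      (ig.mono (Set.Icc_subset_Icc i0 (by omega)))
    have hd : ∀ k m, i' ≤ k → k ≤ j' → 0 ≤ m → m ≤ j → g' k ≠ g m := fun k m a b c d e =>
      hdis _ (hg.on nn i0 c d le_rfl) (e ▸ og' k j' a b le_rfl)
    have dis : ∀ t ∈ B, ed g t ∉ A.image (ed g') := fun t ht c => by
      obtain ⟨k, hk, e⟩ := mem_image.1 c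
      obtain ⟨a1, a2, -⟩ := hA k hk
      obtain ⟨b1, b2, -⟩ := hB t ht
      rcases (hg.2.1.end_ed (k := t) (by omega) (by omega)).1
        (e ▸ (hg'.2.1.end_ed (k := k) (by omega) (by omega)).2 (Or.inl rfl)) with f | f
      · exact hd _ _ (by omega) (by omega) (by omega) (by omega) f
      · exact hd _ _ (by omega) (by omega) (by omega) (by omega) f
    refine Or.inr ⟨A.image (ed g') ∪ B.image (ed g), fun e he => ?_, fun e =>
      if e ∈ A.image (ed g') then Set.Icc 0 p.a else Set.Icc (w e - η) (w e - η'),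
      fun e he => ?_, fun s hs => ?_⟩
    · refine mem_product.2 ⟨mem_ball.2 ?_, mem_univ _⟩
      rcases mem_union.1 he with c | c <;> obtain ⟨t, ht, rfl⟩ := mem_image.1 c
      · obtain ⟨a1, a2, -⟩ := hA t ht
        have := src_near hg'.2.1 (t := t) (by omega) (by omega) i0' j0'
        have := nrm_tri (src (ed g' t)) (g' 0) (g 0)
        change nrm (src _ - _) ≤ _; omega
      · obtain ⟨a1, a2, -⟩ := hB t ht
        have := src_near hg.2.1 (t := t) (by omega) (by omega) i0 j0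
        change nrm (src _ - _) ≤ _; omega
    · dsimp only
      split_ifs with c
      · exact ⟨measurableSet_Icc, hκ⟩
      · obtain ⟨t, ht, rfl⟩ := mem_image.1 ((mem_union.1 he).resolve_left c)
        exact ⟨measurableSet_Icc, hS _ (hB t ht).2.2⟩
    by_cases hN : ∀ F ⊆ A.image (ed g') ∪ B.image (ed g), Nice (F.piecewise s w)
    swap
    · push Not at hN
      obtain ⟨F, a, b⟩ := hN
      exact ⟨F, a, Or.inl b⟩
    have sA : ∀ t ∈ A, p.b - p.a ≤ w (ed g' t) - s (ed g' t) := fun t ht => by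
      have m := mem_image_of_mem (ed g') ht
      have := hs _ (mem_union_left _ m)
      simp only [m, if_true] at this
      have := this.2
      have : p.b ≤ _ := (hA t ht).2.2
      linarith
    have sB : ∀ t ∈ B, s (ed g t) ∈ Set.Icc (w (ed g t) - η) (w (ed g t) - η') := fun t ht => by
      have := hs _ (mem_union_right _ (mem_image_of_mem (ed g) ht))
      simpa only [dis t ht, if_false] using this
    have hab := p.hab
    obtain ⟨F, hF, k, k1, k2, k3, k4⟩ := apex_create hw (K := 2 * K0) (η := η) hg'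
      (hg.sub nn i0 j0 le_rfl) (show i' ≤ -(J : ℤ) by omega) (show -(J : ℤ) ≤ 0 by omega) j0'
      (show (0 : ℤ) ≤ l1 by omega) (show (l1 : ℤ) ≤ l2 by omega) (by omega) hd
      (A.image (ed g')) (B.image (ed g)) s
      (fun e he => by
        obtain ⟨t, ht, rfl⟩ := mem_image.1 he
        exact ⟨⟨t, (hA t ht).1, (hA t ht).2.1, rfl⟩, by linarith [sA t ht]⟩)
      (fun e he => by
        obtain ⟨t, ht, rfl⟩ := mem_image.1 he
        exact ⟨⟨t, (hB t ht).1, (hB t ht).2.1, rfl⟩, by linarith [(sB t ht).2], (sB t ht).1⟩)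
      (by linarith) hη1
      (by
        have := og 0 j i0 j0 le_rfl
        have := T_tri nn a (g 0) (g' 0)
        rw [gi', T_symm w (g' 0) (g 0)]
        unfold On at *; linarith)
      (by
        have h1 := sum_gain hg'.2.1 ig' (fun t ht => by have := hA t ht; omega) sA
        have h2 : (J : ℝ) ≤ 2 * A.card := by
          have : (J : ℤ) ≤ 2 * A.card := by omega
          exact_mod_cast this
        nlinarith)
      (by
        have h1 := sum_gain (w := w) (s := s) (c := η') hg.2.1 ig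
          (fun t ht => by have := hB t ht; omega) fun t ht => by linarith [(sB t ht).2]
        have h2 : (l2 : ℝ) - 2 * l1 ≤ 2 * B.card := by
          have : (l2 : ℤ) - 2 * l1 ≤ 2 * B.card := by omega
          exact_mod_cast this
        nlinarith)
      (by
        have h1 := (pe1 _ z0).cost (v := g) (i := 0) (j := l1) nn bpos.le rfl (by omega)
          (hg.2.1.mono i0 (by omega)) (ig.mono (Set.Icc_subset_Icc i0 (by omega)))
        rw [hg.cost_eq nn i0 (by omega) (by omega)] at h1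
        have h2 := T_tri nn (g' (-(J : ℤ))) (g 0) (g' 0)
        have h3 := uK _ le_rfl (by omega)
        have h4 := uK 0 (by omega) le_rfl
        rw [T_symm] at h3
        push_cast at h1
        linarith)
      win hN
    refine ⟨F, hF, Or.inr ⟨g' k, mem_ball.2 ?_, _, hb, _, hb', gi' ▸ k3⟩⟩
    rcases k4 with c | c
    · have := n1 k k1 c; omega
    · by_contra hc
      have h1 := (pe1 _ z0).T_ge (x := g' k) nn bpos.le (by omega)
      have h2 : (R' : ℝ) ≤ (nrm (g' k - g 0) : ℤ) := by exact_mod_cast (not_le.1 hc).le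
      have h3 := T_tri nn (g 0) (g' 0) (g' k)
      have h4 := u2 (g l2) (by
        have := hg.2.1.nrm_le (k := 0) (l := l2) i0 (by omega) (by omega)
        push_cast; omega)
      rw [T_symm w (g' 0) (g 0)] at c
      nlinarith
  push Not at win
  obtain ⟨k, m, k1, k2, m1, m2, win⟩ := win
  by_cases near : ∃ t : ℤ, -(2 * H + 2 : ℤ) ≤ t ∧ t ≤ 0 ∧ On w a (g t) (g' j')
  · obtain ⟨t, t1, t2, t3⟩ := near
    obtain ⟨q, q1, q2, q3⟩ := exists_apx hw hg (k := t) (by omega) (by omega) (gi ▸ t3)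
    rw [gi] at q3
    have q4 : q < 0 := by
      by_contra hc
      exact hdis _ (hg.on nn i0 (not_lt.1 hc) q2 le_rfl) q3.1
    refine Or.inr ⟨∅, empty_subset _, fun _ => ∅, by simp, fun s _ => ⟨∅, subset_rfl,
      Or.inr ⟨g q, mem_ball.2 ?_, _, hb', _, hb, by rwa [piecewise_empty]⟩⟩⟩
    have := hg.2.1.nrm_le (k := q) (l := 0) (by omega) q4.le j0
    rw [nrm_comm]; omega
  push Not at near
  obtain ⟨A, hA, cA⟩ := (pe1 _ z0).pick' (v := g) (i := 0) (k := -(H : ℤ))
    (l := -(2 * H + 2 : ℤ)) rfl (by omega) (by omega) (by omega) (hg.2.1.mono (by omega) j0)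
    (ig.mono (Set.Icc_subset_Icc (by omega) j0))
  obtain ⟨t, ht⟩ : A.Nonempty := card_pos.1 (by omega)
  obtain ⟨t1, t2, t3⟩ := hA t ht
  have t3 : p.b ≤ w (ed g t) := t3
  refine Or.inl ⟨_, hb, ed g t, ?_, nn, t3, ?_, ?_⟩
  · have := src_near hg.2.1 (t := t) (by omega) (by omega) i0 j0
    omega
  · have e1 := og t (t + 1) (by omega) (by omega) (by omega)
    have e2 := og (t + 1) j (by omega) (by omega) le_rfl
    have e3 := hg.cost_eq nn (k := t) (l := t + 1) (by omega) (by omega) (by omega)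
    rw [cost_one] at e3
    unfold On at e1 e2
    rcases (hg.2.1 t (by omega) (by omega)).src_tgt with ⟨c, d⟩ | ⟨c, d⟩
    · left; rw [ed, c, d, ← ed]; linarith
    · right; rw [ed, c, d, ← ed]; linarith
  set w' := Function.update w (ed g t) (w (ed g t) + 2 * η) with hw'
  have agr : ∀ e, e ≠ ed g t → w' e = w e := fun e he => Function.update_of_ne he _ _
  have nn' : NN w' := fun e => by
    by_cases c : e = ed g t
    · rw [c, hw', Function.update_self]; linarith
    · rw [agr e c]; exact nn e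
  have s1 : T w' a (g' k) ≤ T w a (g' k) := by
    rw [← gi', ← hg'.cost_eq nn le_rfl (by omega) (by omega)]
    refine (T_le_cost nn' (by omega) (hg'.2.1.mono le_rfl (by omega))).trans
      (cost_congr fun r r1 r2 => agr _ fun e => near t t1 (by omega) ?_).le
    rcases (hg'.2.1.end_ed (k := r) r1 (by omega)).1
      (e ▸ (hg.2.1.end_ed (k := t) (by omega) (by omega)).2 (Or.inl rfl)) with f | f <;> rw [f]
    exacts [og' _ _ r1 (by omega) le_rfl, og' _ _ (by omega) (by omega) le_rfl]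
  have s2 : T w' (g' k) (g j) ≤ T w (g' k) (g j) := by
    rcases last_edge hw nn' {ed g t} (fun e he => (agr e (by simpa using he)).le) (g' k) (g j)
      with c | ⟨e, he, x, c, d, -⟩
    · exact c
    rw [mem_singleton.1 he] at c
    obtain ⟨r, r1, r2, rfl⟩ : ∃ r : ℤ, i ≤ r ∧ r ≤ -(H : ℤ) ∧ x = g r := by
      rcases (hg.2.1.end_ed (k := t) (by omega) (by omega)).1 c with f | f
      exacts [⟨t, by omega, by omega, f⟩, ⟨t + 1, by omega, by omega, f⟩]
    have h1 := (pe1 _ z0).cost (v := rev g) (i := 0) (j := -r) nn bpos.le (by simp [rev])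
      (by omega) (Walk.rev (by simpa using hg.2.1.mono r1 j0))
      ((Geo.rev (by simpa using hg.sub nn r1 (by omega) j0)).injOn hw.pos)
    rw [cost_rev, neg_neg, neg_zero, hg.cost_eq nn r1 (by omega) j0] at h1
    have h2 := hg.on nn r1 (show r ≤ 0 by omega) j0 le_rfl
    have h3 := T_tri nn (g' k) (g 0) (g j)
    have h4 := uK k k1 k2
    have h5 := T_nonneg nn (g' k) (g r)
    have h6 : (H : ℝ) ≤ -(r : ℝ) := by
      have : (H : ℤ) ≤ -r := by omega
      exact_mod_cast this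
    rw [T_symm] at h4
    push_cast at h1
    unfold On at d h2
    nlinarith
  have e1 := T_tri nn' a (g' k) (g j)
  have e2 := og' k j' (by omega) (by omega) le_rfl
  have e3 := og m j (by omega) (by omega) le_rfl
  have e4 := T_tri nn a (g m) (g' j')
  unfold On at e2 e3
  linarith

end Vale.Agent.P158N
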