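import Vale.Agent.P158N.LemTa
import Vale.Agent.P158N.Scale

/-! Helper lemmas for Lemma T. -/

namespace Vale.Agent.P158N

open MeasureTheory Finset Filter
open scoped ENNReal Classical Topology

namespace LTx

variable {G : Measure ℝ} [IsProbabilityMeasure G]

lemma measurableSet_Apx (a q b b' : V) : MeasurableSet {w | Apx w a q b b'} := by
  refine (measurableSet_On a q b).inter ((measurableSet_On a q b').inter ?_)
  have e : {w | ∀ x, On w q x b → On w q x b' → x = q} =
      ⋂ x, {w | On w q x b}ᶜ ∪ ({w | On w q x b'}ᶜ ∪ {_w | x = q}) := by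
    ext w
    simp only [Set.mem_ofPred_eq, Set.mem_iInter, Set.mem_union, Set.mem_compl_iff, imp_iff_not_or]
  exact (MeasurableSet.iInter fun x => (measurableSet_On _ _ _).compl.union
    ((measurableSet_On _ _ _).compl.union (MeasurableSet.const _))).congr e.symm

lemma nn_upd {w : Om} (hw : NN w) (e : E) {s : ℝ} (hs : 0 ≤ s) : NN (Function.update w e s) :=
  fun e' => by
    rw [Function.update_apply]
    split_ifs
    · exact hs
    · exact hw e'

lemma T_upd {w : Om} (hw : NN w) (e : E) {s t : ℝ} (hs : 0 ≤ s) (hst : s ≤ t) (x y : V) :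
    T (Function.update w e s) x y ≤ T (Function.update w e t) x y ∧
    T (Function.update w e t) x y ≤ T (Function.update w e s) x y + (t - s) := by
  constructor
  · refine T_mono (nn_upd hw e hs) (fun e' => ?_) x y
    simp only [Function.update_apply]
    split_ifs
    · exact hst
    · exact le_rfl
  · have := T_lower (nn_upd hw e hs) (nn_upd hw e (hs.trans hst)) {e} (fun e' he => by
      rw [mem_singleton] at he
      rw [Function.update_of_ne he, Function.update_of_ne he]) (fun e' he => by
      rw [mem_singleton.1 he, Function.update_self, Function.update_self]; exact hst) x y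
    rw [sum_singleton, Function.update_self, Function.update_self] at this
    linarith

/-- lowering an edge of the geodesic keeps it on the geodesic -/
lemma low {w : Om} (hw : NN w) (e : E) {s t : ℝ} (hs : 0 ≤ s) (hst : s ≤ t) {a b : V}
    (h : T (Function.update w e t) a (src e) + t + T (Function.update w e t) (tgt e) b =
        T (Function.update w e t) a b ∨
      T (Function.update w e t) a (tgt e) + t + T (Function.update w e t) (src e) b =
        T (Function.update w e t) a b) :
    T (Function.update w e s) a (src e) + T (Function.update w e s) (src e) b + (t - s) ≤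
      T (Function.update w e t) a b := by
  have n1 := nn_upd hw e hs
  have h1 := T_le_edge n1 (adj_src_tgt e)
  rw [edge_src_tgt, Function.update_self] at h1
  rcases h with h | h
  · linarith [(T_upd hw e hs hst a (src e)).1, (T_upd hw e hs hst (tgt e) b).1,
      T_tri n1 (src e) (tgt e) b]
  · rw [T_symm] at h1
    linarith [(T_upd hw e hs hst a (tgt e)).1, (T_upd hw e hs hst (src e) b).1,
      T_tri n1 a (tgt e) (src e)]

lemma measurableSet_Tiny (β η : ℝ) (a b : V) (e : E) : MeasurableSet {w | Tiny β η a b e w} := by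
  have h0 : Measurable fun w : Om => w e := measurable_pi_apply e
  have h1 : MeasurableSet {w : Om | NN w} := by
    simp only [NN, Set.ofPred_forall]
    exact MeasurableSet.iInter fun e => measurableSet_le measurable_const (measurable_pi_apply e)
  have h2 : Measurable fun w : Om => Function.update w e (w e + η) :=
    measurable_update'.comp (measurable_id.prodMk (h0.add_const η))
  exact h1.inter ((measurableSet_le measurable_const h0).inter
    (((measurableSet_eq_fun (((measurable_T _ _).add h0).add (measurable_T _ _))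
      (measurable_T _ _)).union (measurableSet_eq_fun (((measurable_T _ _).add h0).add
      (measurable_T _ _)) (measurable_T _ _))).inter
      (measurableSet_lt ((measurable_T a b).comp h2) ((measurable_T a b).add_const η))))

lemma count_le (Y Y' : Finset V) (A B : V → Set Om) (hA : ∀ y, MeasurableSet (A y))
    (α β : ℝ≥0∞) (h : ∀ᵐ w ∂P G, α * ((Y.filter fun y => w ∈ A y).card : ℕ) ≤
      β + ((Y'.filter fun y => w ∈ B y).card : ℕ)) :
    α * ∑ y ∈ Y, P G (A y) ≤ β + ∑ y ∈ Y', P G (B y) := by
  have hB : ∀ y, MeasurableSet (toMeasurable (P G) (B y)) := fun y => measurableSet_toMeasurable _ _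
  have m1 : Measurable fun w => ∑ y ∈ Y, (A y).indicator (1 : Om → ℝ≥0∞) w :=
    Finset.measurable_sum _ fun y _ => measurable_one.indicator (hA y)
  calc α * ∑ y ∈ Y, P G (A y) = ∫⁻ w, α * ∑ y ∈ Y, (A y).indicator 1 w ∂P G := by
        rw [lintegral_const_mul _ m1,
          lintegral_finsetSum _ fun y _ => measurable_one.indicator (hA y)]
        simp only [lintegral_indicator_one (hA _)]
    _ ≤ ∫⁻ w, (β + ∑ y ∈ Y', (toMeasurable (P G) (B y)).indicator 1 w) ∂P G := by
      refine lintegral_mono_ae ?_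
      filter_upwards [h] with w hw
      refine le_trans (le_of_eq ?_) (hw.trans (add_le_add le_rfl ?_))
      · simp [Set.indicator_apply]
      · rw [card_filter, Nat.cast_sum]
        refine sum_le_sum fun y _ => ?_
        split_ifs with hy
        · rw [Set.indicator_of_mem (subset_toMeasurable _ _ hy), Nat.cast_one, Pi.one_apply]
        · simp
    _ = _ := by
      rw [lintegral_add_left measurable_const,
        lintegral_finsetSum _ fun y _ => measurable_one.indicator (hB y), lintegral_const,
        measure_univ, mul_one]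
      simp only [lintegral_indicator_one (hB _), measure_toMeasurable]

lemma double (n r : ℕ) (hr : r ≤ n) (f : V → ℝ≥0∞) :
    ∑ z ∈ ball 0 (3 * n), ∑ x ∈ ball z r, f x ≤
      ((2 * r + 1) ^ 2 : ℕ) * ∑ x ∈ ball 0 (4 * n : ℕ), f x := by
  rw [sum_comm' (t' := ball 0 (4 * n : ℕ)) (s' := fun x => (ball 0 (3 * n)).filter
    fun z => x ∈ ball z r), mul_sum]
  · refine sum_le_sum fun x _ => ?_
    rw [sum_const, nsmul_eq_mul, ← card_ball x r]
    refine mul_le_mul_left (Nat.cast_le.2 (card_le_card fun z hz => ?_)) _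
    rw [mem_ball, nrm_comm]
    exact mem_ball.1 (mem_filter.1 hz).2
  · intro z x
    rw [mem_filter]
    refine ⟨fun h => ⟨h, ?_⟩, fun h => h.1⟩
    have h1 := mem_ball0.1 h.1
    have h2 := mem_ball.1 h.2
    have h3 := nrm_le_add x z
    rw [mem_ball0]
    push_cast
    omega

omit [IsProbabilityMeasure G] in
lemma sum3 {Y : Finset V} {A B C D : V → Set Om} {β x y : ℝ≥0∞} (hB : ∀ z, P G (B z) ≤ β)
    (hC : ∑ z ∈ Y, P G (C z) ≤ x) (hD : ∑ z ∈ Y, P G (D z) ≤ y)
    (h : ∀ z ∈ Y, ∀ w ∈ A z, w ∉ B z → w ∈ C z ∨ w ∈ D z) :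
    ∑ z ∈ Y, P G (A z) ≤ Y.card * β + (x + y) := by
  refine le_trans (sum_le_sum fun z hz => (measure_mono (t := B z ∪ (C z ∪ D z))
    fun w hw => or_iff_not_imp_left.2 (h z hz w hw)).trans
    ((measure_union_le _ _).trans (add_le_add (hB z) (measure_union_le _ _)))) ?_
  rw [sum_add_distrib, sum_add_distrib, sum_const, nsmul_eq_mul]
  exact add_le_add le_rfl (add_le_add hC hD)

lemma ex_nat (x : ℝ) {y : ℝ} (hy : 0 < y) (l : ℕ) : ∃ J : ℕ, l ≤ J ∧ x < J * y := by
  obtain ⟨J, hJ⟩ := exists_nat_gt (x / y)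
  refine ⟨max l J, le_max_left _ _, ((div_lt_iff₀ hy).1 hJ).trans_le ?_⟩
  exact mul_le_mul_of_nonneg_right (Nat.cast_le.2 (le_max_right _ _)) hy.le

lemma ex_level (M : ℕ) {δ : ℝ≥0∞} (hδ : 0 < δ) : ∃ l : ℕ, M * (2 * 2⁻¹ ^ l) ≤ δ := by
  have h1 : Tendsto (fun l : ℕ => (M * 2 : ℝ≥0∞) * 2⁻¹ ^ l) atTop (𝓝 (M * 2 * 0)) :=
    ENNReal.Tendsto.const_mul (ENNReal.tendsto_pow_atTop_nhds_zero_of_lt_one (by norm_num))
      (Or.inr (ENNReal.mul_ne_top (ENNReal.natCast_ne_top _) ENNReal.ofNat_ne_top))
  rw [mul_zero] at h1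
  obtain ⟨l, hl⟩ := (h1.eventually (ge_mem_nhds hδ)).exists
  exact ⟨l, by rwa [← mul_assoc]⟩

lemma card_sph {n : ℕ} (hn : 1 ≤ n) : (sph (9 * n)).card ≤ 72 * n :=
  (card_sphere (9 * n) (by omega)).trans (by omega)

lemma nrm_sph {r : ℕ} {a : V} (h : a ∈ sph r) : nrm a = r := (mem_filter.1 h).2

lemma mem_sph {r : ℕ} {a : V} (h : nrm a = r) : a ∈ sph r :=
  mem_filter.2 ⟨mem_ball0.2 h.le, h⟩

/-- a point of the geodesic from `q` to `a` on a given sphere -/
lemma ex_sph {w : Om} (hw : Nice w) {q a : V} {r : ℕ} (hq : nrm q ≤ r) (ha : (r : ℤ) ≤ nrm a) :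
    ∃ a1 ∈ sph r, On w q a1 a := by
  obtain ⟨v, m, rfl, rfl, hv⟩ := hw.ex q a
  obtain ⟨k, h1, h2, h3, -⟩ := hv.2.1.exists_first hv.1 hq ha
  exact ⟨v k, mem_sph h3, hv.on hw.nn le_rfl h1 h2 le_rfl⟩

end LTx

end Vale.Agent.P158N
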