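import Vale.Agent.P158N.Amp
import Vale.Agent.P158N.Count
import Vale.Agent.P158N.LemT

/-! Assembly. -/

namespace Vale.Agent.P158N

open MeasureTheory Finset Filter LTx
open scoped ENNReal Topology Classical

variable {G : Measure ℝ} [IsProbabilityMeasure G] [NullSingletonClass G]

lemma ae_typ (h0 : G (Set.Iio 0) = 0) (p : Par G) : ∀ᵐ w ∂P G, Typ p w := by
  choose η' κ S s1 s2 s3 s4 s5 s6 using fun m : ℕ =>
    exists_soft (G := G) (η := 1 / ((m : ℝ) + 1)) (by positivity)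
  filter_upwards [ae_nice h0, ae_pe measurableSet_Ici p.hGb,
    ae_all_iff.2 fun m => ae_pe (s4 m) (s5 m), ae_mdf ((ae_nice h0).and (lemT h0))]
    with w h1 h2 h3 h4
  refine ⟨h1, h2, fun η hη => ?_, h4⟩
  obtain ⟨m, hm⟩ := exists_nat_one_div_lt hη
  exact ⟨η' m, S m, s1 m, (s2 m).trans hm.le, fun t ht => (s3 m).trans_le ((s6 m t ht).trans
    (measure_mono (Set.Icc_subset_Icc_left (by linarith)))), h3 m⟩

namespace Mn

omit [NullSingletonClass G] in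
lemma small {A : ℕ → Set Om} (hA : ∀ n, MeasurableSet (A n)) (hm : Antitone A)
    (h : ∀ᵐ w ∂P G, ¬ ∀ n, w ∈ A n) {δ : ℝ≥0∞} (hδ : 0 < δ) : ∃ n, P G (A n) ≤ δ := by
  have h1 := tendsto_measure_iInter_atTop (μ := P G) (fun n => (hA n).nullMeasurableSet) hm
    ⟨0, measure_ne_top _ _⟩
  have e : P G (⋂ n, A n) = 0 := by
    rw [ae_iff] at h
    simpa only [not_not, Set.ofPred_forall, Set.ofPred_mem_eq] using h
  rw [e] at h1
  exact (h1.eventually (ge_mem_nhds hδ)).exists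

lemma card_le {N n : ℕ} {ε : ℝ} (hε : 0 ≤ ε) (h : (N : ℝ) ≤ ε * n ^ 2) :
    (N : ℝ≥0∞) ≤ ENNReal.ofReal ε * (ball 0 n).card := by
  rw [← ENNReal.ofReal_natCast, ← ENNReal.ofReal_natCast, ← ENNReal.ofReal_mul hε, card_ball]
  refine ENNReal.ofReal_le_ofReal (h.trans (mul_le_mul_of_nonneg_left ?_ hε))
  exact_mod_cast Nat.pow_le_pow_left (by omega) 2

lemma bound {n : ℕ} (hn : 1 ≤ n) {C b W θ : ℝ} (hC : 0 ≤ C) (hb : 0 < b) (hW : 0 < W) (r : ℕ)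
    (hθ : 1 ≤ θ * n) : (n + 2 * (C * n) / b + 1) * (16 * (C * (r * n : ℕ)) / W + 1) ≤
      (2 + 2 * C / b) * (16 * C * r / W + θ) * n ^ 2 := by
  have hn' : (1 : ℝ) ≤ n := by exact_mod_cast hn
  have e : (2 + 2 * C / b) * (16 * C * r / W + θ) * n ^ 2 =
      (n + 2 * (C * n) / b + n) * (16 * (C * (r * n : ℕ)) / W + θ * n) := by
    push_cast; ring
  rw [e]
  gcongr

lemma five {x y δ : ℝ≥0∞} (h : x ≤ y + δ / 5 + (δ / 5 + δ / 5 + δ / 5) + δ / 5) : x ≤ y + δ := by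
  refine h.trans (le_of_eq ?_)
  have e := ENNReal.mul_div_cancel (a := 5) (b := δ) (by norm_num) (by norm_num)
  calc _ = y + 5 * (δ / 5) := by ring
    _ = _ := by rw [e]

lemma ex_real {δ : ℝ≥0∞} (hδ : 0 < δ) : ∃ ε : ℝ, 0 < ε ∧ ENNReal.ofReal ε ≤ δ := by
  obtain ⟨r, -, h1, h2⟩ := ENNReal.lt_iff_exists_real_btwn.1 hδ
  exact ⟨r, ENNReal.ofReal_pos.1 h1, h2.le⟩

omit [NullSingletonClass G] in
lemma P_shift {q : Om → V → Prop} (h : ∀ w y, q (tau y w) 0 ↔ q w y) (y : V) :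
    P G {w | q w y} = P G {w | q w 0} := by
  rw [← P_tau y {w | q w 0}]
  exact congrArg _ (Set.ext fun w => (h w y).symm)

omit [IsProbabilityMeasure G] [NullSingletonClass G] in
lemma P_three {A B C : Om → Prop} {δ : ℝ≥0∞} (h1 : P G {w | ¬ A w} ≤ δ) (h2 : P G {w | ¬ B w} ≤ δ)
    (h3 : P G {w | ¬ C w} ≤ δ) : P G {w | A w ∧ B w ∧ C w}ᶜ ≤ δ + δ + δ := by
  refine le_trans (measure_mono (t := {w | ¬ A w} ∪ {w | ¬ B w} ∪ {w | ¬ C w}) fun w hw => ?_)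
    ((measure_union_le _ _).trans (add_le_add ((measure_union_le _ _).trans (add_le_add h1 h2)) h3))
  simp only [Set.mem_compl_iff, Set.mem_ofPred_eq, Set.mem_union] at hw ⊢
  tauto

lemma zero_of {x : ℝ≥0∞} (h : ∀ δ, 0 < δ → x ≤ δ) : x = 0 :=
  le_antisymm (le_of_forall_gt_imp_ge_of_dense h) zero_le

/-- infinitely many robust bigeodesics through `y` give `Mem` for all `k` -/
lemma mem_of_infinite {w : Om} (hw : Nice w) {c : ℝ} {J : ℕ} {y : V}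
    (h : ¬ {v : ℤ → V | RobJ c J w v ∧ v 0 = y}.Finite) (k : ℕ) : ∃ D, Mem c J k D w y := by
  have h1 : (Set.range '' {v : ℤ → V | RobJ c J w v ∧ v 0 = y}).Infinite := fun hf => by
    refine h (Set.Finite.of_finite_fibers Set.range hf ?_)
    rintro _ ⟨u, hu, rfl⟩
    refine (Set.toFinite {u, rev u}).subset fun v hv => ?_
    exact Bi.eq_or_rev hw hv.1.1.rob.bi hu.1.rob.bi (le_of_eq hv.2) (hv.1.2.trans hu.2.symm)
  choose x hx hx' using fun i : ℕ => (h1.natEmbedding _ i).2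
  have h2 : ∀ i j : Fin k, ∃ t : ℤ, i ≠ j → ∀ s, x j s ≠ x i t := fun i j => by
    by_contra hc
    push Not at hc
    have h3 := Bi.range_eq hw (hx i).1.rob.bi (hx j).1.rob.bi (by
      rintro _ ⟨t, rfl⟩
      exact (hc t).2)
    rw [hx', hx'] at h3
    exact (hc 0).1 (Fin.ext ((h1.natEmbedding _).injective (Subtype.ext h3)))
  choose t ht using h2
  refine ⟨∑ q : Fin k × Fin k, (t q.1 q.2).natAbs, fun i => x i, fun i => ⟨(hx i).2, (hx i).1⟩,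
    fun i j hij => ⟨t i j, ?_, ht i j hij⟩⟩
  rw [Int.abs_eq_natAbs]
  exact Nat.cast_le.2 (single_le_sum (f := fun q : Fin k × Fin k => (t q.1 q.2).natAbs)
    (fun _ _ => Nat.zero_le _) (mem_univ (i, j)))

end Mn

open Mn

lemma P_Near (h0 : G (Set.Iio 0) = 0) {c : ℝ} (hc : 0 < c) (J D L : ℕ) (W : ℝ) {δ : ℝ≥0∞}
    (hδ : 0 < δ) : ∃ H : ℕ, ∀ y, P G {w | Near c J D L W H w y} ≤ δ := by
  obtain ⟨p⟩ := exists_par h0
  obtain ⟨H, hH⟩ := small (G := G) (fun H => measurableSet_Near c J D L W H 0)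
    (fun H H' hH w ⟨v, u, a1, a2, a3, a4, a5, a6⟩ => ⟨v, u, a1, a2, a3, a4, a5,
      fun a b b1 b2 b3 b4 => a6 a b (by omega) b2 b3 (by omega)⟩)
    ((ae_typ h0 p).mono fun w hw h => near_false hc hw h) hδ
  exact ⟨H, fun y => (P_shift (Near_tau c J D L W H) y).trans_le hH⟩

/-- (B1) `density` with `count`, `Far.false`, `W = c/5`, `L = J` -/
lemma P_Mem (h0 : G (Set.Iio 0) = 0) {c : ℝ} (hc : 0 < c) (J : ℕ) {δ : ℝ≥0∞} (hδ : 0 < δ) :
    ∃ k : ℕ, ∀ D, P G {w | Mem c J k D w 0} ≤ δ := by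
  obtain ⟨p⟩ := exists_par h0
  have hb := p.ha.trans p.hab
  have h5 : 0 < δ / 5 := ENNReal.div_pos hδ.ne' (by norm_num)
  obtain ⟨ε, hε, hε'⟩ := ex_real h5
  obtain ⟨C, n0, hC, hG⟩ := good_whp p.hGb h0 h5
  obtain ⟨R, hR1, hR⟩ := ex_nat (C + c) hb 1
  obtain ⟨k, hk1, hk⟩ := ex_nat
    ((2 + 2 * C / p.b) * (16 * C * ((R + 2) * 2 : ℕ) / (c / 5) + 1)) hε 1
  refine ⟨k, fun D => ?_⟩
  obtain ⟨H, hH⟩ := P_Near h0 hc J D J (2 * (c / 5)) h5
  obtain ⟨n, hn⟩ : ∃ n, n = n0 + J + H + 1 := ⟨_, rfl⟩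
  have hn' : (1 : ℝ) ≤ n := by exact_mod_cast (by omega : 1 ≤ n)
  have hm : n ≤ (R + 2) * 2 * n := Nat.le_mul_of_pos_left _ (by omega)
  rw [← zero_add δ]
  refine five ?_
  rw [zero_add]
  refine density (ball 0 n) ⟨0, mem_ball0.2 (by simp [nrm])⟩ (fun y => {w | Mem c J k D w y})
    (fun y => {w | Near c J D J (2 * (c / 5)) H w y}) (fun y _ => measurableSet_Mem c J k D y) _
    _ _ _ _ (fun y _ => (P_shift (Mem_tau c J k D) y).ge) (fun y _ => hH y)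
    (P_three (hG n (by omega)) (hG (2 * n) (by omega)) (hG ((R + 2) * 2 * n) (by omega))) ?_
  filter_upwards [ae_typ h0 p] with w hw ⟨g1, g2, g3⟩
  have hm2 : 3 * ((2 * n : ℕ) : ℤ) ≤ ((R + 2) * 2 * n : ℕ) := by
    have : 6 * n ≤ (R + 2) * 2 * n := Nat.mul_le_mul_right _ (by omega)
    omega
  have h1 := (count hc hw (J := J) (k := k) (D := D) (L := J) (H := H) (W := c / 5) (by positivity)
    g1 g3.1 (by omega)).trans (bound (by omega) hC hb (by positivity) _ (θ := 1) (by linarith))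
  refine le_trans ?_ (mul_le_mul_left hε' _)
  refine card_le hε.le (le_of_mul_le_mul_left (a := (k : ℝ)) (le_trans ?_ (h1.trans ?_))
    (by exact_mod_cast hk1))
  · refine mul_le_mul_of_nonneg_left (Nat.cast_le.2 (card_le_card fun y hy => ?_)) (by positivity)
    obtain ⟨a1, a2, a3⟩ := mem_filter.1 hy
    refine mem_filter.2 ⟨a1, a2, fun h => h.elim a3 (Far.false hw.nice hb g2 (mem_ball0.1 a1)
      (by push_cast; omega) le_rfl hm2 (by positivity) (by linarith) ?_)⟩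
    push_cast
    nlinarith
  · rw [← mul_assoc]
    exact mul_le_mul_of_nonneg_right hk.le (by positivity)

lemma ae_finJ (h0 : G (Set.Iio 0) = 0) {c : ℝ} (hc : 0 < c) :
    ∀ᵐ w ∂P G, ∀ (J : ℕ) (y : V), {v : ℤ → V | RobJ c J w v ∧ v 0 = y}.Finite := by
  have key : ∀ J : ℕ, ∀ᵐ w ∂P G, ¬ ∀ k, ∃ D, Mem c J k D w 0 := fun J => by
    rw [ae_iff]
    refine zero_of fun δ hδ => ?_
    obtain ⟨k, hk⟩ := P_Mem h0 hc J hδ
    refine le_trans (measure_mono (t := ⋃ D, {w | Mem c J k D w 0}) fun w hw =>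
      Set.mem_iUnion.2 (not_not.1 hw k)) ?_
    rw [Monotone.measure_iUnion]
    · exact iSup_le hk
    · rintro D D' hD w ⟨x, a1, a2⟩
      refine ⟨x, a1, fun i j hij => ?_⟩
      obtain ⟨t, b1, b2⟩ := a2 i j hij
      exact ⟨t, b1.trans (Nat.cast_le.2 hD), b2⟩
  filter_upwards [ae_nice h0, ae_all_iff.2 fun J => ae_tau (key J)] with w hw h J y
  by_contra hf
  refine h J y fun k => ?_
  simp only [Mem_tau]
  exact mem_of_infinite hw hf k

lemma ae_fin0 (h0 : G (Set.Iio 0) = 0) : ∀ᵐ w ∂P G, Fin0 w := by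
  obtain ⟨p⟩ := exists_par h0
  filter_upwards [ae_typ h0 p, ae_mdf (((ae_nice h0).mono fun _ h => h.nn).and
    (ae_finJ h0 (sub_pos.2 p.hab)))] with w hw hm y
  obtain ⟨J, S, h1, h2⟩ := robustify hw.nice hw.heavy hm y
  refine (S.finite_toSet.biUnion fun w' hw' => h1 w' hw' J y).subset fun v hv => ?_
  obtain ⟨w', a, b⟩ := h2 v hv.1 hv.2
  exact Set.mem_biUnion (mem_coe.2 a) ⟨b, hv.2⟩

/-- (B2) `density` with `count` for `k = 1`, `D = 0`, large `W`, and `Far.part` -/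
lemma P_Part (h0 : G (Set.Iio 0) = 0) {c : ℝ} (hc : 0 < c) (J : ℕ) {δ : ℝ≥0∞} (hδ : 0 < δ) :
    ∃ C : ℝ, ∀ L, P G {w | Mem c J 1 0 w 0} ≤ P G {w | Part c L C w 0} + δ := by
  obtain ⟨p⟩ := exists_par h0
  have hb := p.ha.trans p.hab
  have h5 : 0 < δ / 5 := ENNReal.div_pos hδ.ne' (by norm_num)
  obtain ⟨ε, hε, hε'⟩ := ex_real h5
  obtain ⟨C, n0, hC, hG⟩ := good_whp p.hGb h0 h5
  obtain ⟨θ, hθ, hθ'⟩ : ∃ θ : ℝ, 0 < θ ∧ (2 + 2 * C / p.b) * (θ + θ) = ε :=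
    ⟨ε / (2 + 2 * C / p.b) / 2, by positivity, by field_simp; ring⟩
  obtain ⟨W, hW1, hW⟩ := ex_nat (16 * C * (2 : ℕ)) hθ 1
  have hW' : (0 : ℝ) < W := by exact_mod_cast hW1
  refine ⟨2 * (2 * W) + 1, fun L => five ?_⟩
  obtain ⟨H, hH⟩ := P_Near h0 hc J 0 L (2 * W) h5
  obtain ⟨n, hn, hn'⟩ := ex_nat 1 hθ (n0 + L + H + 1)
  refine density (ball 0 n) ⟨0, mem_ball0.2 (by simp [nrm])⟩ (fun y => {w | Mem c J 1 0 w y})
    (fun y => {w | Part c L (2 * (2 * W) + 1) w y} ∪ {w | Near c J 0 L (2 * W) H w y})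
    (fun y _ => measurableSet_Mem c J 1 0 y) _
    _ _ _ _ (fun y _ => (P_shift (Mem_tau c J 1 0) y).ge) (fun y _ => (measure_union_le _ _).trans
      (add_le_add (P_shift (Part_tau c L _) y).le (hH y)))
    (P_three (hG n (by omega)) (hG (2 * n) (by omega)) (hG (2 * n) (by omega))) ?_
  filter_upwards [ae_typ h0 p] with w hw ⟨g1, _, g3⟩
  have h1 := (count hc hw (J := J) (k := 1) (D := 0) (L := L) (H := H) hW'
    g1 g3.1 (by omega)).trans (bound (by omega) hC hb hW' _ (θ := θ) (by linarith))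
  rw [Nat.cast_one, one_mul] at h1
  refine le_trans ?_ (mul_le_mul_left hε' _)
  refine card_le hε.le (le_trans ?_ (h1.trans ?_))
  · refine Nat.cast_le.2 (card_le_card fun y hy => ?_)
    obtain ⟨a1, a2, a3⟩ := (@mem_filter _ _ (_) _ _).1 hy
    exact mem_filter.2 ⟨a1, a2, fun h => a3 (h.symm.imp
      (Far.part hw.nice.nn (mem_ball0.1 a1) (by omega)) id)⟩
  · rw [← hθ']
    have : 16 * C * (2 : ℕ) / W ≤ θ := by rw [div_le_iff₀ hW']; linarith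
    gcongr

lemma ae_noRob (h0 : G (Set.Iio 0) = 0) {c : ℝ} (hc : 0 < c) :
    ∀ᵐ w ∂P G, ∀ (J : ℕ) (v : ℤ → V), ¬ RobJ c J w v := by
  obtain ⟨p⟩ := exists_par h0
  have key : ∀ J : ℕ, ∀ᵐ w ∂P G, ¬ Mem c J 1 0 w 0 := fun J => by
    rw [ae_iff]
    simp only [not_not]
    refine zero_of fun δ hδ => ?_
    have h2 : 0 < δ / 2 := ENNReal.half_pos hδ.ne'
    obtain ⟨C, hC⟩ := P_Part h0 hc J h2
    obtain ⟨L, hL⟩ := small (G := G) (fun L => measurableSet_Part c L C 0)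
      (fun L L' hL w ⟨u, a1, a2, a3⟩ => ⟨u, a1, fun s => (Nat.cast_le.2 hL).trans_lt (a2 s), a3⟩)
      (((ae_typ h0 p).and (ae_mdf ((ae_nice h0).and (ae_fin0 h0)))).mono
        fun w hw h => amp hc hw.1 hw.2 h) h2
    exact (hC L).trans ((add_le_add hL le_rfl).trans_eq (ENNReal.add_halves δ))
  filter_upwards [ae_all_iff.2 fun J => ae_tau (key J)] with w h J v hv
  exact h J (v 0) ((Mem_tau _ _ _ _ _ _).2 ⟨fun _ => v, fun _ => ⟨rfl, hv⟩,
    fun i j hij => (hij (Subsingleton.elim i j)).elim⟩)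

theorem main (h0 : G (Set.Iio 0) = 0) : ∀ᵐ w ∂P G, ∀ v, ¬ Bi w v := by
  obtain ⟨p⟩ := exists_par h0
  filter_upwards [ae_typ h0 p, ae_mdf (((ae_nice h0).mono fun _ h => h.nn).and
    (ae_noRob h0 (sub_pos.2 p.hab)))] with w hw hm v hv
  obtain ⟨J, S, h1, h2⟩ := robustify hw.nice hw.heavy hm (v 0)
  obtain ⟨w', a, b⟩ := h2 v hv rfl
  exact h1 w' a J v b

end Vale.Agent.P158N
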