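import Vale.Agent.P158N.Plan

/-! The variation measure on the boundary of a box. -/

namespace Vale.Agent.P158N

open Finset

variable {w : Om} {N : ℤ}

/-- variation measure of one function without alternation -/
lemma osc_one {α : Type*} (S : Finset α) (ps : α → ℤ) (f : α → ℝ) {W : ℝ} (h0 : 0 ≤ W)
    (hW : ∀ x ∈ S, |f x| ≤ W) (hi : ∀ x ∈ S, ∀ y ∈ S, ps x = ps y → x = y)
    (na : ∀ a ∈ S, ∀ b ∈ S, ∀ c ∈ S, ∀ d ∈ S, ps a < ps b → ps b < ps c → ps c < ps d →
      ∀ t, t < f a → t < f c → f b < t → f d < t → False) :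
    ∃ μ : α → ℝ, (∀ h, 0 ≤ μ h ∧ μ h ≤ 4 * W) ∧ ∀ h ∈ S, ∀ h' ∈ S, ps h ≤ ps h' →
      μ h ≤ μ h' ∧ f h' - f h ≤ μ h' - μ h := by
  classical
  have h1 : ∀ h ∈ S, ∃ a, (a ∈ S ∧ ps a ≤ ps h) ∧ ∀ x ∈ S, ps x ≤ ps h → f x ≤ f a := by
    intro h hh
    obtain ⟨a, ha, hb⟩ := exists_max_image (S.filter fun x => ps x ≤ ps h) f
      ⟨h, mem_filter.2 ⟨hh, le_rfl⟩⟩
    exact ⟨a, mem_filter.1 ha, fun x hx hx' => hb x (mem_filter.2 ⟨hx, hx'⟩)⟩
  have h2 : ∀ h ∈ S, ∃ d, (d ∈ S ∧ ps h ≤ ps d) ∧ ∀ x ∈ S, ps h ≤ ps x → f d ≤ f x := by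
    intro h hh
    obtain ⟨a, ha, hb⟩ := exists_min_image (S.filter fun x => ps h ≤ ps x) f
      ⟨h, mem_filter.2 ⟨hh, le_rfl⟩⟩
    exact ⟨a, mem_filter.1 ha, fun x hx hx' => hb x (mem_filter.2 ⟨hx, hx'⟩)⟩
  choose! a ha ha' using h1
  choose! d hd hd' using h2
  refine ⟨fun h => if h ∈ S then f (a h) + f (d h) + 2 * W else 0, fun h => ?_,
    fun h hh h' hh' hp => ?_⟩
  · by_cases hh : h ∈ S
    · have := abs_le.1 (hW _ (ha h hh).1)
      have := abs_le.1 (hW _ (hd h hh).1)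
      simp only [if_pos hh]
      constructor <;> linarith
    · simp only [if_neg hh]
      constructor <;> linarith
  · simp only [if_pos hh, if_pos hh']
    have b1 := ha' h' hh' _ (ha h hh).1 ((ha h hh).2.trans hp)
    have b2 := hd' h hh _ (hd h' hh').1 (hp.trans (hd h' hh').2)
    have b3 := ha' h' hh' h' hh' le_rfl
    have b4 := hd' h hh h hh le_rfl
    refine ⟨by linarith, ?_⟩
    by_contra hc
    push Not at hc
    have c1 : f h < f (a h) := by linarith
    have c2 : f (d h') < f h' := by linarith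
    have c3 : f h < f h' := by linarith
    have c4 : f (d h') < f (a h) := by linarith
    have ne : ∀ x ∈ S, ∀ y ∈ S, ps x ≤ ps y → f x ≠ f y → ps x < ps y := fun x hx y hy l n =>
      lt_of_le_of_ne l fun e => n (congrArg f (hi x hx y hy e))
    obtain ⟨t, t1, t2⟩ := exists_between (show max (f h) (f (d h')) < min (f (a h)) (f h') from
      max_lt (lt_min c1 c3) (lt_min c4 c2))
    exact na _ (ha h hh).1 h hh h' hh' _ (hd h' hh').1 (ne _ (ha h hh).1 _ hh (ha h hh).2 c1.ne')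
      (ne _ hh _ hh' hp c3.ne) (ne _ hh' _ (hd h' hh').1 (hd h' hh').2 c2.ne') t
      (lt_min_iff.1 t2).1 (lt_min_iff.1 t2).2 (max_lt_iff.1 t1).1 (max_lt_iff.1 t1).2

lemma D_le_edge (hw : NN w) {S : Set V} {x y : V} (h : Adj x y) (hx : x ∈ S) (hy : y ∈ S) :
    D S w x y ≤ w (edge x y) := by
  have := D_le_cost (v := fun t => if t ≤ 0 then x else y) (i := 0) (j := 0 + 1) (S := S) hw
    (by omega) (fun t a b => by
      obtain rfl : t = 0 := by omega
      simpa using h) fun t _ _ => by dsimp only; split_ifs <;> assumption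
  rw [cost_one] at this
  simpa [ed] using this

lemma osc_pair (hw : NN w) {p q : V} {W : ℝ} (hp : nrm p ≤ N) (hq : nrm q ≤ N)
    (h : D (Bx N) w p q ≤ W) : ∃ μ : V → ℝ, (∀ h, 0 ≤ μ h ∧ μ h ≤ 4 * W) ∧
      ∀ h h', nrm h = N → nrm h' = N → pos N h ≤ pos N h' → μ h ≤ μ h' ∧
        (D (Bx N) w p h' - D (Bx N) w q h') - (D (Bx N) w p h - D (Bx N) w q h) ≤ μ h' - μ h := by
  have hS : ∀ x, x ∈ (ball 0 N).filter (fun x => nrm x = N) ↔ nrm x = N := fun x => by
    rw [mem_filter, mem_ball0]; omega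
  obtain ⟨μ, h1, h2⟩ := osc_one ((ball 0 N).filter fun x => nrm x = N) (pos N)
    (fun x => D (Bx N) w p x - D (Bx N) w q x) ((D_nonneg hw _ _ _).trans h)
    (fun x hx => by
      have hx' := ((hS x).1 hx).le
      have := D_tri hw (con_box hp hq) (con_box hq hx')
      have := D_tri hw (con_box hq hp) (con_box hp hx')
      rw [D_symm _ w q p] at this
      exact abs_le.2 ⟨by linarith, by linarith⟩)
    (fun x hx y hy => pos_inj ((hS x).1 hx) ((hS y).1 hy))
    (fun a ha b hb c hc d hd l1 l2 l3 t t1 t2 t3 t4 => unimodal hw hp hq ((hS a).1 ha)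
      ((hS b).1 hb) ((hS c).1 hc) ((hS d).1 hd) t1 t2 t3 t4 (by unfold SA; omega))
  exact ⟨μ, h1, fun h h' a b => h2 h ((hS h).2 a) h' ((hS h').2 b)⟩

/-- (Osc) variation measure.  For an edge `g = (p,q)` of the circuit, `f x = d q x - d p x` has no
4-alternation and `|f| ≤ w g`; with `M h = max_{pos ≤ h} f`, `m h = min_{pos ≥ h} f` one gets
`f h' - f h ≤ (M h' - M h) + (m h' - m h)` for `pos h ≤ pos h'`, and the same for `-f`.  Sum over
the edges.  Finally the range of `z ↦ d z h' - d z h` on `Bx n` lies in its range on `L`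
(almost optimal walks from `z` to `h`, `h'` cross `L`). -/
lemma osc (hw : NN w) {n : ℤ} {X : ℝ} (hc : Circ w n X) (hn : 0 ≤ n) (hN : 2 * n < N) :
    ∃ μ : V → ℝ, (∀ h, 0 ≤ μ h ∧ μ h ≤ 8 * X) ∧
      ∀ h h', nrm h = N → nrm h' = N → pos N h ≤ pos N h' → μ h ≤ μ h' ∧
        ∀ z z', nrm z ≤ n → nrm z' ≤ n →
          |(D (Bx N) w z h' - D (Bx N) w z h) - (D (Bx N) w z' h' - D (Bx N) w z' h)|
            ≤ μ h' - μ h := by
  obtain ⟨L, F, hF, hL, hX, hsep, hcon⟩ := hc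
  have h1 : ∀ e ∈ F, ∃ μ : V → ℝ, (∀ h, 0 ≤ μ h ∧ μ h ≤ 8 * w e) ∧
      ∀ h h', nrm h = N → nrm h' = N → pos N h ≤ pos N h' → μ h ≤ μ h' ∧
        |(D (Bx N) w (src e) h' - D (Bx N) w (src e) h) -
          (D (Bx N) w (tgt e) h' - D (Bx N) w (tgt e) h)| ≤ μ h' - μ h := by
    intro e he
    have a : nrm (src e) ≤ N := by have := (hF e he).1; omega
    have b : nrm (tgt e) ≤ N := by have := (hF e he).2; omega
    have c := D_le_edge (S := Bx N) hw (adj_src_tgt e) a b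
    rw [edge_src_tgt] at c
    obtain ⟨μ, m1, m2⟩ := osc_pair hw a b c
    obtain ⟨ν, n1, n2⟩ := osc_pair hw b a (D_symm _ w _ _ ▸ c)
    refine ⟨fun h => μ h + ν h, fun h => ⟨by linarith [m1 h, n1 h], by linarith [m1 h, n1 h]⟩,
      fun h h' s t u => ?_⟩
    obtain ⟨m3, m4⟩ := m2 h h' s t u
    obtain ⟨n3, n4⟩ := n2 h h' s t u
    exact ⟨by linarith, abs_le.2 ⟨by linarith, by linarith⟩⟩
  choose! μ m1 m2 using h1
  refine ⟨fun h => ∑ e ∈ F, μ e h, fun h => ⟨sum_nonneg fun e he => (m1 e he h).1, ?_⟩,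
    fun h h' s t u => ⟨sum_le_sum fun e he => (m2 e he h h' s t u).1, ?_⟩⟩
  · refine (sum_le_sum fun e he => (m1 e he h).2).trans ?_
    rw [← mul_sum]; linarith
  · have key : ∀ z x, nrm z ≤ n → nrm x = N → ∀ ε > 0, ∃ p ∈ L,
        D (Bx N) w z p + D (Bx N) w p x < D (Bx N) w z x + ε := by
      intro z x a b ε hε
      obtain ⟨p, m, p1, rfl, rfl, p4, -, p6, p7⟩ :=
        D_approx hw (con_box (N := N) (x := z) (by omega) b.le) hε
      obtain ⟨k, k1, k2, k3⟩ := hsep p 0 m p1 p4 a (by omega)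
      exact ⟨p k, k3, (D_split hw p4 p6 k1 k2).trans_lt p7⟩
    have half : ∀ z z', nrm z ≤ n → nrm z' ≤ n →
        (D (Bx N) w z h' - D (Bx N) w z h) - (D (Bx N) w z' h' - D (Bx N) w z' h) ≤
          ∑ e ∈ F, μ e h' - ∑ e ∈ F, μ e h := by
      intro z z' a b
      refine le_of_forall_pos_le_add fun ε hε => ?_
      obtain ⟨p, p1, p2⟩ := key z h a s _ (half_pos hε)
      obtain ⟨q, q1, q2⟩ := key z' h' b t _ (half_pos hε)
      have hp : nrm p ≤ N := by have := hL p p1; omega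
      have hq : nrm q ≤ N := by have := hL q q1; omega
      have c1 := D_tri hw (con_box (N := N) (x := z) (by omega) hp) (con_box hp t.le)
      have c2 := D_tri hw (con_box (N := N) (x := z') (by omega) hq) (con_box hq s.le)
      have c3 := (hcon (fun x => D (Bx N) w x h' - D (Bx N) w x h) p p1 q q1).trans
        (sum_le_sum fun e he => (m2 e he h h' s t u).2)
      rw [sum_sub_distrib] at c3
      linarith
    intro z z' a b
    exact abs_le.2 ⟨by linarith [half z' z b a], half z z' a b⟩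

end Vale.Agent.P158N
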