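import Vale.Agent.P158N.Geo

/-! Planarity in a box: crossing lemma, unimodality, Monge inequality, variation measure. -/

namespace Vale.Agent.P158N

open Finset

/-- position of a point on the boundary of the box `Bx N` (counterclockwise from `(-N,-N)`) -/
def pos (N : ℤ) (x : V) : ℤ :=
  if x.2 = -N then x.1 + N else if x.1 = N then 3 * N + x.2 else if x.2 = N then 5 * N - x.1
  else 7 * N - x.2

/-- `{a,b}` strictly alternates with `{c,d}` -/
def SA (a b c d : ℤ) : Prop :=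
  (min a b < c ∧ c < max a b ∧ (d < min a b ∨ max a b < d)) ∨
  (min a b < d ∧ d < max a b ∧ (c < min a b ∨ max a b < c))

/-- a cheap circuit between `Bx n` and the complement of `Bx (2n)` -/
def Circ (w : Om) (n : ℤ) (X : ℝ) : Prop :=
  ∃ (L : Set V) (F : Finset E), (∀ e ∈ F, nrm (src e) ≤ 2 * n ∧ nrm (tgt e) ≤ 2 * n) ∧
    (∀ z ∈ L, nrm z ≤ 2 * n) ∧ ∑ e ∈ F, w e ≤ X ∧
    (∀ (v : ℤ → V) (i j : ℤ), i ≤ j → Walk v i j → nrm (v i) ≤ n → 2 * n < nrm (v j) →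
      ∃ k, i ≤ k ∧ k ≤ j ∧ v k ∈ L) ∧
    ∀ (f : V → ℝ), ∀ p ∈ L, ∀ q ∈ L, f p - f q ≤ ∑ e ∈ F, |f (src e) - f (tgt e)|

variable {w : Om} {N : ℤ}

lemma pos_inj {x y : V} (hx : nrm x = N) (hy : nrm y = N) (h : pos N x = pos N y) : x = y := by
  obtain ⟨a, b⟩ := x; obtain ⟨c, d⟩ := y
  simp only [nrm, abs_eq_max_neg, pos, Prod.mk.injEq] at *
  split_ifs at h <;> omega

lemma adj_iff {x y : V} : Adj x y ↔ (y.1 = x.1 + 1 ∧ y.2 = x.2) ∨ (y.1 = x.1 - 1 ∧ y.2 = x.2) ∨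
    (y.1 = x.1 ∧ y.2 = x.2 + 1) ∨ (y.1 = x.1 ∧ y.2 = x.2 - 1) := by
  simp only [Adj, abs_eq_max_neg]; omega

/-- telescoping modulo two -/
lemma tel {i j : ℤ} (f g : ℤ → ℤ) (hij : i ≤ j)
    (h : ∀ s, i ≤ s → s < j → (f s + g s + g (s + 1)) % 2 = 0) :
    (∑ s ∈ Ico i j, f s + g i + g j) % 2 = 0 := by
  induction j, hij using Int.leInduction with
  | base => simp only [Ico_self, sum_empty]; omega
  | succ j hj ih =>
    have h1 : Ico i (j + 1) = insert j (Ico i j) := by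
      ext t; simp only [mem_Ico, mem_insert]; omega
    rw [h1, sum_insert right_notMem_Ico]
    have := ih fun s a b => h s a (by omega)
    have := h j hj (by omega)
    omega

/-- the step crosses the vertical half line below the origin -/
def cr (u u' : V) : ℤ :=
  if ((u.1 = 0 ∧ u'.1 = 1) ∨ (u.1 = 1 ∧ u'.1 = 0)) ∧ u.2 < 0 then 1 else 0

def potF (N : ℤ) (z u : V) : ℤ :=
  if z.2 = -N ∨ z.1 = N then 0 else if z.2 = N then (if z.1 < u.1 then 1 else 0)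
  else if u.1 = -N ∧ u.2 < z.2 then 0 else 1

def potG (N : ℤ) (x u : V) : ℤ :=
  if x.2 = -N then (if x.1 ≤ u.1 then 1 else 0)
  else if x.1 = N ∧ u.1 = N ∧ x.2 < u.2 then 1 else 0

lemma cr_sq {a a' b b' : V} (ha : Adj a a') (hb : Adj b b') (h1 : a ≠ b) (h2 : a' ≠ b)
    (h3 : a ≠ b') (h4 : a' ≠ b') : (cr (a - b) (a' - b) + cr (a - b') (a' - b') +
      cr (a - b) (a - b') + cr (a' - b) (a' - b')) % 2 = 0 := by
  obtain ⟨a1, a2⟩ := a; obtain ⟨a3, a4⟩ := a'; obtain ⟨b1, b2⟩ := b; obtain ⟨b3, b4⟩ := b'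
  simp only [adj_iff, cr, ne_eq, Prod.mk.injEq, Prod.mk_sub_mk] at *
  rcases ha with ⟨rfl, rfl⟩ | ⟨rfl, rfl⟩ | ⟨rfl, rfl⟩ | ⟨rfl, rfl⟩ <;>
    rcases hb with ⟨rfl, rfl⟩ | ⟨rfl, rfl⟩ | ⟨rfl, rfl⟩ | ⟨rfl, rfl⟩ <;> split_ifs <;> omega

lemma nrm_le_iff {x : V} : nrm x ≤ N ↔ -N ≤ x.1 ∧ x.1 ≤ N ∧ -N ≤ x.2 ∧ x.2 ≤ N := by
  simp only [nrm, abs_eq_max_neg]; omega

lemma bx_side {x : V} (h : nrm x = N) : (x.2 = -N ∧ -N ≤ x.1 ∧ x.1 ≤ N) ∨
    (x.2 ≠ -N ∧ x.1 = N ∧ -N < x.2 ∧ x.2 ≤ N) ∨ (x.2 ≠ -N ∧ x.1 ≠ N ∧ x.2 = N ∧ -N ≤ x.1 ∧ x.1 < N) ∨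
    (x.2 ≠ -N ∧ x.1 ≠ N ∧ x.2 ≠ N ∧ x.1 = -N ∧ -N < x.2 ∧ x.2 < N) := by
  simp only [nrm, abs_eq_max_neg] at h; omega

lemma cr_F {z a a' : V} (hz : nrm z = N) (ha : Adj a a') (h1 : a ≠ z) (h2 : a' ≠ z)
    (h3 : nrm a ≤ N) (h4 : nrm a' ≤ N) :
    (cr (a - z) (a' - z) + potF N z a + potF N z a') % 2 = 0 := by
  have hs := bx_side hz
  clear hz
  obtain ⟨a1, a2⟩ := a; obtain ⟨a3, a4⟩ := a'; obtain ⟨b1, b2⟩ := z
  simp only [adj_iff, cr, potF, nrm_le_iff, ne_eq, Prod.mk.injEq, Prod.mk_sub_mk] at *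
  rcases hs with ⟨s1, s2⟩ | ⟨s1, s2, s3⟩ | ⟨s1, s2, s3, s4⟩ | ⟨s1, s2, s3, s4⟩
  · simp only [if_pos (Or.inl s1 : b2 = -N ∨ b1 = N)]
    split_ifs <;> omega
  · simp only [if_pos (Or.inr s2 : b2 = -N ∨ b1 = N)]
    split_ifs <;> omega
  · simp only [if_neg (not_or.2 ⟨s1, s2⟩), if_pos s3]
    split_ifs <;> omega
  · simp only [if_neg (not_or.2 ⟨s1, s2⟩), if_neg s3]
    split_ifs <;> omega

lemma cr_G {z a a' : V} (hz : nrm z = N) (ha : Adj a a') (h1 : z ≠ a) (h2 : z ≠ a')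
    (h3 : nrm a ≤ N) (h4 : nrm a' ≤ N) :
    (cr (z - a) (z - a') + potG N z a + potG N z a') % 2 = 0 := by
  have hs := bx_side hz
  clear hz
  obtain ⟨a1, a2⟩ := a; obtain ⟨a3, a4⟩ := a'; obtain ⟨b1, b2⟩ := z
  simp only [adj_iff, cr, potG, nrm_le_iff, ne_eq, Prod.mk.injEq, Prod.mk_sub_mk] at *
  rcases hs with ⟨s1, s2⟩ | ⟨s1, s2, s3⟩ | ⟨s1, s2, s3, s4⟩ | ⟨s1, s2, s3, s4⟩
  · simp only [if_pos s1]
    split_ifs <;> omega
  · simp only [if_neg s1]
    split_ifs <;> omega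
  · simp only [if_neg s1, s2, false_and, if_false]
    split_ifs <;> omega
  · simp only [if_neg s1, s2, false_and, if_false]
    split_ifs <;> omega

lemma pot_FG {x z : V} (hx : nrm x = N) (hz : nrm z = N) (h : x ≠ z) :
    (pos N x < pos N z ∧ (potF N z x + potG N x z) % 2 = 1) ∨
      (pos N z < pos N x ∧ (potF N z x + potG N x z) % 2 = 0) := by
  have hs := bx_side hz
  have ht := bx_side hx
  clear hz hx
  obtain ⟨a1, a2⟩ := x; obtain ⟨b1, b2⟩ := z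
  simp only [pos, potF, potG, ne_eq, Prod.mk.injEq] at *
  rcases hs with ⟨s1, s2⟩ | ⟨s1, s2, s3⟩ | ⟨s1, s2, s3, s4⟩ | ⟨s1, s2, s3, s4⟩
  · simp only [if_pos (Or.inl s1 : b2 = -N ∨ b1 = N), if_pos s1]
    split_ifs <;> omega
  · simp only [if_pos (Or.inr s2 : b2 = -N ∨ b1 = N), if_neg s1, if_pos s2]
    split_ifs <;> omega
  · simp only [if_neg (not_or.2 ⟨s1, s2⟩), if_pos s3, if_neg s1, if_neg s2]
    split_ifs <;> omega
  · simp only [if_neg (not_or.2 ⟨s1, s2⟩), if_neg s3, if_neg s1, if_neg s2]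
    split_ifs <;> omega

/-- (CL) crossing lemma.  Proof: for nonzero lattice vectors let `c u u' : ZMod 2` be the indicator
that the unit step `u → u'` is horizontal between columns 0 and 1 strictly below the origin.  If
the walks are disjoint, `c` summed around each elementary square
`(p i - q j, p (i+1) - q j, p (i+1) - q (j+1), p i - q (j+1))` vanishes, so the four boundary sums
add to 0.  For `z` on the boundary of the box each boundary sum telescopes to an explicit function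
of the endpoints; the total is `[x1<x2]+[x3<x2]+[x1<x4]+[x3<x4] = 1`. -/
lemma crossing {p q : ℤ → V} {i j k l : ℤ} (hij : i ≤ j) (hkl : k ≤ l) (hp : Walk p i j)
    (hq : Walk q k l) (ip : In (Bx N) p i j) (iq : In (Bx N) q k l) (h1 : nrm (p i) = N)
    (h3 : nrm (p j) = N) (h2 : nrm (q k) = N) (h4 : nrm (q l) = N)
    (h : SA (pos N (p i)) (pos N (p j)) (pos N (q k)) (pos N (q l))) :
    ∃ s t, i ≤ s ∧ s ≤ j ∧ k ≤ t ∧ t ≤ l ∧ p s = q t := by
  by_contra hc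
  have ne : ∀ s t, i ≤ s → s ≤ j → k ≤ t → t ≤ l → p s ≠ q t :=
    fun s t a b c d e => hc ⟨s, t, a, b, c, d, e⟩
  set H : ℤ → ℤ := fun t => ∑ s ∈ Ico i j, cr (p s - q t) (p (s + 1) - q t) with hH
  have e1 := tel (fun t => cr (p i - q t) (p i - q (t + 1)) + cr (p j - q t) (p j - q (t + 1))) H
    hkl fun t a b => by
      have := tel (fun s => cr (p s - q t) (p (s + 1) - q t) +
        cr (p s - q (t + 1)) (p (s + 1) - q (t + 1))) (fun s => cr (p s - q t) (p s - q (t + 1)))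
        hij fun s c d => cr_sq (hp s c d) (hq t a b) (ne _ _ c d.le a b.le)
          (ne _ _ (by omega) (by omega) a b.le) (ne _ _ c d.le (by omega) (by omega))
          (ne _ _ (by omega) (by omega) (by omega) (by omega))
      rw [sum_add_distrib] at this
      simp only [hH]
      omega
  rw [sum_add_distrib] at e1
  have eF : ∀ t, k ≤ t → t ≤ l → nrm (q t) = N →
      (H t + potF N (q t) (p i) + potF N (q t) (p j)) % 2 = 0 := fun t a b c =>
    tel _ (fun s => potF N (q t) (p s)) hij fun s d e => cr_F c (hp s d e) (ne _ _ d e.le a b)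
      (ne _ _ (by omega) (by omega) a b) (ip s d e.le) (ip _ (by omega) (by omega))
  have eG : ∀ s, i ≤ s → s ≤ j → nrm (p s) = N →
      (∑ t ∈ Ico k l, cr (p s - q t) (p s - q (t + 1)) + potG N (p s) (q k) +
        potG N (p s) (q l)) % 2 = 0 := fun s a b c =>
    tel _ (fun t => potG N (p s) (q t)) hkl fun t d e => cr_G c (hq t d e) (ne _ _ a b d e.le)
      (ne _ _ a b (by omega) (by omega)) (iq t d e.le) (iq _ (by omega) (by omega))
  have e2 := eF k le_rfl hkl h2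
  have e3 := eF l hkl le_rfl h4
  have e4 := eG i le_rfl hij h1
  have e5 := eG j hij le_rfl h3
  have e6 := pot_FG h1 h2 (ne _ _ le_rfl hij le_rfl hkl)
  have e7 := pot_FG h1 h4 (ne _ _ le_rfl hij hkl le_rfl)
  have e8 := pot_FG h3 h2 (ne _ _ hij le_rfl le_rfl hkl)
  have e9 := pot_FG h3 h4 (ne _ _ hij le_rfl hkl le_rfl)
  unfold SA at h
  omega

/-- a point on an almost optimal walk -/
lemma D_split (hw : NN w) {S : Set V} {p : ℤ → V} {i j k : ℤ} (hp : Walk p i j) (ip : In S p i j)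
    (h1 : i ≤ k) (h2 : k ≤ j) : D S w (p i) (p k) + D S w (p k) (p j) ≤ cost w p i j := by
  rw [← cost_add w p h1 h2]
  exact add_le_add (D_le_cost hw h1 (hp.mono le_rfl h2) fun t a b => ip t a (by omega))
    (D_le_cost hw h2 (hp.mono h1 le_rfl) fun t a b => ip t (by omega) b)

lemma star_con (hw : NN w) {s y x : V} {c : ℝ} (hs : nrm s ≤ N) (hy : nrm y ≤ N) (hx : nrm x ≤ N)
    (a : c < D (Bx N) w s x - D (Bx N) w y x) :
    Con {u | nrm u ≤ N ∧ c < D (Bx N) w s u - D (Bx N) w y u} y x := by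
  obtain ⟨p, m, p1, rfl, rfl, p4, -, p6, p7⟩ := D_approx hw (con_box hy hx) (sub_pos.2 a)
  refine ⟨p, 0, m, p1, rfl, rfl, p4, fun t b d => ⟨p6 t b d, ?_⟩⟩
  have := D_split hw p4 p6 b d
  have := D_tri hw (con_box hs (p6 t b d)) (con_box (p6 t b d) hx)
  linarith

/-- (Uni) `x ↦ d s x - d y x` has no 4-alternation on the boundary: the set where it is `> c` is
star shaped to `y` (along almost optimal walks), the set where it is `< c` is star shaped to `s`. -/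
lemma unimodal (hw : NN w) {s y x1 x2 x3 x4 : V} {c : ℝ} (hs : nrm s ≤ N) (hy : nrm y ≤ N)
    (h1 : nrm x1 = N) (h2 : nrm x2 = N) (h3 : nrm x3 = N) (h4 : nrm x4 = N)
    (a1 : c < D (Bx N) w s x1 - D (Bx N) w y x1) (a3 : c < D (Bx N) w s x3 - D (Bx N) w y x3)
    (a2 : D (Bx N) w s x2 - D (Bx N) w y x2 < c) (a4 : D (Bx N) w s x4 - D (Bx N) w y x4 < c) :
    ¬ SA (pos N x1) (pos N x3) (pos N x2) (pos N x4) := by
  intro h
  obtain ⟨p, i, j, p1, rfl, rfl, p4, p5⟩ :=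
    (star_con hw hs hy h1.le a1).symm.trans (star_con hw hs hy h3.le a3)
  obtain ⟨q, k, l, q1, rfl, rfl, q4, q5⟩ :=
    (star_con (c := -c) hw hy hs h2.le (by linarith)).symm.trans
      (star_con (c := -c) hw hy hs h4.le (by linarith))
  obtain ⟨a, b, a1, a2, b1, b2, e⟩ := crossing p1 q1 p4 q4 (fun t a b => (p5 t a b).1)
    (fun t a b => (q5 t a b).1) h1 h3 h2 h4 h
  have c1 := (p5 a a1 a2).2
  have c2 := (q5 b b1 b2).2
  rw [e] at c1
  linarith

lemma SA.symm {a b c d : ℤ} (h : SA a b c d) : SA c d a b := by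
  unfold SA at *; omega

/-- Monge: use `unimodal` with `s = x1`, `y = x4` (high: x2, x4; low: x1, x3). -/
lemma monge (hw : NN w) {x1 x2 x3 x4 : V}
    (h1 : nrm x1 = N) (h2 : nrm x2 = N) (h3 : nrm x3 = N) (h4 : nrm x4 = N)
    (h : D (Bx N) w x1 x3 + D (Bx N) w x2 x4 < D (Bx N) w x1 x2 + D (Bx N) w x3 x4) :
    ¬ SA (pos N x1) (pos N x3) (pos N x2) (pos N x4) ∧ pos N x1 ≠ pos N x2 ∧
      pos N x3 ≠ pos N x4 ∧ pos N x1 ≠ pos N x4 ∧ pos N x2 ≠ pos N x3 := by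
  set f : V → ℝ := fun x => D (Bx N) w x1 x - D (Bx N) w x4 x with hf
  have e1 : f x3 < f x2 := by
    simp only [hf, D_symm _ w x4]; linarith
  have e2 : f x1 ≤ f x3 := by
    have := D_tri hw (con_box h4.le h1.le) (con_box h1.le h3.le)
    simp only [hf, D_self hw (show x1 ∈ Bx N from h1.le)]; linarith
  have e3 : f x2 ≤ f x4 := by
    have := D_tri hw (con_box h1.le h4.le) (con_box h4.le h2.le)
    simp only [hf, D_self hw (show x4 ∈ Bx N from h4.le)]; linarith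
  refine ⟨fun hs => unimodal (c := (f x3 + f x2) / 2) hw h1.le h4.le h2 h1 h4 h3
    (show _ < f x2 by linarith) (show _ < f x4 by linarith) (show f x1 < _ by linarith)
    (show f x3 < _ by linarith) hs.symm, fun e => ?_, fun e => ?_, fun e => ?_, fun e => ?_⟩
  · have := congrArg f (pos_inj h1 h2 e); linarith
  · have := congrArg f (pos_inj h3 h4 e); linarith
  · have := congrArg f (pos_inj h1 h4 e); linarith
  · have := congrArg f (pos_inj h2 h3 e); linarith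

end Vale.Agent.P158N
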