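import Vale.Agent.P158N.Geo

/-! Probability tools: measurability, translations, resampling, density, compactness. -/

namespace Vale.Agent.P158N

open MeasureTheory Finset
open scoped ENNReal Classical

noncomputable def P (G : Measure ℝ) : Measure Om := Measure.infinitePi fun _ : E => G

instance (G : Measure ℝ) [IsProbabilityMeasure G] : IsProbabilityMeasure (P G) := by
  unfold P; infer_instance

/-- translation of the weights -/
def tau (y : V) (w : Om) : Om := fun e => w (e.1 + y, e.2)

/-- for every finite modification with positive probability targets, some choice of new values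
keeps `Gd` for all partial modifications -/
def Mdf (G : Measure ℝ) (Gd : Om → Prop) (w : Om) : Prop :=
  ∀ (F : Finset E) (W : E → Set ℝ), (∀ e ∈ F, MeasurableSet (W e) ∧ 0 < G (W e)) →
    ∃ s : Om, (∀ e ∈ F, s e ∈ W e) ∧ ∀ F' ⊆ F, Gd (F'.piecewise s w)

variable {G : Measure ℝ} [IsProbabilityMeasure G]

lemma measurable_cost (v : ℤ → V) (i j : ℤ) : Measurable fun w : Om => cost w v i j :=
  Finset.measurable_sum _ fun _ _ => measurable_pi_apply _

/-- use finitely supported `ℤ →₀ V` as a countable index set of walks -/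
lemma measurable_T (x y : V) : Measurable fun w : Om => T w x y := by
  have e : (fun w : Om => T w x y) = fun w => ⨅ p : {p : (ℤ →₀ V) × ℤ × ℤ //
      p.2.1 ≤ p.2.2 ∧ p.1 p.2.1 = x ∧ p.1 p.2.2 = y ∧ Walk p.1 p.2.1 p.2.2},
      cost w p.1.1 p.1.2.1 p.1.2.2 := by
    funext w
    refine congrArg sInf (Set.ext fun c => ⟨?_, ?_⟩)
    · rintro ⟨v, i, j, h1, h2, h3, h4, rfl⟩
      obtain ⟨u, hu⟩ : ∃ u : ℤ →₀ V, ∀ k, i ≤ k → k ≤ j → u k = v k :=
        ⟨Finsupp.onFinset (Icc i j) (fun k => if k ∈ Icc i j then v k else 0)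
          (fun k hk => by by_contra h; exact hk (if_neg h)),
          fun k a b => by rw [Finsupp.onFinset_apply, if_pos (mem_Icc.2 ⟨a, b⟩)]⟩
      refine ⟨⟨(u, i, j), h1, (hu i le_rfl h1).trans h2, (hu j h1 le_rfl).trans h3,
        fun k a b => ?_⟩, cost_congr' hu⟩
      simp only at a b ⊢
      rw [hu k a b.le, hu (k + 1) (by omega) (by omega)]
      exact h4 k a b
    · rintro ⟨⟨⟨u, i, j⟩, h1, h2, h3, h4⟩, rfl⟩
      exact ⟨u, i, j, h1, h2, h3, h4, rfl⟩
  rw [e]
  exact Measurable.iInf fun p => measurable_cost _ _ _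

lemma measurableSet_On (x z y : V) : MeasurableSet {w : Om | On w x z y} :=
  measurableSet_eq_fun ((measurable_T x z).add (measurable_T z y)) (measurable_T x y)

lemma P_tau (y : V) (A : Set Om) : P G (tau y ⁻¹' A) = P G A := by
  obtain ⟨e, he⟩ : ∃ e : E ≃ E, ∀ b : E, e (b.1 + y, b.2) = b :=
    ⟨(Equiv.subRight y).prodCongr (Equiv.refl Bool), fun b => by simp⟩
  have h1 := Measure.infinitePi_map_piCongrLeft (fun _ : E => G) e
  have h2 : (MeasurableEquiv.piCongrLeft (fun _ : E => ℝ) e : Om → Om) = tau y := by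
    funext w b
    have := MeasurableEquiv.piCongrLeft_apply_apply (β := fun _ : E => ℝ) e w (b.1 + y, b.2)
    rw [he] at this
    exact this
  rw [← h2, ← MeasurableEquiv.map_apply]
  exact congrArg (fun μ : Measure Om => μ A) h1

lemma edge_add (x x' y : V) : edge (x + y) (x' + y) = ((edge x x').1 + y, (edge x x').2) := by
  simp [edge, min_add_add_right, Prod.ext_iff]

lemma adj_add (x x' y : V) : Adj (x + y) (x' + y) ↔ Adj x x' := by
  simp [Adj]

lemma cost_tau (y : V) (w : Om) (v : ℤ → V) (i j : ℤ) :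
    cost (tau y w) v i j = cost w (fun k => v k + y) i j := by
  simp only [cost, tau, edge_add]

lemma T_tau (y : V) (w : Om) (x x' : V) : T (tau y w) x x' = T w (x + y) (x' + y) := by
  refine congrArg sInf (Set.ext fun c => ⟨?_, ?_⟩)
  · rintro ⟨v, i, j, h1, rfl, rfl, h4, rfl⟩
    exact ⟨fun k => v k + y, i, j, h1, rfl, rfl, fun k a b => (adj_add _ _ _).2 (h4 k a b),
      cost_tau y w v i j⟩
  · rintro ⟨v, i, j, h1, h2, h3, h4, rfl⟩
    refine ⟨fun k => v k - y, i, j, h1, by simp [h2], by simp [h3], fun k a b => ?_, ?_⟩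
    · refine (adj_add _ _ y).1 ?_
      simpa using h4 k a b
    · rw [cost_tau]
      simp

lemma Bi_tau (y : V) (w : Om) (v : ℤ → V) : Bi (tau y w) v ↔ Bi w fun k => v k + y := by
  simp only [Bi, Geo, Walk, cost_tau, T_tau, adj_add]

lemma update_tau (y : V) (w : Om) (x x' : V) (t : ℝ) :
    Function.update (tau y w) (edge x x') t =
      tau y (Function.update w (edge (x + y) (x' + y)) t) := by
  funext e
  simp only [tau, edge_add, Function.update_apply, Prod.ext_iff, add_left_inj]

lemma tau_edge (y : V) (w : Om) (x x' : V) :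
    tau y w (edge x x') = w (edge (x + y) (x' + y)) := by
  rw [edge_add, tau]

lemma ae_tau {p : Om → Prop} (h : ∀ᵐ w ∂P G, p w) : ∀ᵐ w ∂P G, ∀ y, p (tau y w) := by
  rw [ae_all_iff]
  intro y
  rw [ae_iff] at h ⊢
  exact (P_tau y {w | ¬ p w}).trans h

lemma P_pi (F : Finset E) (W : E → Set ℝ) (hW : ∀ e ∈ F, MeasurableSet (W e)) :
    P G {s | ∀ e ∈ F, s e ∈ W e} = ∏ e ∈ F, G (W e) :=
  Measure.infinitePi_pi (fun _ : E => G) hW

lemma measurable_piecewise (F : Finset E) :
    Measurable fun p : Om × Om => F.piecewise p.2 p.1 := by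
  refine measurable_pi_lambda _ fun e => ?_
  by_cases he : e ∈ F
  · simp only [F.piecewise_eq_of_mem _ _ he]
    exact (measurable_pi_apply e).comp measurable_snd
  · simp only [F.piecewise_eq_of_notMem _ _ he]
    exact (measurable_pi_apply e).comp measurable_fst

lemma piecewise_mp (F : Finset E) :
    MeasurePreserving (fun p : Om × Om => F.piecewise p.2 p.1) ((P G).prod (P G)) (P G) := by
  refine ⟨measurable_piecewise F, Measure.eq_infinitePi _ fun s t ht => ?_⟩
  rw [Measure.map_apply (measurable_piecewise F)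
    (MeasurableSet.pi s.countable_toSet fun i _ => ht i)]
  have e : (fun p : Om × Om => F.piecewise p.2 p.1) ⁻¹' Set.pi s t =
      {w | ∀ e ∈ s.filter (· ∉ F), w e ∈ t e} ×ˢ {w | ∀ e ∈ s.filter (· ∈ F), w e ∈ t e} := by
    ext p
    simp only [Set.mem_preimage, Set.mem_pi, mem_coe, Set.mem_prod, Set.mem_ofPred_eq, mem_filter]
    constructor
    · intro h
      refine ⟨fun e he => ?_, fun e he => ?_⟩
      · have := h e he.1
        rwa [F.piecewise_eq_of_notMem _ _ he.2] at this
      · have := h e he.1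
        rwa [F.piecewise_eq_of_mem _ _ he.2] at this
    · intro h e he
      by_cases hF : e ∈ F
      · rw [F.piecewise_eq_of_mem _ _ hF]
        exact h.2 e ⟨he, hF⟩
      · rw [F.piecewise_eq_of_notMem _ _ hF]
        exact h.1 e ⟨he, hF⟩
  rw [e, Measure.prod_prod, P_pi _ _ fun e _ => ht e, P_pi _ _ fun e _ => ht e, mul_comm,
    prod_filter_mul_prod_filter_not]

lemma lintegral_piecewise (F : Finset E) {A : Set Om} (hA : MeasurableSet A) :
    ∫⁻ w, P G {s | F.piecewise s w ∈ A} ∂P G = P G A := by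
  rw [← (piecewise_mp (G := G) F).measure_preimage hA.nullMeasurableSet,
    Measure.prod_apply (measurable_piecewise F hA)]
  rfl

lemma measurable_sec (F : Finset E) {A : Set Om} (hA : MeasurableSet A) :
    Measurable fun w => P G {s | F.piecewise s w ∈ A} :=
  measurable_measure_prodMk_left (ν := P G) (measurable_piecewise F hA)

/-- (QMod) quantitative modification; Markov for `w ↦ ∑_{F' ⊆ E0} P {s | F'.piecewise s w ∈ A}` -/
lemma qmod (A : Set Om) (hA : MeasurableSet A) (E0 : Finset E) (κ : ℝ≥0∞) (hκ : κ ≤ 1) :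
    κ ^ E0.card * P G {w | ∃ F ⊆ E0, ∃ W : E → Set ℝ,
      (∀ e ∈ F, MeasurableSet (W e) ∧ κ ≤ G (W e)) ∧
      ∀ s : Om, (∀ e ∈ F, s e ∈ W e) → ∃ F' ⊆ F, F'.piecewise s w ∈ A}
      ≤ 2 ^ E0.card * P G A := by
  have hm : Measurable fun w => ∑ F' ∈ E0.powerset, P G {s | F'.piecewise s w ∈ A} :=
    Finset.measurable_sum _ fun F' _ => measurable_sec F' hA
  have h1 := mul_meas_ge_le_lintegral (μ := P G) hm (κ ^ E0.card)
  rw [lintegral_finsetSum _ fun F' _ => measurable_sec F' hA] at h1
  simp only [lintegral_piecewise _ hA, sum_const, card_powerset, nsmul_eq_mul, Nat.cast_pow,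
    Nat.cast_ofNat] at h1
  refine le_trans (mul_le_mul_right (measure_mono ?_) _) h1
  rintro w ⟨F, hF, W, hW, h⟩
  calc κ ^ E0.card ≤ κ ^ F.card := pow_le_pow_right_of_le_one' hκ (card_le_card hF)
    _ = ∏ _e ∈ F, κ := (prod_const _).symm
    _ ≤ ∏ e ∈ F, G (W e) := prod_le_prod' fun e he => (hW e he).2
    _ = P G {s | ∀ e ∈ F, s e ∈ W e} := (P_pi F W fun e he => (hW e he).1).symm
    _ ≤ P G (⋃ F' ∈ E0.powerset, {s | F'.piecewise s w ∈ A}) := by
      refine measure_mono fun s hs => ?_
      obtain ⟨F', h1, h2⟩ := h s hs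
      exact Set.mem_biUnion (mem_coe.2 (mem_powerset.2 (h1.trans hF))) h2
    _ ≤ _ := measure_biUnion_finset_le _ _

/-- (Mod) -/
lemma ae_mdf {Gd : Om → Prop} (h : ∀ᵐ w ∂P G, Gd w) : ∀ᵐ w ∂P G, Mdf G Gd w := by
  have h1 : ∀ᵐ p ∂(P G).prod (P G), ∀ F' : Finset E, Gd (F'.piecewise p.2 p.1) :=
    ae_all_iff.2 fun F' => (piecewise_mp F').quasiMeasurePreserving.ae h
  filter_upwards [Measure.ae_ae_of_ae_prod h1] with w hw F W hW
  have h2 : P G {s | ∀ e ∈ F, s e ∈ W e} ≠ 0 := by
    rw [P_pi F W fun e he => (hW e he).1]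
    exact prod_ne_zero_iff.2 fun e he => (hW e he).2.ne'
  obtain ⟨s, hs, hs'⟩ := Measure.exists_mem_of_measure_ne_zero_of_ae h2 (ae_restrict_of_ae hw)
  exact ⟨s, hs, fun F' _ => hs' F'⟩

lemma sec_eq (e : E) {A : Set Om} (hA : MeasurableSet A) (w : Om) :
    P G {s | ({e} : Finset E).piecewise s w ∈ A} = G {t | Function.update w e t ∈ A} := by
  have h1 : MeasurableSet {t | Function.update w e t ∈ A} := measurable_update w hA
  rw [← (measurePreserving_eval_infinitePi (fun _ : E => G) e).measure_preimage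
    h1.nullMeasurableSet]
  simp only [piecewise_singleton]
  rfl

/-- one-edge sections -/
lemma section_le (A A' : Set Om) (hA : MeasurableSet A) (hA' : MeasurableSet A') (e : E)
    (W : Set ℝ) (c : ℝ≥0∞) (h1 : ∀ w ∈ A, G {t | Function.update w e t ∈ A} ≤ c)
    (h2 : ∀ w ∈ A, ∀ t ∈ W, Function.update w e t ∈ A') : G W * P G A ≤ c * P G A' := by
  rw [← lintegral_piecewise {e} hA, ← lintegral_piecewise {e} hA',
    ← lintegral_const_mul _ (measurable_sec _ hA), ← lintegral_const_mul _ (measurable_sec _ hA')]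
  refine lintegral_mono fun w => ?_
  simp only [sec_eq e hA, sec_eq e hA']
  rcases Set.eq_empty_or_nonempty {t | Function.update w e t ∈ A} with h | ⟨t0, ht0⟩
  · simp [h]
  · have h3 := h1 _ ht0
    have h4 := h2 _ ht0
    simp only [Function.update_idem] at h3 h4
    rw [mul_comm]
    exact mul_le_mul' h3 (measure_mono h4)

/-- density lemma -/
lemma density (Y : Finset V) (hY : Y.Nonempty) (A B : V → Set Om)
    (hA : ∀ y ∈ Y, MeasurableSet (A y)) (Gd : Set Om) (ρ β δ c : ℝ≥0∞)
    (h1 : ∀ y ∈ Y, ρ ≤ P G (A y)) (h2 : ∀ y ∈ Y, P G (B y) ≤ β) (h3 : P G Gdᶜ ≤ δ)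
    (h4 : ∀ᵐ w ∂P G, w ∈ Gd →
      (((Y.filter fun y => w ∈ A y ∧ w ∉ B y).card : ℕ) : ℝ≥0∞) ≤ c * Y.card) :
    ρ ≤ β + δ + c := by
  have hY0 : (Y.card : ℝ≥0∞) ≠ 0 := Nat.cast_ne_zero.2 hY.card_pos.ne'
  refine (ENNReal.mul_le_mul_iff_left hY0 (ENNReal.natCast_ne_top _)).1 ?_
  have hB : ∀ y, MeasurableSet (toMeasurable (P G) (B y)) := fun y => measurableSet_toMeasurable _ _
  have hN : MeasurableSet (toMeasurable (P G) Gdᶜ) := measurableSet_toMeasurable _ _
  have m1 : Measurable fun w => ∑ y ∈ Y, (toMeasurable (P G) (B y)).indicator (1 : Om → ℝ≥0∞) w :=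
    Finset.measurable_sum _ fun y _ => measurable_one.indicator (hB y)
  calc ρ * Y.card = ∑ _y ∈ Y, ρ := by rw [sum_const, nsmul_eq_mul, mul_comm]
    _ ≤ ∑ y ∈ Y, P G (A y) := sum_le_sum h1
    _ = ∫⁻ w, ∑ y ∈ Y, (A y).indicator 1 w ∂P G := by
      rw [lintegral_finsetSum _ fun y hy => measurable_one.indicator (hA y hy)]
      exact sum_congr rfl fun y hy => (lintegral_indicator_one (hA y hy)).symm
    _ ≤ ∫⁻ w, (∑ y ∈ Y, (toMeasurable (P G) (B y)).indicator 1 w +
        (toMeasurable (P G) Gdᶜ).indicator 1 w * Y.card + c * Y.card) ∂P G := by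
      refine lintegral_mono_ae ?_
      filter_upwards [h4] with w hw
      by_cases hG : w ∈ Gd
      · refine le_trans ?_ (add_le_add (le_self_add) (hw hG))
        rw [card_filter, Nat.cast_sum, ← sum_add_distrib]
        refine sum_le_sum fun y _ => ?_
        by_cases ha : w ∈ A y
        · by_cases hb : w ∈ B y
          · rw [Set.indicator_of_mem ha, Set.indicator_of_mem (subset_toMeasurable _ _ hb)]
            exact le_self_add
          · rw [Set.indicator_of_mem ha, if_pos ⟨ha, hb⟩, Nat.cast_one]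
            exact le_add_self
        · rw [Set.indicator_of_notMem ha]
          exact zero_le
      · refine le_trans ?_ (le_add_self.trans le_self_add)
        rw [Set.indicator_of_mem (subset_toMeasurable _ _ hG), Pi.one_apply, one_mul,
          card_eq_sum_ones, Nat.cast_sum]
        refine sum_le_sum fun y _ => ?_
        rw [Nat.cast_one]
        exact Set.indicator_le_self' (fun _ _ => zero_le) w
    _ = ∑ y ∈ Y, P G (B y) + P G Gdᶜ * Y.card + c * Y.card := by
      rw [lintegral_add_right _ measurable_const, lintegral_add_left m1,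
        lintegral_finsetSum _ fun y _ => measurable_one.indicator (hB y),
        lintegral_mul_const _ (measurable_one.indicator hN), lintegral_indicator_one hN,
        measure_toMeasurable, lintegral_const, measure_univ, mul_one]
      simp only [lintegral_indicator_one (hB _), measure_toMeasurable]
    _ ≤ ∑ _y ∈ Y, β + δ * Y.card + c * Y.card := by gcongr with y hy; exact h2 y hy
    _ = _ := by rw [sum_const, nsmul_eq_mul]; ring

end Vale.Agent.P158N
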