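import Vale.Agent.P158N.AP
import Vale.Agent.P158N.Bus
import Vale.Agent.P158N.Peierls

/-! In a typical configuration two distinct bigeodesics cannot have bounded hybrids. -/

namespace Vale.Agent.P158N

open MeasureTheory

/-- typical configurations -/
structure Typ {G : Measure ℝ} (p : Par G) (w : Om) : Prop where
  nice : Nice w
  heavy : ∀ z, ∃ l, Pe (Set.Ici p.b) w z l
  soft : ∀ η : ℝ, 0 < η → ∃ (η' : ℝ) (S : Set ℝ), 0 < η' ∧ η' ≤ η ∧
    (∀ t ∈ S, 0 < G (Set.Icc (t - η) (t - η'))) ∧ ∀ z, ∃ l, Pe S w z l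
  mdf : Mdf G (fun w' => Nice w' ∧ NoApex w') w

variable {G : Measure ℝ} {p : Par G} {w : Om} {v u : ℤ → V}

lemma pigeon {α : Type*} {Q : Set α} (hQ : Q.Finite) {p : α → ℤ → Prop}
    (hm : ∀ q H H', H ≤ H' → p q H' → p q H) (h : ∀ H, ∃ q ∈ Q, p q H) : ∃ q ∈ Q, ∀ H, p q H := by
  by_contra hc
  push Not at hc
  choose! f hf using hc
  obtain ⟨M, hM⟩ := (hQ.image f).bddAbove
  obtain ⟨q, hq, h⟩ := h M
  exact hf q hq (hm q _ _ (hM ⟨q, hq, rfl⟩) h)

lemma sum_gain' {s : Om} (hw : Nice w) (hv : Bi w v) {A : Finset ℤ} {c : ℝ}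
    (hc : ∀ t ∈ A, c ≤ w (ed v t) - s (ed v t)) :
    A.card * c ≤ ∑ e ∈ A.image (ed v), (w e - s e) := by
  rw [Finset.sum_image fun x _ y _ e => (hv.walk (min x y) (max x y + 1)).ed_injOn
    (hv.inj hw.pos).injOn ⟨by omega, by omega⟩ ⟨by omega, by omega⟩ e]
  simpa using Finset.card_nsmul_le_sum A _ c hc

lemma Typ.heavy_fwd (h : Typ p w) (hv : Bi w v) (i : ℤ) (K : ℝ) : ∃ (j : ℤ) (A : Finset ℤ),
    i ≤ j ∧ (∀ t ∈ A, i ≤ t ∧ t < j ∧ p.b ≤ w (ed v t)) ∧ K < A.card * (p.b - p.a) := by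
  obtain ⟨l, hl⟩ := h.heavy (v i)
  have hab := sub_pos.2 p.hab
  obtain ⟨n, hn⟩ := exists_nat_gt (K / (p.b - p.a))
  obtain ⟨A, a, b⟩ := hl.pick (v := v) (k := i) (l := i + (l + 2 * n)) rfl le_rfl (by omega)
    (by omega) (hv.walk _ _) (hv.inj h.nice.pos).injOn
  refine ⟨_, A, by omega, a, ?_⟩
  have : (n : ℝ) ≤ A.card := by exact_mod_cast (show n ≤ A.card by omega)
  rw [div_lt_iff₀ hab] at hn
  nlinarith

lemma Typ.heavy_bwd (h : Typ p w) (hv : Bi w v) (i : ℤ) (K : ℝ) : ∃ (j : ℤ) (A : Finset ℤ),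
    j ≤ i ∧ (∀ t ∈ A, j ≤ t ∧ t < i ∧ p.b ≤ w (ed v t)) ∧ K < A.card * (p.b - p.a) := by
  obtain ⟨l, hl⟩ := h.heavy (v i)
  have hab := sub_pos.2 p.hab
  obtain ⟨n, hn⟩ := exists_nat_gt (K / (p.b - p.a))
  obtain ⟨A, a, b⟩ := hl.pick' (v := v) (k := i) (l := i - (l + 2 * n)) rfl le_rfl (by omega)
    (by omega) (hv.walk _ _) (hv.inj h.nice.pos).injOn
  refine ⟨_, A, by omega, a, ?_⟩
  have : (n : ℝ) ≤ A.card := by exact_mod_cast (show n ≤ A.card by omega)
  rw [div_lt_iff₀ hab] at hn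
  nlinarith

/-- apexes in a finite set with arbitrarily far ends on `v` and `u` -/
lemma apex_inf {α : Type*} {Q : Set (α × V)} (hQ : Q.Finite) (iv : Function.Injective v)
    (iu : Function.Injective u) (W : α → Om) (hW : ∀ x ∈ Q, NoApex (W x.1)) (m : ℤ)
    (h : ∀ a b b', a ≤ -m → m ≤ b → m ≤ b' → ∃ x ∈ Q, Apx (W x.1) (v a) x.2 (u b) (v b')) :
    False := by
  obtain ⟨M, hM⟩ := (hQ.image fun x => nrm x.2).bddAbove
  obtain ⟨x, hx, h⟩ := pigeon hQ (p := fun x H => ∃ a b b', H < nrm (a - x.2) ∧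
      H < nrm (b - x.2) ∧ H < nrm (b' - x.2) ∧ Apx (W x.1) a x.2 b b')
    (fun x H H' hH ⟨a, b, b', c, d, e, f⟩ => ⟨a, b, b', by omega, by omega, by omega, f⟩)
    fun H => by
      obtain ⟨k, k0, hk⟩ := escape iv 0 (H + M)
      obtain ⟨l, l0, hl⟩ := escape iu 0 (H + M)
      obtain ⟨x, hx, h⟩ := h (-max m k) (max m l) (max m k) (by omega) (by omega) (by omega)
      have : nrm x.2 ≤ M := hM ⟨x, hx, rfl⟩
      have a1 := hk (-max m k) (by rw [abs_eq_max_neg]; omega)
      have a2 := hk (max m k) (by rw [abs_eq_max_neg]; omega)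
      have a3 := hl (max m l) (by rw [abs_eq_max_neg]; omega)
      have := nrm_le_add (v (-max m k)) x.2
      have := nrm_le_add (v (max m k)) x.2
      have := nrm_le_add (u (max m l)) x.2
      rw [sub_zero] at a1 a2 a3
      exact ⟨x, hx, _, _, _, by omega, by omega, by omega, h⟩
  exact hW x hx _ h

/-- (Y) Lower heavy edges of `v` with indices in `[-J,0)` by more than `K`.  For all `a ≤ -J`,
`b ≥ 0` the new geodesic from `v a` to `u b` uses a lowered edge; its last point `v k` on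
`v[a,b']` (`exists_apx`) is an apex, and `k ≤ 0` or `v k` lies on `u`; so `v k` ranges over a finite
set and one vertex is an apex at all scales. -/
lemma propY (h : Typ p w) (hv : Bi w v) (hu : Bi w u) (h0 : v 0 = u 0) (hy : Hyb w v u)
    (hf : {b : ℤ | 0 ≤ b ∧ u b ∈ Set.range v}.Finite) : False := by
  classical
  obtain ⟨K, hK⟩ := hy
  obtain ⟨j, A, j0, hA, cA⟩ := h.heavy_bwd hv 0 K
  obtain ⟨s, hs, hN⟩ := h.mdf (A.image (ed v)) (fun _ => Set.Icc 0 p.a)
    fun _ _ => ⟨measurableSet_Icc, p.hGa⟩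
  obtain ⟨N, hno⟩ := hN _ subset_rfl
  have nn := h.nice.nn
  have hab := p.hab
  have sA : ∀ t ∈ A, p.b - p.a ≤ w (ed v t) - s (ed v t) := fun t ht => by
    have := (hs _ (Finset.mem_image_of_mem _ ht)).2
    have := (hA t ht).2.2
    linarith
  have hsF : ∀ e ∈ A.image (ed v), s e ≤ w e := fun e he => by
    obtain ⟨t, ht, rfl⟩ := Finset.mem_image.1 he
    linarith [sA t ht]
  have g := sum_gain' h.nice hv sA
  have out : ∀ e, e ∉ A.image (ed v) → (A.image (ed v)).piecewise s w e = w e :=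
    fun e he => Finset.piecewise_eq_of_notMem _ _ _ he
  have B : Bi ((A.image (ed v)).piecewise s w) v :=
    hv.lower N.nn h.nice.pos _ out (fun e _ => pw_le' hsF e) fun e he => by
      obtain ⟨t, -, rfl⟩ := Finset.mem_image.1 he; exact ⟨t, rfl⟩
  have en : ∀ e ∈ A.image (ed v), ∀ x, End e x → ∃ k, j ≤ k ∧ k ≤ 0 ∧ x = v k := fun e he x hx => by
    obtain ⟨t, ht, rfl⟩ := Finset.mem_image.1 he
    obtain ⟨a, b, -⟩ := hA t ht
    rcases ((hv.walk t (t + 1)).end_ed le_rfl (by omega)).1 hx with c | c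
    exacts [⟨t, a, b.le, c⟩, ⟨t + 1, by omega, by omega, c⟩]
  set w' := (A.image (ed v)).piecewise s w
  refine apex_inf (α := Unit) (Q := (fun x => ((), x)) '' (v '' Set.Icc j 0 ∪ u '' _))
    ((((Set.finite_Icc j 0).image v).union (hf.image u)).image _) (hv.inj h.nice.pos)
    (hu.inj h.nice.pos) (fun _ => w') (fun _ _ => hno) (-j) fun a b b' ha hb hb' => ?_
  have c1 := cost_pw (w := w) (s := s) (hv.walk a 0) (hv.inj h.nice.pos).injOn subset_rfl
    (fun e he => by
      obtain ⟨t, ht, rfl⟩ := Finset.mem_image.1 he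
      have := hA t ht
      exact ⟨t, by omega, by omega, rfl⟩) fun _ _ _ h => h
  rw [hv.cost (by omega), B.cost (by omega)] at c1
  have c2 := T_tri N.nn (v a) (v 0) (u b)
  have c3 := T_mono N.nn (pw_le' hsF) (v 0) (u b)
  have c4 := hK a b (by omega) (by omega)
  rw [← h0] at c4
  rcases last_edge N nn _ (fun e he => (out e he).ge) (v a) (u b) with c | ⟨e, he, x, c, d, -⟩
  · linarith
  obtain ⟨k, k1, k2, rfl⟩ := en e he x c
  obtain ⟨l, l1, l2, l3⟩ := exists_apx N (B a b' (by omega)) (by omega) (by omega) d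
  refine ⟨((), v l), ⟨_, ?_, rfl⟩, l3⟩
  rcases le_total l 0 with c | c
  · exact Or.inl ⟨l, ⟨by omega, c⟩, rfl⟩
  have o := l3.1.left N.nn (B.on N.nn (show a ≤ 0 by omega) c)
  have c5 : T w (v 0) (u b) ≤ T w' (v 0) (u b) := by
    rcases last_edge N nn _ (fun e he => (out e he).ge) (v 0) (u b) with c | ⟨e, he, x, c, d, f⟩
    · exact c
    obtain ⟨k, k1, k2, rfl⟩ := en e he x c
    rwa [(B.on N.nn (show a ≤ k by omega) k2).antisymm N (o.1.right N.nn d).2] at f
  have gu : Geo w' u 0 b := ⟨by omega, hu.walk _ _, le_antisymm (by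
    rw [← h0]
    refine le_trans (cost_le fun t _ _ => pw_le' hsF _) (le_trans (le_of_eq ?_) c5)
    rw [hu.cost (by omega), h0]) (T_le_cost N.nn (by omega) (hu.walk _ _))⟩
  obtain ⟨t, t1, -, t3⟩ := N.uniq u 0 b (v l) gu (h0 ▸ o.2)
  exact Or.inr ⟨t, ⟨t1, l, t3.symm⟩, t3⟩

lemma fwd_eq (hw : Nice w) (hv : Bi w v) (hu : Bi w u) (h0 : v 0 = u 0)
    (hi : ∀ n : ℤ, ∃ a b, n ≤ b ∧ 0 ≤ a ∧ v a = u b) {t : ℤ} (ht : 0 ≤ t) : v t = u t := by
  obtain ⟨a, b, h1, h2, h3⟩ := hi t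
  obtain ⟨c, d⟩ := (hv 0 a h2).eq hw (hu 0 b (by omega)) h0 h3
  simpa using d t ht (by omega)

lemma tail (hw : Nice w) (hv : Bi w v) (hu : Bi w u) (h0 : v 0 = u 0)
    (hi : {b : ℤ | 0 ≤ b ∧ u b ∈ Set.range v}.Infinite) :
    (∀ t, 0 ≤ t → v t = u t) ∨ ∀ t, 0 ≤ t → rev v t = u t := by
  have h1 : ∀ n : ℤ, ∃ b, n ≤ b ∧ u b ∈ Set.range v := fun n => by
    by_contra hc
    push Not at hc
    refine hi ((Set.finite_Icc 0 n).subset fun b hb => ⟨hb.1, ?_⟩)
    by_contra hn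
    exact hc b (not_le.1 hn).le hb.2
  by_cases c : ∀ n : ℤ, ∃ a b, n ≤ b ∧ 0 ≤ a ∧ v a = u b
  · exact Or.inl fun t ht => fwd_eq hw hv hu h0 c ht
  · push Not at c
    obtain ⟨n0, c⟩ := c
    refine Or.inr fun t ht => fwd_eq hw hv.rev hu h0 (fun n => ?_) ht
    obtain ⟨b, b1, a, rfl'⟩ := h1 (max n n0)
    refine ⟨-a, b, by omega, ?_, by simpa [rev] using rfl'⟩
    by_contra hc
    exact c a b (by omega) (by omega) rfl'

lemma fin_core (h : Typ p w) (hv : Bi w v) (hu : Bi w u) (hr : Set.range v ≠ Set.range u)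
    (he : ∀ t, 0 ≤ t → v t = u t) : False := by
  have h0 := he 0 le_rfl
  refine propY h hv.rev hu.rev h0 ⟨0, fun a b ha hb => ?_⟩ ?_
  · have := hu.on h.nice.nn (a := -b) (b := 0) (c := -a) (by omega) (by omega)
    simp only [rev, neg_zero, he (-a) (by omega), h0]
    rw [T_symm w (u (-a)), T_symm w (u 0) (u (-b)), T_symm w (u (-a))]
    unfold On at this; linarith
  by_contra hc
  rcases tail h.nice hv.rev hu.rev h0 hc with e | e
  · refine hr (congrArg _ (funext fun t => ?_))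
    rcases le_total 0 t with c | c
    · exact he t c
    · simpa [rev] using e (-t) (by omega)
  · have := e 1 (by omega)
    simp only [rev, neg_neg, he 1 (by omega)] at this
    have := hu.inj h.nice.pos this
    omega

lemma fin_fwd (h : Typ p w) (hv : Bi w v) (hu : Bi w u) (hr : Set.range v ≠ Set.range u) :
    {b : ℤ | 0 ≤ b ∧ u b ∈ Set.range v}.Finite := by
  by_contra hc
  obtain ⟨b0, h1, a0, h2⟩ := Set.Infinite.nonempty hc
  have hi : {b : ℤ | 0 ≤ b ∧ sh u b0 b ∈ Set.range (sh v a0)}.Infinite := fun hf => hc <| by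
    refine ((Set.finite_Icc 0 b0).union (hf.image (· + b0))).subset fun b hb => ?_
    rcases le_total b b0 with c | c
    · exact Or.inl ⟨hb.1, c⟩
    · exact Or.inr ⟨b - b0, ⟨by omega, by simpa [sh] using hb.2⟩, by simp⟩
  rcases tail h.nice (hv.sh a0) (hu.sh b0) (by simpa [sh] using h2) hi with e | e
  · exact fin_core h (hv.sh a0) (hu.sh b0) (by simpa using hr) e
  · exact fin_core h (hv.sh a0).rev (hu.sh b0) (by simpa using hr) e

/-- distinct bigeodesics meet finitely often (`Geo.eq` and `propY` for the reversed paths) -/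
lemma fin_inter (h : Typ p w) (hv : Bi w v) (hu : Bi w u) (hr : Set.range v ≠ Set.range u) :
    {b : ℤ | u b ∈ Set.range v}.Finite := by
  refine ((fin_fwd h hv hu hr).union ((fin_fwd h hv hu.rev (by simpa using hr)).image
    Neg.neg)).subset fun b hb => ?_
  rcases le_total 0 b with c | c
  · exact Or.inl ⟨c, hb⟩
  · exact Or.inr ⟨-b, ⟨by omega, by simpa [rev] using hb⟩, by simp⟩

lemma propY' (h : Typ p w) (hv : Bi w v) (hu : Bi w u) (hr : Set.range v ≠ Set.range u)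
    (hi : ∃ i j, v i = u j) : ¬ Hyb w v u := by
  obtain ⟨i, j, e⟩ := hi
  exact fun hy => propY h (hv.sh i) (hu.sh j) (by simpa [sh] using e) (hy.sh h.nice.nn hv hu i j)
    ((fin_inter h (hv.sh i) (hu.sh j) (by simpa using hr)).subset fun b hb => hb.2)

/-- `apex_create` with `g' = v`, `g = u` at all scales: a uniform window `η` on
`v[i1,i2] × u[l, ∞)` and enough gain on `[i1,i2)` are impossible -/
lemma propX_core (h : Typ p w) (hv : Bi w v) (hu : Bi w u) (hd : ∀ k l, v k ≠ u l)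
    {i1 i2 l0 : ℤ} {K η : ℝ} (o : i1 ≤ i2) (hη : 0 < η)
    (hK : ∀ a b, a ≤ i1 → l0 ≤ b →
      T w (v a) (v i2) + T w (v i2) (u l0) + T w (u l0) (u b) - T w (v a) (u b) ≤ K)
    (A : Finset ℤ) (hA : ∀ t ∈ A, i1 ≤ t ∧ t < i2 ∧ p.b ≤ w (ed v t))
    (hg : 2 * K + 1 < A.card * (p.b - p.a))
    (win : ∀ k l, i1 ≤ k → k ≤ i2 → l0 ≤ l →
      η ≤ (Bu w v (u l) - Bu w u (u l)) - (Bu w v (v k) - Bu w u (v k))) : False := by
  classical
  have nn := h.nice.nn
  have hab := p.hab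
  have iv := hv.inj h.nice.pos
  have iu := hu.inj h.nice.pos
  obtain ⟨η', S, e1, e2, hS, hpe⟩ := h.soft (min (η / 2) 1) (lt_min (half_pos hη) one_pos)
  set η1 := min (η / 2) 1
  have η2 : η1 < η := (min_le_left _ _).trans_lt (half_lt_self hη)
  obtain ⟨k0, k1, hk⟩ := hu.T_large h.nice (u l0) (T w (v i1) (v i2) + 2 * K + 1)
  have hD := hk (max k0 l0) (by rw [abs_eq_max_neg]; omega)
  have l01 := le_max_right k0 l0
  set l1 := max k0 l0
  obtain ⟨l, hl⟩ := hpe (u l0)
  obtain ⟨n, hn⟩ := exists_nat_gt (K / η')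
  obtain ⟨B, hB, cB⟩ := hl.pick (v := u) (i := l0) (k := l1) (l := l1 + (l1 - l0) + l + 2 * n) rfl
    l01 (by omega) (by omega) (hu.walk _ _) iu.injOn
  set l2 := l1 + (l1 - l0) + l + 2 * n
  have dis : ∀ t, ed u t ∉ A.image (ed v) := fun t c => by
    obtain ⟨k, -, e⟩ := Finset.mem_image.1 c
    rcases ((hu.walk t (t + 1)).end_ed le_rfl (by omega)).1
      (e ▸ ((hv.walk k (k + 1)).end_ed le_rfl (by omega)).2 (Or.inl rfl)) with f | f <;>
      exact hd _ _ f
  obtain ⟨s, hs, hN⟩ := h.mdf (A.image (ed v) ∪ B.image (ed u)) (fun e =>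
    if e ∈ A.image (ed v) then Set.Icc 0 p.a else Set.Icc (w e - η1) (w e - η')) fun e he => by
      split_ifs with c
      · exact ⟨measurableSet_Icc, p.hGa⟩
      · obtain ⟨t, ht, rfl⟩ := Finset.mem_image.1 ((Finset.mem_union.1 he).resolve_left c)
        exact ⟨measurableSet_Icc, hS _ (hB t ht).2.2⟩
  have sA : ∀ t ∈ A, p.b - p.a ≤ w (ed v t) - s (ed v t) := fun t ht => by
    have m := Finset.mem_image_of_mem (ed v) ht
    have := hs _ (Finset.mem_union_left _ m)
    simp only [m, if_true] at this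
    have := this.2
    have := (hA t ht).2.2
    linarith
  have sB : ∀ t ∈ B, s (ed u t) ∈ Set.Icc (w (ed u t) - η1) (w (ed u t) - η') := fun t ht => by
    have := hs _ (Finset.mem_union_right _ (Finset.mem_image_of_mem (ed u) ht))
    simpa only [dis t, if_false] using this
  refine apex_inf (α := Finset E) (Q := ((A.image (ed v) ∪ B.image (ed u)).powerset : Set _) ×ˢ
      (v '' Set.Icc i1 i2 ∪ {x | T w (v i2) x ≤ T w (v i2) (u l0) + T w (u l0) (u l2)}))
    ((Finset.finite_toSet _).prod (((Set.finite_Icc _ _).image v).union (h.nice.fin _ _))) iv iu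
    (fun F => F.piecewise s w) (fun x hx => (hN _ (Finset.mem_powerset.1 hx.1)).2)
    (max (max 0 (-i1)) (max i2 l2)) fun a b b' ha hb hb' => ?_
  obtain ⟨F, hF, k, c1, c2, c3, c4⟩ := apex_create h.nice (K := K) (η := η1)
    (hv a b' (by omega)) (hu l0 b (by omega)) (show a ≤ i1 by omega) o (by omega) l01
    (show l1 ≤ l2 by omega) (by omega) (fun k l _ _ _ _ => hd k l)
    (A.image (ed v)) (B.image (ed u)) s
    (fun e he => by
      obtain ⟨t, ht, rfl⟩ := Finset.mem_image.1 he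
      exact ⟨⟨t, (hA t ht).1, (hA t ht).2.1, rfl⟩, by linarith [sA t ht]⟩)
    (fun e he => by
      obtain ⟨t, ht, rfl⟩ := Finset.mem_image.1 he
      exact ⟨⟨t, (hB t ht).1, (hB t ht).2.1, rfl⟩, by linarith [(sB t ht).2], (sB t ht).1⟩)
    (by linarith) (min_le_right _ _) (hK a b (by omega) (by omega))
    (hg.trans_le (sum_gain' h.nice hv sA))
    (by
      have h1 := sum_gain' (s := s) (c := η') h.nice hu fun t ht => by linarith [(sB t ht).2]
      have : (n : ℝ) ≤ B.card := by exact_mod_cast (show n ≤ B.card by omega)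
      rw [div_lt_iff₀ e1] at hn
      nlinarith)
    hD
    (fun k m a1 a2 a3 a4 => by
      have := win k m a1 a2 (by omega)
      have := Bu_le nn hv (u m) (m := b') (by omega)
      have := Bu_eq nn hv (k := k) (m := b') (by omega) (by omega)
      have := Bu_le nn hu (v k) (m := b) (by omega)
      have := Bu_eq nn hu (k := m) (m := b) (by omega) (by omega)
      linarith)
    fun F hF => (hN F hF).1
  refine ⟨(F, v k), ⟨Finset.mem_powerset.2 hF, ?_⟩, c3⟩
  exact c4.imp (fun c => ⟨k, ⟨c1, c⟩, rfl⟩) id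

lemma F_mono (hw : NN w) (hv : Bi w v) (hu : Bi w u) {i j : ℤ} (h : i ≤ j) :
    Bu w v (v j) - Bu w u (v j) ≤ Bu w v (v i) - Bu w u (v i) := by
  have := Bu_on hw hv h
  have := Bu_lip hw hu (v i) (v j)
  linarith

lemma Hyb.F_le (hw : NN w) (hv : Bi w v) (hu : Bi w u) (h : Hyb w v u) :
    ∃ K, ∀ a, Bu w v (v a) - Bu w u (v a) ≤ K := by
  obtain ⟨K, h⟩ := h
  have key : ∀ a, a ≤ 0 → Bu w v (v a) - Bu w u (v a) ≤ K := fun a ha => by
    have h1 : T w (v a) (v 0) - K ≤ Bu w u (v a) :=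
      le_Bu hw hu 0 fun m _ hm => by linarith [h a m ha hm]
    have := Bu_on hw hv ha
    have := Bu_zero hw hv
    linarith
  refine ⟨K, fun a => ?_⟩
  rcases le_total a 0 with c | c
  exacts [key a c, (F_mono hw hv hu c).trans (key 0 le_rfl)]

/-- one-sided step: a positive window at the forward ends is impossible.  With
`F = Bu v - Bu u` (nondecreasing along `u`, nonincreasing along `v`, `F (v a) ≤ K`,
`F (u a) ≥ -K` for `a ≤ 0`): if `F` is bounded below on `v` use `propX_core` with `i1 = k`,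
`i2` far and `l0` far (almost optimal connector); otherwise swap the roles of `v` and `u`. -/
lemma propX_win (h : Typ p w) (hv : Bi w v) (hu : Bi w u) (hd : ∀ k l, v k ≠ u l)
    (h1 : Hyb w v u) (h2 : Hyb w u v) (k l : ℤ) :
    Bu w v (u l) - Bu w u (u l) ≤ Bu w v (v k) - Bu w u (v k) := by
  have nn := h.nice.nn
  by_contra hc
  obtain ⟨K1, hK1⟩ := h1.F_le nn hv hu
  by_cases bd : ∃ B, ∀ t, -B ≤ Bu w v (v t) - Bu w u (v t)
  · obtain ⟨B, hB⟩ := bd
    obtain ⟨j, A, j0, hA, cA⟩ := h.heavy_fwd hv k (2 * (K1 + B + 1) + 1)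
    obtain ⟨m0, m1, hm⟩ := Bu_tend nn hu (v j) one_pos
    have hm := hm (max m0 l) (le_max_left _ _)
    refine propX_core h hv hu hd (l0 := max m0 l) j0 (sub_pos.2 (not_le.1 hc))
      (fun a b ha hb => ?_) A hA cA fun k' l' a1 a2 a3 => ?_
    · have := Bu_le nn hu (v a) (m := b) (by omega)
      have := Bu_on nn hv (show a ≤ j by omega)
      have := hK1 a
      have := hB j
      have := hu.on nn (a := 0) (b := max m0 l) (c := b) (by omega) hb
      unfold On at this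
      linarith
    · have := F_mono nn hv hu a1
      have := F_mono nn hu hv (show l ≤ l' by omega)
      linarith
  · push Not at bd
    obtain ⟨K2, hK2⟩ := h2.F_le nn hu hv
    obtain ⟨K3, hK3⟩ := h2
    obtain ⟨t0, ht0⟩ := bd (K2 + 1)
    have ht := (F_mono nn hv hu (le_max_left t0 0)).trans_lt ht0
    obtain ⟨j, A, j0, hA, cA⟩ := h.heavy_bwd hu 0 (2 * (T w (u 0) (v (max t0 0)) + K3) + 1)
    refine propX_core h hu hv (fun k l => (hd l k).symm) (l0 := max t0 0) j0 one_pos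
      (fun a b ha hb => ?_) A hA cA fun k' l' a1 a2 a3 => ?_
    · have := hK3 a b (by omega) (by omega)
      have := T_nonneg nn (v 0) (v (max t0 0))
      have := hv.on nn (a := 0) (b := max t0 0) (c := b) (by omega) hb
      unfold On at this
      linarith
    · have := F_mono nn hv hu a3
      have := hK2 k'
      linarith

/-- (X) by `propX_win` for both ends the two bigeodesics are twins, contradicting `no_detour` -/
lemma propX {c : ℝ} (hc : 0 < c) (h : Typ p w) (hv : Rob c w v) (hu : Bi w u)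
    (hd : ∀ k l, v k ≠ u l) (h1 : Hyb w v u) (h2 : Hyb w u v) : False := by
  obtain ⟨k, hk⟩ := hv
  have hv := hk.1
  have nn := h.nice.nn
  have w1 := propX_win h hv hu hd h1 h2
  have w2 : ∀ k l, Bu w (rev v) (u l) - Bu w (rev u) (u l) ≤
      Bu w (rev v) (v k) - Bu w (rev u) (v k) := fun k l => by
    simpa only [rev, neg_neg] using
      propX_win h hv.rev hu.rev (fun k l => hd _ _) h2.rev h1.rev (-k) (-l)
  obtain ⟨t, t0, ht⟩ := hu.T_large h.nice (u 0) (|Bu w u (v k)| + |Bu w u (v (k + 1))| +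
    |Bu w (rev u) (v k)| + |Bu w (rev u) (v (k + 1))|)
  have a1 := ht t (le_abs_self t)
  have a2 := ht (-t) (by rw [abs_neg]; exact le_abs_self t)
  have b1 := neg_abs_le (Bu w u (v k))
  have b2 := neg_abs_le (Bu w u (v (k + 1)))
  have b3 := neg_abs_le (Bu w (rev u) (v k))
  have b4 := neg_abs_le (Bu w (rev u) (v (k + 1)))
  have c1 := abs_nonneg (Bu w u (v k))
  have c2 := abs_nonneg (Bu w u (v (k + 1)))
  have c3 := abs_nonneg (Bu w (rev u) (v k))
  have c4 := abs_nonneg (Bu w (rev u) (v (k + 1)))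
  have d1 := Bu_on nn hu t0
  have d2 := Bu_on_rev nn hu (show -t ≤ 0 by omega)
  have d3 := Bu_zero nn hu
  have d4 : Bu w (rev u) (u 0) = 0 := Bu_zero nn hu.rev
  rw [T_symm] at a2
  refine hk.no_detour h.nice hc hu (fun t => (hd _ _).symm) (show -t ≤ t by omega) ?_ ?_ ?_
  · have := w1 k t
    have := w2 k (-t)
    have := Bu_sum_on nn hv k
    have := Bu_sum_nonneg nn hu (v k)
    have := hu.on nn (show -t ≤ 0 by omega) t0
    unfold On at this
    linarith
  · rintro x (rfl | rfl)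
    · linarith [w2 k (-t), T_nonneg nn (v k) (u (-t))]
    · linarith [w2 (k + 1) (-t), T_nonneg nn (v (k + 1)) (u (-t))]
  · rintro x (rfl | rfl)
    · linarith [w1 k t, T_nonneg nn (v k) (u t)]
    · linarith [w1 (k + 1) t, T_nonneg nn (v (k + 1)) (u t)]

theorem propZ {c : ℝ} (hc : 0 < c) (h : Typ p w) (hv : Rob c w v) (hu : Bi w u)
    (hr : Set.range v ≠ Set.range u) : ¬ (Hyb w v u ∧ Hyb w u v) := by
  rintro ⟨h1, h2⟩
  by_cases hi : ∃ i j, v i = u j
  · exact propY' h hv.bi hu hr hi h1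
  · push Not at hi
    exact propX hc h hv hu hi h1 h2

end Vale.Agent.P158N
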